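import Vale.Agent.P277.H619.StD
import Vale.Agent.P277.H73.Final
import Vale.Agent.P277.A.Emb

/-!
# P277, package D: the choice of the sections of `L^{-k}` (D6)
-/

open scoped Manifold ContDiff Topology
open Vale.Agent.P272.K Vale.Agent.P285.H281.FD Set Filter

noncomputable section

namespace Vale.Agent.P277.H615

open Vale.Agent.P277 Vale.Agent.P277.H619

/-- A generic vector avoids countably many proper subspaces. -/
theorem exists_generic {M : ℕ} {H : Set (Submodule ℂ (Fin M → ℂ))} (hc : H.Countable)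
    (hne : ∀ K ∈ H, K ≠ ⊤) : ∃ w, ∀ K ∈ H, w ∉ K := by
  rcases H.eq_empty_or_nonempty with rfl | hn
  · exact ⟨0, by simp⟩
  obtain ⟨F, hF⟩ := hc.exists_eq_range hn
  obtain ⟨w, hw⟩ := H73.stC2 M F (fun k => hne _ (by rw [hF]; exact mem_range_self k))
  refine ⟨w, ?_⟩
  rw [hF]
  rintro _ ⟨k, rfl⟩
  exact hw k

/-! ### linear algebra in the dual of `ℂ⁴` -/

theorem finrank_dual4 : Module.finrank ℂ (Cm 4 →L[ℂ] ℂ) = 4 := by
  have h1 : Module.finrank ℂ (Cm 4 →L[ℂ] ℂ) = Module.finrank ℂ (Cm 4 →ₗ[ℂ] ℂ) :=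
    (LinearMap.toContinuousLinearMap (𝕜 := ℂ) (E := Cm 4) (F' := ℂ)).finrank_eq.symm
  rw [h1, Module.finrank_linearMap_self]
  simp

theorem span_ne_top {n : ℕ} (hn : n < 4) (u : Fin n → (Cm 4 →L[ℂ] ℂ)) :
    Submodule.span ℂ (range u) ≠ ⊤ := by
  intro h
  have h1 : Module.finrank ℂ (Submodule.span ℂ (range u)) ≤ Fintype.card (Fin n) :=
    finrank_range_le_card u
  rw [h, finrank_top, finrank_dual4, Fintype.card_fin] at h1
  omega

/-- the functionals `∑ w m • d m` in a proper subspace -/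
def badF {M : ℕ} (d : Fin M → (Cm 4 →L[ℂ] ℂ)) (W : Submodule ℂ (Cm 4 →L[ℂ] ℂ)) :
    Submodule ℂ (Fin M → ℂ) := W.comap (Fintype.linearCombination ℂ d)

theorem badF_ne_top {M : ℕ} {d : Fin M → (Cm 4 →L[ℂ] ℂ)} {W : Submodule ℂ (Cm 4 →L[ℂ] ℂ)}
    (hd : Submodule.span ℂ (range d) = ⊤) (hW : W ≠ ⊤) : badF d W ≠ ⊤ := by
  intro h
  apply hW
  have h1 : LinearMap.range (Fintype.linearCombination ℂ d) = ⊤ := by
    rw [Fintype.range_linearCombination, hd]
  have h2 := LinearMap.range_eq_top.1 h1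
  rw [eq_top_iff]
  intro x _
  obtain ⟨w, rfl⟩ := h2 x
  have h3 : w ∈ badF d W := by rw [h]; trivial
  exact h3

theorem mem_badF {M : ℕ} {d : Fin M → (Cm 4 →L[ℂ] ℂ)} {W : Submodule ℂ (Cm 4 →L[ℂ] ℂ)}
    {w : Fin M → ℂ} : w ∈ badF d W ↔ ∑ m, w m • d m ∈ W := by
  rw [badF, Submodule.mem_comap, Fintype.linearCombination_apply]

/-- independent functionals have a nonzero determinant -/
theorem det_ne_zero_of_indep {φ : Fin 4 → (Cm 4 →L[ℂ] ℂ)} (h : LinearIndependent ℂ φ) :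
    (Matrix.of fun i j => φ i (Pi.single j 1)).det ≠ 0 := by
  let ev : (Cm 4 →L[ℂ] ℂ) →ₗ[ℂ] (Fin 4 → ℂ) :=
    { toFun := fun g j => g (Pi.single j 1)
      map_add' := fun _ _ => rfl
      map_smul' := fun _ _ => rfl }
  have hev : LinearMap.ker ev = ⊥ := by
    rw [LinearMap.ker_eq_bot']
    intro g hg
    ext x
    have h1 : x = ∑ j, x j • (Pi.single j (1 : ℂ) : Cm 4) := by
      ext i
      simp [Finset.sum_apply, Pi.single_apply]
    rw [h1, map_sum]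
    simp only [map_smul, zero_apply]
    exact Finset.sum_eq_zero fun j _ => by
      have : g (Pi.single j 1) = 0 := congrFun hg j
      rw [this, smul_zero]
  have h2 : LinearIndependent ℂ (ev ∘ φ) := h.map' ev hev
  have h3 : LinearIndependent ℂ (Matrix.of fun i j => φ i (Pi.single j 1)).row := h2
  rw [Matrix.linearIndependent_rows_iff_isUnit, Matrix.isUnit_iff_isUnit_det] at h3
  exact h3.ne_zero

/-! ### differentials -/

section
variable {Y : Type} [TopologicalSpace Y] [ChartedSpace (Cm 4) Y] {X Z : CSp} {O : Set Y}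
  {v : Y → X.pt} {f : X.pt → Z.pt} {A : Set Z.pt}

theorem hasF (hv : IsOpenEmb X O v) {y : Y} (hy : y ∈ O) {e : Chart 4 Y} (he : At e y)
    {h : X.pt → ℂ} (hh : X.Hol h (v y)) :
    HasFDerivAt (fun z => h (v (e.symm z))) (dfr v e y h) (e y) :=
  ((hv.hol_iff hy he).1 hh).differentiableAt.hasFDerivAt

theorem dfr_lin (hv : IsOpenEmb X O v) {y : Y} (hy : y ∈ O) {e : Chart 4 Y} (he : At e y)
    {M : ℕ} {ι : Type} (U : Fin M → ι → X.pt → ℂ) (i : ι) (hU : ∀ m, X.Hol (U m i) (v y))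
    (w : Fin M → ℂ) :
    dfr v e y (lin w U i) = ∑ m, w m • dfr v e y (U m i) := by
  have h1 : HasFDerivAt (fun z => ∑ m, w m * U m i (v (e.symm z)))
      (∑ m, w m • dfr v e y (U m i)) (e y) :=
    HasFDerivAt.fun_sum fun m _ => (hasF hv hy he (hU m)).const_mul (w m)
  exact h1.fderiv

theorem dfr_mul_zero (hv : IsOpenEmb X O v) {y : Y} (hy : y ∈ O) {e : Chart 4 Y} (he : At e y)
    {g h : X.pt → ℂ} (hg : X.Hol g (v y)) (hh : X.Hol h (v y)) (h0 : g (v y) = 0) :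
    dfr v e y (fun x => g x * h x) = h (v y) • dfr v e y g := by
  have h1 := (hasF hv hy he hg).mul (hasF hv hy he hh)
  have h2 : e.symm (e y) = y := e.left_inv he.2
  rw [h2, h0] at h1
  have h3 : (0 : ℂ) • dfr v e y h + h (v y) • dfr v e y g = h (v y) • dfr v e y g := by
    ext x
    simp
  exact h1.fderiv.trans h3

theorem dfr_sub (hv : IsOpenEmb X O v) {y : Y} (hy : y ∈ O) {e : Chart 4 Y} (he : At e y)
    {g h : X.pt → ℂ} (hg : X.Hol g (v y)) (hh : X.Hol h (v y)) :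
    dfr v e y (fun x => g x - h x) = dfr v e y g - dfr v e y h :=
  ((hasF hv hy he hg).sub (hasF hv hy he hh)).fderiv

theorem dfr_const_mul (hv : IsOpenEmb X O v) {y : Y} (hy : y ∈ O) {e : Chart 4 Y} (he : At e y)
    {g : X.pt → ℂ} (hg : X.Hol g (v y)) (c : ℂ) :
    dfr v e y (fun x => c * g x) = c • dfr v e y g :=
  ((hasF hv hy he hg).const_mul c).fderiv

/-- The differentials of the coordinates of `Z` span, at a point where `f` is an isomorphism. -/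
theorem span_coord (hv : IsOpenEmb X O v) (sm : IsSmall X Z f A) {V : Set Z.pt} {N : ℕ}
    {ψ : Fin N → Z.pt → ℂ} (hψ : IsCoord Z V ψ) {y : Y} (hy : y ∈ O) {e : Chart 4 Y}
    (he : At e y) (hyV : f (v y) ∈ V) (hyA : f (v y) ∉ A) {S : Submodule ℂ (Cm 4 →L[ℂ] ℂ)}
    (hS : ∀ a, dfr v e y (fun x => ψ a (f x)) ∈ S) : S = ⊤ := by
  -- the coordinates of the chart
  have hproj : ∀ b : Fin 4, (ContinuousLinearMap.proj b : Cm 4 →L[ℂ] ℂ) ∈ S := by
    intro b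
    have h1 := hv.hol_chart y hy he b
    obtain ⟨h, hh, hh'⟩ := sm.iso (v y) _ hyA h1
    obtain ⟨g, hg, hg'⟩ := (hψ.iff _ hyV h).1 hh
    -- z b = g (ψ (f (v (e.symm z))))
    have hcv : ContinuousAt (fun z => v (e.symm z)) (e y) := by
      have c1 : ContinuousAt e.symm (e y) := e.continuousAt_symm (e.map_source he.2)
      have c2 : ContinuousAt v (e.symm (e y)) := by
        rw [e.left_inv he.2]; exact hv.continuousAt hy
      exact ContinuousAt.comp (f := e.symm) (g := v) c2 c1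
    have hcv' : Tendsto (fun z => v (e.symm z)) (𝓝 (e y)) (𝓝 (v y)) := by
      have := hcv.tendsto
      rwa [e.left_inv he.2] at this
    have hcf : Tendsto (fun z => f (v (e.symm z))) (𝓝 (e y)) (𝓝 (f (v y))) :=
      (sm.cont.continuousAt (x := v y)).tendsto.comp hcv'
    have hO : ∀ᶠ z in 𝓝 (e y), e.symm z ∈ O := by
      have c1 : ContinuousAt e.symm (e y) := e.continuousAt_symm (e.map_source he.2)
      refine c1.eventually_mem ?_
      rw [e.left_inv he.2]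
      exact hv.isOpen.mem_nhds hy
    have e1 : (fun z : Cm 4 => z b) =ᶠ[𝓝 (e y)]
        fun z => g fun a => ψ a (f (v (e.symm z))) := by
      filter_upwards [hcv'.eventually hh', hcf.eventually hg', hO,
        e.open_target.mem_nhds (e.map_source he.2)] with z z1 z2 z3 z4
      have z5 : e (hv.inv y (v (e.symm z))) b = h (f (v (e.symm z))) := z1
      rw [hv.inv_apply y z3, e.right_inv z4] at z5
      rw [z5]
      exact z2
    have hd : HasFDerivAt (fun z => fun a => ψ a (f (v (e.symm z))))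
        (ContinuousLinearMap.pi fun a => dfr v e y (fun x => ψ a (f x))) (e y) :=
      hasFDerivAt_pi'.2 fun a => hasF hv hy he (sm.holo _ _ (hψ.hol a _ hyV))
    have hg1 : HasFDerivAt g (fderiv ℂ g (fun a => ψ a (f (v y)))) (fun a => ψ a (f (v y))) :=
      hg.differentiableAt.hasFDerivAt
    have hd2 : HasFDerivAt (fun z => g fun a => ψ a (f (v (e.symm z))))
        ((fderiv ℂ g (fun a => ψ a (f (v y)))).comp
          (ContinuousLinearMap.pi fun a => dfr v e y (fun x => ψ a (f x)))) (e y) := by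
      refine HasFDerivAt.comp (g := g) (e y) ?_ hd
      rw [e.left_inv he.2]
      exact hg1
    have hd3 : HasFDerivAt (fun z : Cm 4 => z b) (ContinuousLinearMap.proj b : Cm 4 →L[ℂ] ℂ) (e y) :=
      (ContinuousLinearMap.proj (R := ℂ) (φ := fun _ : Fin 4 => ℂ) b).hasFDerivAt
    have e2 := (hd2.congr_of_eventuallyEq e1).unique hd3
    rw [← e2]
    have e3 : (fderiv ℂ g (fun a => ψ a (f (v y)))).comp
        (ContinuousLinearMap.pi fun a => dfr v e y (fun x => ψ a (f x))) =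
        ∑ a, (fderiv ℂ g (fun a => ψ a (f (v y)))) (Pi.single a 1) •
          dfr v e y (fun x => ψ a (f x)) := by
      ext x
      rw [ContinuousLinearMap.comp_apply]
      have e4 : (ContinuousLinearMap.pi fun a => dfr v e y (fun x => ψ a (f x))) x =
          ∑ a, (dfr v e y (fun x => ψ a (f x)) x) • (Pi.single a (1 : ℂ) : Fin N → ℂ) := by
        ext i
        simp [Finset.sum_apply, Pi.single_apply]
      rw [e4, map_sum]
      simp only [map_smul, sum_apply, smul_apply,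
        smul_eq_mul]
      exact Finset.sum_congr rfl fun a _ => mul_comm _ _
    rw [e3]
    exact Submodule.sum_mem _ fun a _ => Submodule.smul_mem _ _ (hS a)
  rw [eq_top_iff]
  intro g _
  have h1 : g = ∑ b, g (Pi.single b 1) • (ContinuousLinearMap.proj b : Cm 4 →L[ℂ] ℂ) := by
    ext x
    have h2 : x = ∑ j, x j • (Pi.single j (1 : ℂ) : Cm 4) := by
      ext i
      simp [Finset.sum_apply, Pi.single_apply]
    conv_lhs => rw [h2]
    rw [map_sum]
    simp only [map_smul, sum_apply, smul_apply,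
      smul_eq_mul, ContinuousLinearMap.proj_apply]
    exact Finset.sum_congr rfl fun a _ => mul_comm _ _
  rw [h1]
  exact Submodule.sum_mem _ fun b _ => Submodule.smul_mem _ _ (hproj b)

end

/-! ### sections -/

section
variable {X : CSp} {P : Bd X.pt} {W : Set X.pt}

theorem secx_mul_fun {s : P.ι → X.pt → ℂ} (hs : IsSecx X W P s) {h : X.pt → ℂ}
    (hh : ∀ x ∈ W, X.Hol h x) : IsSecx X W P (fun i x => h x * s i x) where
  holo := fun i x hx hi => hol_mul (hh x hx) (hs.holo i x hx hi)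
  change := fun i j x hx hi hj => by
    show h x * s i x = P.g i j x * (h x * s j x)
    rw [hs.change i j x hx hi hj]; ring

theorem secx_sub {s s' : P.ι → X.pt → ℂ} (hs : IsSecx X W P s) (hs' : IsSecx X W P s') :
    IsSecx X W P (fun i x => s i x - s' i x) where
  holo := fun i x hx hi => hol_sub (hs.holo i x hx hi) (hs'.holo i x hx hi)
  change := fun i j x hx hi hj => by
    show s i x - s' i x = P.g i j x * (s j x - s' j x)
    rw [hs.change i j x hx hi hj, hs'.change i j x hx hi hj]; ring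

theorem secx_lin {M : ℕ} {U : Fin M → P.ι → X.pt → ℂ} (hU : ∀ m, IsSecx X W P (U m))
    (w : Fin M → ℂ) : IsSecx X W P (lin w U) where
  holo := fun i x hx hi =>
    hol_sum Finset.univ fun m _ => hol_mul (hol_const (w m) x) ((hU m).holo i x hx hi)
  change := fun _ _ _ hx hi hj => H73.lin_change hU w hx hi hj

/-- the sections which do not vanish at a point: the complement of a proper subspace -/
theorem exists_proper {M : ℕ} {U : Fin M → P.ι → X.pt → ℂ} (hU : ∀ m, IsSecx X W P (U m))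
    {x : X.pt} (hx : x ∈ W) (h : ∃ m i, x ∈ P.U i ∧ U m i x ≠ 0) :
    ∃ H : Submodule ℂ (Fin M → ℂ), H ≠ ⊤ ∧ ∀ w, w ∉ H → x ∉ Zs P (lin w U) := by
  classical
  obtain ⟨m, i, hi, hm⟩ := h
  let ev : (Fin M → ℂ) →ₗ[ℂ] ℂ :=
    { toFun := fun w => lin w U i x
      map_add' := fun w w' => by
        simp only [lin, Pi.add_apply, add_mul, Finset.sum_add_distrib]
      map_smul' := fun c w => by
        simp only [lin, Pi.smul_apply, smul_eq_mul, mul_assoc, Finset.mul_sum, RingHom.id_apply] }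
  refine ⟨LinearMap.ker ev, ?_, ?_⟩
  · intro h1
    have h2 : (Pi.single m 1 : Fin M → ℂ) ∈ LinearMap.ker ev := by rw [h1]; trivial
    rw [LinearMap.mem_ker] at h2
    have h3 : ev (Pi.single m 1) = U m i x := by
      show ∑ n, (Pi.single m 1 : Fin M → ℂ) n * U n i x = U m i x
      simp [Pi.single_apply]
    exact hm (h3 ▸ h2)
  · rintro w hw ⟨j, hj, hj0⟩
    apply hw
    rw [LinearMap.mem_ker]
    show lin w U i x = 0
    rw [H73.lin_change hU w hx hi hj, hj0, mul_zero]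

end

/-! ### the family -/

/-- The family of sections vanishing at `x₀`. -/
def fam {X Z : CSp} {ι κ : Type} (f : X.pt → Z.pt) {N : ℕ} (ψ : Fin N → Z.pt → ℂ)
    (s : κ → ι → X.pt → ℂ) (i₀ : ι) (x₀ : X.pt) :
    (κ × κ) ⊕ (Option (Fin N) × Fin N × κ) → ι → X.pt → ℂ
  | Sum.inl (l, m) => fun i x => s m i₀ x₀ * s l i x - s l i₀ x₀ * s m i x
  | Sum.inr (none, b, l) => fun i x => (ψ b (f x) - ψ b (f x₀)) * s l i x
  | Sum.inr (some a, b, l) => fun i x => (ψ a (f x) * (ψ b (f x) - ψ b (f x₀))) * s l i x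

/-- (D6), without compactness -/
def StD6' : Prop :=
  ∀ (Y : Type) [TopologicalSpace Y] [ChartedSpace (Cm 4) Y]
    (X Z : CSp) (f : X.pt → Z.pt) (A : Set Z.pt) (L : Bd X.pt)
    (_ : IsSmall X Z f A) (_ : IsLBx X L)
    (V : Set Z.pt) (_ : IsOpen V) (N : ℕ) (ψ : Fin N → Z.pt → ℂ) (_ : IsCoord Z V ψ)
    (k : ℕ) (κ : Type) [Fintype κ] (s : κ → L.ι → X.pt → ℂ)
    (_ : VA X Z f V ((Bd.inv L).pow k) s)
    (O : Set Y) (v : Y → X.pt) (_ : IsOpenEmb X O v) (_ : DimLe X 1 (v '' O)ᶜ)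
    (K : Set X.pt) (_ : K ⊆ f ⁻¹' V) (_ : DimLe X 2 K) (x₀ : X.pt) (_ : x₀ ∈ f ⁻¹' (V ∩ A))
    (_ : x₀ ∈ v '' O) (i₀ : L.ι) (_ : x₀ ∈ L.U i₀) (σ σ' : X.pt → ℂ)
    (D : ℕ → Y) (e : ℕ → Chart 4 Y) (_ : ∀ n, At (e n) (D n))
    (_ : ∀ n, D n ∈ O ∧ v (D n) ∈ L.U i₀ ∧ f (v (D n)) ∈ V ∧ f (v (D n)) ∉ A)
    (_ : ∀ n, LinearIndependent ℂ ![dfr v (e n) (D n) σ, dfr v (e n) (D n) σ']),
    ∃ s₁ s₂ : L.ι → X.pt → ℂ, IsSecx X (f ⁻¹' V) ((Bd.inv L).pow k) s₁ ∧
      IsSecx X (f ⁻¹' V) ((Bd.inv L).pow k) s₂ ∧ s₁ i₀ x₀ = 0 ∧ s₂ i₀ x₀ = 0 ∧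
      f ⁻¹' V ∩ Zs ((Bd.inv L).pow k) s₁ ∩ Zs ((Bd.inv L).pow k) s₂ ⊆ v '' O ∧
      (K ∩ (Zs ((Bd.inv L).pow k) s₁ ∩ Zs ((Bd.inv L).pow k) s₂)).Countable ∧
      ∀ n, Jac v ![s₁ i₀, s₂ i₀, σ, σ'] (e n) (e n (D n)) ≠ 0

/-- (D6) -/
theorem stD6' : StD6' := by
  classical
  intro Y _ _ X Z f A L sm hL V hV N ψ hψ k κ _ s hs O v hv hd K hK hKd x₀ hx₀ hx₀O
    i₀ hi₀ σ σ' D e he hD hσ
  have hx₀V : f x₀ ∈ V := hx₀.1
  have hx₀A : f x₀ ∈ A := hx₀.2
  have hLi : IsLBx X (Bd.inv L) :=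
    ⟨hL.isOpen, hL.cover, fun i j x hx hx' => hol_inv (hL.holo i j x hx hx') (hL.ne_zero i j x hx hx'),
      fun i j x hx hx' => inv_ne_zero (hL.ne_zero i j x hx hx'), fun i j k x hx hx' hx'' => by
        show (L.g i j x)⁻¹ * (L.g j k x)⁻¹ = (L.g i k x)⁻¹
        rw [← mul_inv, hL.cocycle i j k x hx hx' hx'']⟩
  have hP : IsLBx X ((Bd.inv L).pow k) :=
    ⟨hLi.isOpen, hLi.cover, fun i j x hx hx' => hol_pow (hLi.holo i j x hx hx') k,
      fun i j x hx hx' => pow_ne_zero k (hLi.ne_zero i j x hx hx'), fun i j l x hx hx' hx'' => by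
        show ((Bd.inv L).g i j x) ^ k * ((Bd.inv L).g j l x) ^ k = ((Bd.inv L).g i l x) ^ k
        rw [← mul_pow, hLi.cocycle i j l x hx hx' hx'']⟩
  have hVo : IsOpen (f ⁻¹' V) := hV.preimage sm.cont
  have hψf : ∀ a, ∀ x ∈ f ⁻¹' V, X.Hol (fun y => ψ a (f y)) x := fun a x hx =>
    sm.holo x _ (hψ.hol a _ hx)
  have hψc : ∀ a, ∀ x ∈ f ⁻¹' V, X.Hol (fun y => ψ a (f y) - ψ a (f x₀)) x := fun a x hx =>
    hol_sub (hψf a x hx) (hol_const _ x)
  -- the family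
  have hfam : ∀ c, IsSecx X (f ⁻¹' V) ((Bd.inv L).pow k) (fam f ψ s i₀ x₀ c) := by
    rintro (⟨l, m⟩ | ⟨_ | a, b, l⟩)
    · exact secx_sub (secx_mul_fun (hs.sec l) fun x _ => hol_const (s m i₀ x₀) x)
        (secx_mul_fun (hs.sec m) fun x _ => hol_const (s l i₀ x₀) x)
    · exact secx_mul_fun (hs.sec l) (hψc b)
    · exact secx_mul_fun (hs.sec l) fun x hx => hol_mul (hψf a x hx) (hψc b x hx)
  have hfam0 : ∀ c, fam f ψ s i₀ x₀ c i₀ x₀ = 0 := by
    rintro (⟨l, m⟩ | ⟨_ | a, b, l⟩)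
    · show s m i₀ x₀ * s l i₀ x₀ - s l i₀ x₀ * s m i₀ x₀ = 0
      ring
    · show (ψ b (f x₀) - ψ b (f x₀)) * s l i₀ x₀ = 0
      ring
    · show (ψ a (f x₀) * (ψ b (f x₀) - ψ b (f x₀))) * s l i₀ x₀ = 0
      ring
  have hinj : InjOn (fun y a => ψ a y) V := hψ.injOn
  have hne : ∀ z ∈ V, z ≠ f x₀ → ∃ b, ψ b z ≠ ψ b (f x₀) := by
    intro z hz hne
    by_contra hcon
    push Not at hcon
    exact hne (hinj hz hx₀V (funext hcon))
  have hfamne : ∀ x ∈ f ⁻¹' V, x ≠ x₀ →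
      ∃ c i, x ∈ ((Bd.inv L).pow k).U i ∧ fam f ψ s i₀ x₀ c i x ≠ 0 := by
    intro x hx hxx₀
    obtain ⟨i, hi⟩ := hL.cover x
    by_cases hfx : f x = f x₀
    · obtain ⟨l, m, hlm⟩ := hs.sep x₀ x i₀ i hx₀V hfx hxx₀ hi₀ hi
      exact ⟨Sum.inl (m, l), i, hi, sub_ne_zero.2 hlm⟩
    · obtain ⟨b, hb⟩ := hne (f x) hx hfx
      obtain ⟨l, hl⟩ := hs.gen x i hx hi
      exact ⟨Sum.inr (none, b, l), i, hi, mul_ne_zero (sub_ne_zero.2 hb) hl⟩
  have hfamspan : ∀ n, Submodule.span ℂ (range fun c =>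
      dfr v (e n) (D n) (fam f ψ s i₀ x₀ c i₀)) = ⊤ := by
    intro n
    obtain ⟨hDO, hDi, hDV, hDA⟩ := hD n
    refine span_coord hv sm hψ hDO (he n) hDV hDA ?_
    intro a
    obtain ⟨b, hb⟩ := hne (f (v (D n))) hDV (fun h => hDA (h ▸ hx₀A))
    obtain ⟨l, hl⟩ := hs.gen (v (D n)) i₀ hDV hDi
    have hsl : X.Hol (s l i₀) (v (D n)) := (hs.sec l).holo i₀ _ hDV hDi
    -- the product rule
    have h1 : dfr v (e n) (D n) (fun x => (ψ a (f x) - ψ a (f (v (D n)))) *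
        ((ψ b (f x) - ψ b (f x₀)) * s l i₀ x)) =
        ((ψ b (f (v (D n))) - ψ b (f x₀)) * s l i₀ (v (D n))) •
          dfr v (e n) (D n) (fun x => ψ a (f x) - ψ a (f (v (D n)))) :=
      dfr_mul_zero hv hDO (he n) (hol_sub (hψf a _ hDV) (hol_const _ _))
        (hol_mul (hψc b _ hDV) hsl) (sub_self _)
    have h2 : dfr v (e n) (D n) (fun x => ψ a (f x) - ψ a (f (v (D n)))) =
        dfr v (e n) (D n) (fun x => ψ a (f x)) := by
      rw [dfr_sub hv hDO (he n) (hψf a _ hDV) (hol_const _ _)]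
      have h3 : dfr v (e n) (D n) (fun _ : X.pt => ψ a (f (v (D n)))) = 0 :=
        (hasFDerivAt_const (𝕜 := ℂ) (ψ a (f (v (D n)))) (e n (D n))).fderiv
      rw [h3, sub_zero]
    have h4 : dfr v (e n) (D n) (fun x => (ψ a (f x) - ψ a (f (v (D n)))) *
        ((ψ b (f x) - ψ b (f x₀)) * s l i₀ x)) =
        dfr v (e n) (D n) (fam f ψ s i₀ x₀ (Sum.inr (some a, b, l)) i₀) -
          ψ a (f (v (D n))) • dfr v (e n) (D n) (fam f ψ s i₀ x₀ (Sum.inr (none, b, l)) i₀) := by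
      have k1 : X.Hol (fam f ψ s i₀ x₀ (Sum.inr (none, b, l)) i₀) (v (D n)) :=
        (hfam (Sum.inr (none, b, l))).holo i₀ _ hDV hDi
      have k2 : X.Hol (fam f ψ s i₀ x₀ (Sum.inr (some a, b, l)) i₀) (v (D n)) :=
        (hfam (Sum.inr (some a, b, l))).holo i₀ _ hDV hDi
      rw [← dfr_const_mul hv hDO (he n) k1, ← dfr_sub hv hDO (he n) k2
        (hol_mul (hol_const _ _) k1)]
      congr 1
      funext x
      show (ψ a (f x) - ψ a (f (v (D n)))) * ((ψ b (f x) - ψ b (f x₀)) * s l i₀ x) =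
        (ψ a (f x) * (ψ b (f x) - ψ b (f x₀))) * s l i₀ x -
          ψ a (f (v (D n))) * ((ψ b (f x) - ψ b (f x₀)) * s l i₀ x)
      ring
    have h5 : ((ψ b (f (v (D n))) - ψ b (f x₀)) * s l i₀ (v (D n))) •
        dfr v (e n) (D n) (fun x => ψ a (f x)) ∈ Submodule.span ℂ (range fun c =>
          dfr v (e n) (D n) (fam f ψ s i₀ x₀ c i₀)) := by
      rw [← h2, ← h1, h4]
      exact Submodule.sub_mem _ (Submodule.subset_span ⟨_, rfl⟩)
        (Submodule.smul_mem _ _ (Submodule.subset_span ⟨_, rfl⟩))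
    exact (Submodule.smul_mem_iff _ (mul_ne_zero (sub_ne_zero.2 hb) hl)).1 h5
  -- reindexing
  set κ' := (κ × κ) ⊕ (Option (Fin N) × Fin N × κ) with hκ'
  set M := Fintype.card κ' with hMdef
  let E : Fin M ≃ κ' := (Fintype.equivFin κ').symm
  let U : Fin M → L.ι → X.pt → ℂ := fun m => fam f ψ s i₀ x₀ (E m)
  have hM : M ≠ 0 := by
    obtain ⟨l, hl⟩ := hs.gen x₀ i₀ hx₀V hi₀
    have : Nonempty κ' := ⟨Sum.inl (l, l)⟩
    exact Fintype.card_ne_zero
  have hU : ∀ m, IsSecx X (f ⁻¹' V) ((Bd.inv L).pow k) (U m) := fun m => hfam (E m)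
  have hU0 : ∀ w : Fin M → ℂ, lin w U i₀ x₀ = 0 := fun w =>
    Finset.sum_eq_zero fun m _ => by
      show w m * fam f ψ s i₀ x₀ (E m) i₀ x₀ = 0
      rw [hfam0, mul_zero]
  have hUne : ∀ x ∈ f ⁻¹' V, x ≠ x₀ → ∃ m i, x ∈ ((Bd.inv L).pow k).U i ∧ U m i x ≠ 0 := by
    intro x hx hxx₀
    obtain ⟨c, i, hi, hc⟩ := hfamne x hx hxx₀
    refine ⟨E.symm c, i, hi, ?_⟩
    show fam f ψ s i₀ x₀ (E (E.symm c)) i x ≠ 0
    rw [E.apply_symm_apply]
    exact hc
  have hUspan : ∀ n, Submodule.span ℂ (range fun m => dfr v (e n) (D n) (U m i₀)) = ⊤ := by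
    intro n
    rw [← hfamspan n]
    congr 1
    exact E.surjective.range_comp (fun c => dfr v (e n) (D n) (fam f ψ s i₀ x₀ c i₀))
  have hUhol : ∀ n m, X.Hol (U m i₀) (v (D n)) := fun n m =>
    (hU m).holo i₀ _ (hD n).2.2.1 (hD n).2.1
  -- the bad sets
  set B : Set X.pt := (v '' O)ᶜ ∩ f ⁻¹' V with hB
  have hBd : DimLe X (0 + 1) B := hd.mono inter_subset_left
  have hBx₀ : x₀ ∉ B := fun h => h.1 hx₀O
  obtain ⟨H₁, hH₁, hH₁'⟩ := H73.stC1_final X _ hP (f ⁻¹' V) hVo M hM U hU 0 B inter_subset_right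
    hBd x₀ fun x hx hxx => hUne x hx.2 hxx
  obtain ⟨H₂, hH₂, hH₂'⟩ := H73.stC1_final X _ hP (f ⁻¹' V) hVo M hM U hU 1 K hK
    hKd x₀ fun x hx hxx => hUne x (hK hx) hxx
  have hJ2 : ∀ n, badF (fun m => dfr v (e n) (D n) (U m i₀))
      (Submodule.span ℂ (range ![dfr v (e n) (D n) σ, dfr v (e n) (D n) σ'])) ≠ ⊤ := fun n =>
    badF_ne_top (hUspan n) (span_ne_top (by norm_num) _)
  obtain ⟨w₂, hw₂⟩ := exists_generic (M := M)
    (H := range H₁ ∪ range H₂ ∪ range fun n => badF (fun m => dfr v (e n) (D n) (U m i₀))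
      (Submodule.span ℂ (range ![dfr v (e n) (D n) σ, dfr v (e n) (D n) σ'])))
    (((countable_range _).union (countable_range _)).union (countable_range _)) (by
      rintro _ ((⟨n, rfl⟩ | ⟨n, rfl⟩) | ⟨n, rfl⟩)
      · exact hH₁ n
      · exact hH₂ n
      · exact hJ2 n)
  have hs₂B : DimLe X 0 (B ∩ Zs ((Bd.inv L).pow k) (lin w₂ U)) :=
    hH₁' w₂ fun n => hw₂ _ (Or.inl (Or.inl ⟨n, rfl⟩))
  have hs₂K : DimLe X (0 + 1) (K ∩ Zs ((Bd.inv L).pow k) (lin w₂ U)) :=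
    hH₂' w₂ fun n => hw₂ _ (Or.inl (Or.inr ⟨n, rfl⟩))
  have hs₂J : ∀ n, dfr v (e n) (D n) (lin w₂ U i₀) ∉
      Submodule.span ℂ (range ![dfr v (e n) (D n) σ, dfr v (e n) (D n) σ']) := by
    intro n hn
    refine hw₂ _ (Or.inr ⟨n, rfl⟩) ?_
    rw [mem_badF, ← dfr_lin hv (hD n).1 (he n) U i₀ (hUhol n) w₂]
    exact hn
  -- the second choice
  obtain ⟨H₃, hH₃, hH₃'⟩ := H73.stC1_final X _ hP (f ⁻¹' V) hVo M hM U hU 0
    (K ∩ Zs ((Bd.inv L).pow k) (lin w₂ U)) (inter_subset_left.trans hK)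
    hs₂K x₀ fun x hx hxx => hUne x (hK hx.1) hxx
  have hcount : (B ∩ Zs ((Bd.inv L).pow k) (lin w₂ U)).Countable := hs₂B.countable
  have hprop : ∀ x : (B ∩ Zs ((Bd.inv L).pow k) (lin w₂ U) : Set X.pt),
      ∃ H : Submodule ℂ (Fin M → ℂ), H ≠ ⊤ ∧
        ∀ w, w ∉ H → x.1 ∉ Zs ((Bd.inv L).pow k) (lin w U) := by
    rintro ⟨x, hxB, hxZ⟩
    exact exists_proper hU hxB.2 (hUne x hxB.2 fun h => hBx₀ (h ▸ hxB))
  choose H₄ hH₄ hH₄' using hprop
  have hJ1 : ∀ n, badF (fun m => dfr v (e n) (D n) (U m i₀))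
      (Submodule.span ℂ (range ![dfr v (e n) (D n) (lin w₂ U i₀), dfr v (e n) (D n) σ,
        dfr v (e n) (D n) σ'])) ≠ ⊤ := fun n =>
    badF_ne_top (hUspan n) (span_ne_top (by norm_num) _)
  have : Countable (B ∩ Zs ((Bd.inv L).pow k) (lin w₂ U) : Set X.pt) := hcount.to_subtype
  obtain ⟨w₁, hw₁⟩ := exists_generic (M := M)
    (H := range H₃ ∪ range H₄ ∪ range fun n => badF (fun m => dfr v (e n) (D n) (U m i₀))
      (Submodule.span ℂ (range ![dfr v (e n) (D n) (lin w₂ U i₀), dfr v (e n) (D n) σ,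
        dfr v (e n) (D n) σ'])))
    (((countable_range _).union (countable_range _)).union (countable_range _)) (by
      rintro _ ((⟨n, rfl⟩ | ⟨n, rfl⟩) | ⟨n, rfl⟩)
      · exact hH₃ n
      · exact hH₄ n
      · exact hJ1 n)
  have hs₁K : DimLe X 0 (K ∩ Zs ((Bd.inv L).pow k) (lin w₂ U) ∩
      Zs ((Bd.inv L).pow k) (lin w₁ U)) :=
    hH₃' w₁ fun n => hw₁ _ (Or.inl (Or.inl ⟨n, rfl⟩))
  refine ⟨lin w₁ U, lin w₂ U, secx_lin hU w₁, secx_lin hU w₂, hU0 w₁, hU0 w₂, ?_, ?_, ?_⟩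
  · rintro x ⟨⟨hxV, hx1⟩, hx2⟩
    by_contra hxO
    have hxB : x ∈ B ∩ Zs ((Bd.inv L).pow k) (lin w₂ U) := ⟨⟨hxO, hxV⟩, hx2⟩
    exact hH₄' ⟨x, hxB⟩ w₁ (hw₁ _ (Or.inl (Or.inr ⟨⟨x, hxB⟩, rfl⟩))) hx1
  · refine hs₁K.countable.mono ?_
    rintro x ⟨hxK, hx1, hx2⟩
    exact ⟨⟨hxK, hx2⟩, hx1⟩
  · intro n
    have h1 : dfr v (e n) (D n) (lin w₁ U i₀) ∉
        Submodule.span ℂ (range ![dfr v (e n) (D n) (lin w₂ U i₀), dfr v (e n) (D n) σ,
          dfr v (e n) (D n) σ']) := by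
      intro hn
      refine hw₁ _ (Or.inr ⟨n, rfl⟩) ?_
      rw [mem_badF, ← dfr_lin hv (hD n).1 (he n) U i₀ (hUhol n) w₁]
      exact hn
    have h2 : LinearIndependent ℂ ![dfr v (e n) (D n) (lin w₂ U i₀), dfr v (e n) (D n) σ,
        dfr v (e n) (D n) σ'] := linearIndependent_finCons.2 ⟨hσ n, hs₂J n⟩
    have h3 : LinearIndependent ℂ ![dfr v (e n) (D n) (lin w₁ U i₀),
        dfr v (e n) (D n) (lin w₂ U i₀), dfr v (e n) (D n) σ, dfr v (e n) (D n) σ'] :=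
      linearIndependent_finCons.2 ⟨h2, h1⟩
    have h4 := det_ne_zero_of_indep h3
    have h5 : Jac v ![lin w₁ U i₀, lin w₂ U i₀, σ, σ'] (e n) (e n (D n)) =
        (Matrix.of fun i j => ![dfr v (e n) (D n) (lin w₁ U i₀),
          dfr v (e n) (D n) (lin w₂ U i₀), dfr v (e n) (D n) σ, dfr v (e n) (D n) σ'] i
            (Pi.single j 1)).det := by
      unfold Jac
      congr 1
      ext i j
      fin_cases i <;> rfl
    rw [h5]
    exact h4

/-- (D6) -/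
theorem stD6 : StD6 := fun Y _ _ _ _ _ X Z f A L _ _ sm hL =>
  stD6' Y X Z f A L sm hL

end Vale.Agent.P277.H615
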