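import Vale.Agent.P277.Stmts

/-!
# P277: transport of an open embedding through a flip
-/

open scoped Manifold ContDiff Topology
open Vale.Agent.P272.K Vale.Agent.P285.H281.FD Vale.Agent.P267.H175 Set

noncomputable section

namespace Vale.Agent.P277.H615

open Vale.Agent.P277

/-- The coordinates of a model are continuous. -/
theorem model_continuousAt {X : Type} [TopologicalSpace X] {Hol : (X → ℂ) → X → Prop} {V : Set X}
    {N k : ℕ} {Ω : Set (Cm N)} {h : Fin k → Cm N → ℂ} {φ : X → Cm N}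
    (H : IsModel Hol V Ω h φ) {x : X} (hx : x ∈ V) : ContinuousAt φ x := by
  have h1 : ContinuousOn φ V := continuousOn_iff_continuous_domRestrict.2 H.emb.continuous
  exact h1.continuousAt (H.isOpen.mem_nhds hx)

theorem hol_continuousAt {X : CSp} {f : X.pt → ℂ} {x : X.pt} (hf : X.Hol f x) :
    ContinuousAt f x := by
  obtain ⟨N, k, V, Ω, h, φ, hx, H⟩ := X.model x
  obtain ⟨g, hg, hfg⟩ := (H.hol x hx f).1 hf
  have h1 : ContinuousAt (g ∘ φ) x :=
    ContinuousAt.comp hg.continuousAt (model_continuousAt H hx)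
  exact h1.congr hfg.symm

theorem hol_congr {X : CSp} {f g : X.pt → ℂ} {x : X.pt} (hf : X.Hol f x) (h : g =ᶠ[𝓝 x] f) :
    X.Hol g x := by
  obtain ⟨N, k, V, Ω, hh, φ, hx, H⟩ := X.model x
  obtain ⟨G, hG, hfG⟩ := (H.hol x hx f).1 hf
  exact (H.hol x hx g).2 ⟨G, hG, h.trans hfG⟩

theorem an_closed {X : CSp} {A : Set X.pt} (hA : IsAn X univ A) : IsClosed A := by
  rw [← isOpen_compl_iff, isOpen_iff_mem_nhds]
  intro x hx
  obtain ⟨k, h, hh, hE⟩ := hA x (mem_univ x)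
  have h1 : ¬ ∀ i, h i x = 0 := fun h2 => hx (hE.self_of_nhds.2 h2)
  push Not at h1
  obtain ⟨i, hi⟩ := h1
  have h2 : ∀ᶠ y in 𝓝 x, h i y ≠ 0 := (hol_continuousAt (hh i)).eventually_ne hi
  filter_upwards [hE, h2] with y hy1 hy2 hy3
  exact hy2 (hy1.1 hy3 i)

theorem dimLe_mono {X : CSp} {d : ℕ} {S T : Set X.pt} (h : DimLe X d T) (hST : S ⊆ T) :
    DimLe X d S := by
  obtain ⟨Ω, g, h1, h2, h3⟩ := h
  exact ⟨Ω, g, h1, h2, hST.trans h3⟩

theorem dimLe_union {X : CSp} {d : ℕ} {S T : Set X.pt} (hS : DimLe X d S) (hT : DimLe X d T) :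
    DimLe X d (S ∪ T) := by
  obtain ⟨Ω, g, h1, h2, h3⟩ := hS
  obtain ⟨Ω', g', h1', h2', h3'⟩ := hT
  refine ⟨fun k => if k % 2 = 0 then Ω (k / 2) else Ω' (k / 2),
    fun k => if k % 2 = 0 then g (k / 2) else g' (k / 2), ?_, ?_, ?_⟩
  · intro k
    by_cases hk : k % 2 = 0
    · simp only [hk, if_true]; exact h1 _
    · simp only [hk, if_false]; exact h1' _
  · intro k p hp
    by_cases hk : k % 2 = 0
    · simp only [hk, if_true] at hp ⊢; exact h2 _ p hp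
    · simp only [hk, if_false] at hp ⊢; exact h2' _ p hp
  · rintro x (hx | hx)
    · obtain ⟨k, hk⟩ := mem_iUnion.1 (h3 hx)
      refine mem_iUnion.2 ⟨2 * k, ?_⟩
      have e1 : (2 * k) % 2 = 0 := by omega
      have e2 : (2 * k) / 2 = k := by omega
      simp only [e1, if_true, e2]
      exact hk
    · obtain ⟨k, hk⟩ := mem_iUnion.1 (h3' hx)
      refine mem_iUnion.2 ⟨2 * k + 1, ?_⟩
      have e1 : ¬ (2 * k + 1) % 2 = 0 := by omega
      have e2 : (2 * k + 1) / 2 = k := by omega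
      simp only [e1, if_false, e2]
      exact hk

section small

variable {X Z : CSp} {f : X.pt → Z.pt} {A : Set Z.pt}

/-- Away from `A` the morphism `f` is open. -/
theorem small_open (H : IsSmall X Z f A) {W : Set X.pt} (hW : IsOpen W)
    (hWA : ∀ x ∈ W, f x ∉ A) : IsOpen (f '' W) := by
  have h1 : f '' W = (f '' Wᶜ)ᶜ := by
    ext z
    constructor
    · rintro ⟨x, hx, rfl⟩ ⟨x', hx', hxx⟩
      exact hx' ((H.inj x x' (hWA x hx) hxx) ▸ hx)
    · intro hz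
      obtain ⟨x, rfl⟩ := H.surj z
      refine ⟨x, ?_, rfl⟩
      by_contra hx
      exact hz ⟨x, hx, rfl⟩
  rw [h1, isOpen_compl_iff]
  exact (hW.isClosed_compl.isCompact.image H.cont).isClosed

/-- a right inverse of `f` -/
def pre (H : IsSmall X Z f A) : Z.pt → X.pt := Function.surjInv H.surj

theorem f_pre (H : IsSmall X Z f A) (z : Z.pt) : f (pre H z) = z := Function.surjInv_eq H.surj z

theorem pre_f (H : IsSmall X Z f A) {x : X.pt} (hx : f x ∉ A) : pre H (f x) = x :=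
  H.inj x _ hx (f_pre H (f x))

theorem pre_continuousAt (H : IsSmall X Z f A) {z : Z.pt} (hz : z ∉ A) :
    ContinuousAt (pre H) z := by
  have hA : IsClosed A := an_closed H.an
  intro U hU
  obtain ⟨W, hWU, hW, hzW⟩ := mem_nhds_iff.1 hU
  have h1 : IsOpen (W ∩ f ⁻¹' Aᶜ) := hW.inter (hA.isOpen_compl.preimage H.cont)
  have h2 : IsOpen (f '' (W ∩ f ⁻¹' Aᶜ)) := small_open H h1 fun x hx => hx.2
  have h3 : z ∈ f '' (W ∩ f ⁻¹' Aᶜ) :=
    ⟨pre H z, ⟨hzW, by show f (pre H z) ∉ A; rw [f_pre H]; exact hz⟩, f_pre H z⟩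
  refine Filter.mem_map.2 (Filter.mem_of_superset (h2.mem_nhds h3) ?_)
  rintro _ ⟨x, ⟨hxW, hxA⟩, rfl⟩
  refine hWU ?_
  rw [pre_f H hxA]
  exact hxW

end small

section step

variable {X Z X' : CSp} {f : X.pt → Z.pt} {f' : X'.pt → Z.pt} {A : Set Z.pt}

/-- the birational map -/
def tr (f : X.pt → Z.pt) (H' : IsSmall X' Z f' A) : X.pt → X'.pt := fun x => pre H' (f x)

theorem tr_continuousAt (H : IsSmall X Z f A) (H' : IsSmall X' Z f' A) {x : X.pt} (hx : f x ∉ A) :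
    ContinuousAt (tr f H') x :=
  ContinuousAt.comp (f := f) (g := pre H') (pre_continuousAt H' hx) H.cont.continuousAt

theorem f'_tr (H' : IsSmall X' Z f' A) (x : X.pt) : f' (tr f H' x) = f x := f_pre H' (f x)

theorem tr_hol (H : IsSmall X Z f A) (H' : IsSmall X' Z f' A) {x : X.pt} (hx : f x ∉ A)
    {g : X'.pt → ℂ} (hg : X'.Hol g (tr f H' x)) : X.Hol (g ∘ tr f H') x := by
  have h1 : f' (tr f H' x) ∉ A := by rw [f'_tr H']; exact hx
  obtain ⟨h, hh, hgh⟩ := H'.iso _ g h1 hg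
  rw [f'_tr H'] at hh
  refine hol_congr (H.holo x h hh) ?_
  filter_upwards [(tr_continuousAt H H' hx).eventually hgh] with y hy
  show g (tr f H' y) = h (f y)
  rw [hy]
  show h (f' (tr f H' y)) = h (f y)
  rw [f'_tr H']

theorem tr_tr (H : IsSmall X Z f A) (H' : IsSmall X' Z f' A) {x : X.pt} (hx : f x ∉ A) :
    tr f' H (tr f H' x) = x := by
  show pre H (f' (tr f H' x)) = x
  rw [f'_tr H']
  exact pre_f H hx

/-- transport of the dimension -/
theorem dimLe_tr {d : ℕ} (H : IsSmall X Z f A) (H' : IsSmall X' Z f' A) {S : Set X.pt}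
    (hS : DimLe X d S) : DimLe X' d (tr f H' '' (S ∩ f ⁻¹' Aᶜ)) := by
  obtain ⟨Ω, g, h1, h2, h3⟩ := hS
  have hA : IsClosed A := an_closed H.an
  refine ⟨fun k => {p | p ∈ Ω k ∧ f (g k p) ∉ A}, fun k => tr f H' ∘ g k, ?_, ?_, ?_⟩
  · intro k
    have hc : ContinuousOn (f ∘ g k) (Ω k) := fun p hp =>
      (ContinuousAt.comp (f := g k) (g := f) H.cont.continuousAt (h2 k p hp).1).continuousWithinAt
    exact hc.isOpen_inter_preimage (h1 k) hA.isOpen_compl
  · rintro k p ⟨hp, hpA⟩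
    refine ⟨ContinuousAt.comp (f := g k) (g := tr f H') (tr_continuousAt H H' hpA)
      (h2 k p hp).1, fun F hF => ?_⟩
    exact (h2 k p hp).2 _ (tr_hol H H' hpA hF)
  · rintro _ ⟨x, ⟨hxS, hxA⟩, rfl⟩
    obtain ⟨k, hk⟩ := mem_iUnion.1 (h3 hxS)
    obtain ⟨p, hp, rfl⟩ := hk
    exact mem_iUnion.2 ⟨k, p, ⟨hp, hxA⟩, rfl⟩

variable {Y : Type} [TopologicalSpace Y] [ChartedSpace (Cm 4) Y]

theorem emb_tr (H : IsSmall X Z f A) (H' : IsSmall X' Z f' A) {O : Set Y} {v : Y → X.pt}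
    (hv : IsOpenEmb X O v) :
    IsOpenEmb X' {y | y ∈ O ∧ f (v y) ∉ A} (tr f H' ∘ v) := by
  have hA : IsClosed A := an_closed H.an
  have hO : IsOpen {y | y ∈ O ∧ f (v y) ∉ A} :=
    (H.cont.comp_continuousOn hv.cont).isOpen_inter_preimage hv.isOpen hA.isOpen_compl
  have hcv : ∀ y ∈ O, ContinuousAt v y := fun y hy => hv.cont.continuousAt (hv.isOpen.mem_nhds hy)
  refine ⟨hO, ?_, ?_, ?_, ?_⟩
  · rintro y ⟨hy, hyA⟩
    exact (ContinuousAt.comp (f := v) (g := tr f H') (tr_continuousAt H H' hyA)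
      (hcv y hy)).continuousWithinAt
  · rintro y ⟨hy, hyA⟩ y' ⟨hy', hyA'⟩ h
    refine hv.inj hy hy' ?_
    have h1 := congrArg (tr f' H) h
    simp only [Function.comp_apply] at h1
    rwa [tr_tr H H' hyA, tr_tr H H' hyA'] at h1
  · intro W hW hWo
    have h1 : IsOpen (v '' W) := hv.isOpenMap W (fun y hy => (hW hy).1) hWo
    have h2 : ∀ x ∈ v '' W, f x ∉ A := by rintro _ ⟨y, hy, rfl⟩; exact (hW hy).2
    have h3 : IsOpen (f '' (v '' W)) := small_open H h1 h2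
    have h4 : (tr f H' ∘ v) '' W = f' ⁻¹' (f '' (v '' W)) := by
      ext x'
      constructor
      · rintro ⟨y, hy, rfl⟩
        exact ⟨v y, ⟨y, hy, rfl⟩, (f'_tr H' (v y)).symm⟩
      · rintro ⟨_, ⟨y, hy, rfl⟩, hx'⟩
        refine ⟨y, hy, ?_⟩
        show pre H' (f (v y)) = x'
        rw [hx']
        exact pre_f H' (by rw [← hx']; exact (hW hy).2)
    rw [h4]
    exact h3.preimage H'.cont
  · rintro y ⟨hy, hyA⟩ e he g
    constructor
    · intro hg
      exact (hv.hol y hy e he _).1 (tr_hol H H' hyA hg)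
    · intro hg
      have h1 : X.Hol (g ∘ tr f H') (v y) := (hv.hol y hy e he _).2 hg
      have h2 : f' (tr f H' (v y)) ∉ A := by rw [f'_tr H']; exact hyA
      have h3 : X'.Hol ((g ∘ tr f H') ∘ tr f' H) (tr f H' (v y)) := by
        refine tr_hol H' H h2 ?_
        rw [tr_tr H H' hyA]
        exact h1
      refine hol_congr h3 ?_
      have h4 : f' ⁻¹' Aᶜ ∈ 𝓝 (tr f H' (v y)) := (hA.isOpen_compl.preimage H'.cont).mem_nhds h2
      filter_upwards [h4] with x' hx'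
      show g x' = g (tr f H' (tr f' H x'))
      rw [tr_tr H' H hx']

theorem compl_tr (H : IsSmall X Z f A) (H' : IsSmall X' Z f' A) {O : Set Y} {v : Y → X.pt} :
    ((tr f H' ∘ v) '' {y | y ∈ O ∧ f (v y) ∉ A})ᶜ ⊆
      f' ⁻¹' A ∪ tr f H' '' ((v '' O)ᶜ ∩ f ⁻¹' Aᶜ) := by
  intro x' hx'
  by_cases hA : f' x' ∈ A
  · exact Or.inl hA
  right
  refine ⟨tr f' H x', ⟨?_, ?_⟩, tr_tr H' H hA⟩
  · rintro ⟨y, hy, hyx⟩
    apply hx'
    refine ⟨y, ⟨hy, ?_⟩, ?_⟩
    · rw [hyx, f'_tr H]; exact hA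
    · show tr f H' (v y) = x'
      rw [hyx, tr_tr H' H hA]
  · show f (tr f' H x') ∉ A
    rw [f'_tr H]
    exact hA

/-- the induction step -/
theorem step (H : IsSmall X Z f A) (H' : IsSmall X' Z f' A) {O : Set Y} {v : Y → X.pt}
    (hv : IsOpenEmb X O v) {d : ℕ} (hd : DimLe X d (v '' O)ᶜ) (hd' : DimLe X' d (f' ⁻¹' A)) :
    ∃ (O' : Set Y) (v' : Y → X'.pt), IsOpenEmb X' O' v' ∧ DimLe X' d (v' '' O')ᶜ ∧ O' ⊆ O ∧
      (∀ y ∈ O', f (v y) ∉ A) :=
  ⟨_, _, emb_tr H H' hv, dimLe_mono (dimLe_union hd' (dimLe_tr H H' hd)) (compl_tr H H'),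
    fun _ hy => hy.1, fun _ hy => hy.2⟩

end step

end Vale.Agent.P277.H615
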