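import Vale.Agent.P277.Stmts6
import Vale.Agent.P277.H19.Rho
import Vale.Agent.P277.H73.IFT

/-!
# P277, T2: parametrisations of a manifold with a smooth hypersurface
-/

open scoped Manifold ContDiff Topology
open Vale.Agent.P272.K Vale.Agent.P285.H281.FD Vale.Agent.P267.H175 Set Filter Metric

noncomputable section

namespace Vale.Agent.P277.H615

open Vale.Agent.P277 Vale.Agent.P277.T2 Vale.Agent.P277.H19

variable {Y : Type} [TopologicalSpace Y] [ChartedSpace (Cm 4) Y]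

theorem _root_.Vale.Agent.P277.T2.IsPar.restrict {G : Set Y} {ξ : Cm 4 → Y} {w₀ w₁ : Cm 4} {r r₁ : ℝ}
    (h : IsPar G ξ w₀ r) (h0 : w₁ 0 = 0) (hr : 0 < r₁) (hs : ball w₁ r₁ ⊆ ball w₀ r) :
    IsPar G ξ w₁ r₁ where
  pos := hr
  zero := h0
  inj := h.inj.mono hs
  openMap W hW := h.openMap W (hW.trans hs)
  cont w hw := h.cont w (hs hw)
  an w hw := h.an w (hs hw)
  mem w hw := h.mem w (hs hw)

theorem upd_mem' {w₀ w : Cm 4} {r : ℝ} (h0 : w₀ 0 = 0) (hw : w ∈ ball w₀ r) :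
    upd w 0 ∈ ball w₀ r := by
  have hr : 0 < r := dist_nonneg.trans_lt (mem_ball.1 hw)
  exact upd_mem hr h0 hw (by simpa using hr)

theorem upd_of_zero {w : Cm 4} (h : w 0 = 0) : upd w 0 = w := by
  have := upd_self w
  rwa [h] at this

theorem tendsto_upd {w : Cm 4} (h : w 0 = 0) : Tendsto (fun z : Cm 4 => upd z 0) (𝓝 w) (𝓝 w) := by
  have h1 : Continuous fun z : Cm 4 => upd z 0 :=
    differentiable_upd.continuous.comp (Continuous.prodMk continuous_id continuous_const)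
  have h2 := h1.tendsto w
  rwa [upd_of_zero h] at h2

theorem analyticAt_upd (w : Cm 4) : AnalyticAt ℂ (fun z : Cm 4 => upd z 0) w := by
  rw [analyticAt_pi_iff]
  intro i
  by_cases hi : i = 0
  · simp only [upd, hi, if_true]
    exact analyticAt_const
  · simp only [upd, hi, if_false]
    exact (ContinuousLinearMap.proj (R := ℂ) (φ := fun _ : Fin 4 => ℂ) i).analyticAt _

/-- the identity theorem on the hyperplane `{w 0 = 0}` -/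
theorem freq_ne {w₀ w₁ w₂ : Cm 4} {r : ℝ} {F : Cm 4 → ℂ} (h0 : w₀ 0 = 0)
    (hF : ∀ w ∈ ball w₀ r, AnalyticAt ℂ F w) (hw₁ : w₁ ∈ ball w₀ r) (h1 : w₁ 0 = 0)
    (hw₂ : w₂ ∈ ball w₀ r) (h2 : w₂ 0 = 0) (hne : F w₁ ≠ 0) :
    ∃ᶠ w in 𝓝 w₂, w 0 = 0 ∧ F w ≠ 0 := by
  by_contra hcon
  rw [not_frequently] at hcon
  have h3 : ∀ᶠ w in 𝓝 w₂, F (upd w 0) = 0 := by
    filter_upwards [(tendsto_upd h2).eventually hcon] with w hw
    by_contra h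
    exact hw ⟨upd_zero w 0, h⟩
  have h4 : AnalyticOnNhd ℂ (fun w => F (upd w 0)) (ball w₀ r) := fun w hw =>
    AnalyticAt.fun_comp (g := F) (hF _ (upd_mem' h0 hw)) (analyticAt_upd w)
  have h5 := h4.eqOn_zero_of_preconnected_of_eventuallyEq_zero
    (convex_ball w₀ r).isPreconnected hw₂ h3 hw₁
  simp only [Pi.zero_apply, upd_of_zero h1] at h5
  exact hne h5

/-- two functions which do not vanish identically on the hyperplane near `w₁` -/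
theorem freq_mul {w₁ : Cm 4} {F F' : Cm 4 → ℂ} (h0 : w₁ 0 = 0)
    (hF : AnalyticAt ℂ F w₁) (hF' : AnalyticAt ℂ F' w₁) (h1 : ∃ᶠ w in 𝓝 w₁, w 0 = 0 ∧ F w ≠ 0)
    (h2 : ∃ᶠ w in 𝓝 w₁, w 0 = 0 ∧ F' w ≠ 0) :
    ∃ᶠ w in 𝓝 w₁, w 0 = 0 ∧ F w ≠ 0 ∧ F' w ≠ 0 := by
  obtain ⟨r, hr, hball⟩ := Metric.eventually_nhds_iff_ball.1
    (hF.eventually_analyticAt.and hF'.eventually_analyticAt)
  by_contra hcon
  rw [not_frequently] at hcon
  have hself : w₁ ∈ ball w₁ r := mem_ball_self hr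
  -- a small open set where `F` is not zero
  have hb : ∀ᶠ w in 𝓝 w₁, w ∈ ball w₁ r := isOpen_ball.mem_nhds hself
  obtain ⟨w₂, ⟨hw₂0, hw₂F⟩, hw₂b, hw₂c⟩ := (h1.and_eventually
    (hb.and hcon.eventually_nhds)).exists
  have hFw₂ : ∀ᶠ w in 𝓝 w₂, F w ≠ 0 := (hball w₂ hw₂b).1.continuousAt.eventually_ne hw₂F
  have h3 : ∃ᶠ w in 𝓝 w₂, w 0 = 0 ∧ F' w ≠ 0 := by
    obtain ⟨w₃, ⟨hw₃0, hw₃F⟩, hw₃b⟩ := (h2.and_eventually hb).exists
    exact freq_ne h0 (fun w hw => (hball w hw).2) hw₃b hw₃0 hw₂b hw₂0 hw₃F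
  obtain ⟨w, ⟨hw0, hwF'⟩, hwF, hwc⟩ := (h3.and_eventually (hFw₂.and hw₂c)).exists
  exact hwc ⟨hw0, hwF, hwF'⟩

variable {G : Set Y} {ξ ξ' : Cm 4 → Y} {w₀ w₀' : Cm 4} {r r' : ℝ}

/-- the change of coordinates between two parametrisations -/
theorem exists_trans (h : IsPar G ξ w₀ r) (h' : IsPar G ξ' w₀' r') (heq : ξ w₀ = ξ' w₀') :
    ∃ (ψ : Cm 4 → Cm 4) (C : ℝ), AnalyticAt ℂ ψ w₀ ∧ ψ w₀ = w₀' ∧
      (∀ᶠ w in 𝓝 w₀, ξ' (ψ w) = ξ w) ∧ 0 < C ∧ ∀ᶠ w in 𝓝 w₀, ‖ψ w 0‖ ≤ C * ‖w 0‖ := by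
  have hw₀ : w₀ ∈ ball w₀ r := mem_ball_self h.pos
  have hw₀' : w₀' ∈ ball w₀' r' := mem_ball_self h'.pos
  set e : Chart 4 Y := chartAt (Cm 4) (ξ w₀) with he
  have hat : At e (ξ w₀) := at_chartAt _
  have hat' : At e (ξ' w₀') := heq ▸ hat
  have hΞ := (h.an w₀ hw₀ e hat).1
  obtain ⟨hΞ', hdet⟩ := h'.an w₀' hw₀' e hat'
  have hinj : Function.Injective (fderiv ℂ (fun w => e (ξ' w)) w₀') := by
    have h1 : LinearMap.det (fderiv ℂ (fun w => e (ξ' w)) w₀' : Cm 4 →ₗ[ℂ] Cm 4) ≠ 0 := hdet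
    exact (LinearMap.equivOfDetNeZero _ h1).injective
  obtain ⟨θ, hθ, hθs, -, hθt⟩ := H73.exists_localInv hΞ' hinj
  have hval : θ w₀' = e (ξ w₀) := by rw [hθ, heq]
  have htar : e (ξ w₀) ∈ θ.target := hval ▸ θ.map_source hθs
  set ψ : Cm 4 → Cm 4 := fun w => θ.symm (e (ξ w)) with hψ
  have hψa : AnalyticAt ℂ ψ w₀ :=
    AnalyticAt.fun_comp (g := θ.symm) (f := fun w => e (ξ w)) (hθt _ htar) hΞ
  have hψ0 : ψ w₀ = w₀' := by
    simp only [hψ, ← hval]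
    exact θ.left_inv hθs
  have hev1 : ∀ᶠ w in 𝓝 w₀, e (ξ w) ∈ θ.target :=
    hΞ.continuousAt.eventually_mem (θ.open_target.mem_nhds htar)
  have hev2 : ∀ᶠ w in 𝓝 w₀, ξ w ∈ e.source :=
    (h.cont w₀ hw₀).eventually_mem (e.open_source.mem_nhds hat.2)
  have hc : ContinuousAt (fun w => ξ' (ψ w)) w₀ := by
    refine ContinuousAt.comp (g := ξ') (f := ψ) ?_ hψa.continuousAt
    rw [hψ0]; exact h'.cont w₀' hw₀'
  have hev3 : ∀ᶠ w in 𝓝 w₀, ξ' (ψ w) ∈ e.source := hc.eventually_mem (by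
    rw [hψ0]; exact e.open_source.mem_nhds hat'.2)
  have hev4 : ∀ᶠ w in 𝓝 w₀, ψ w ∈ ball w₀' r' := hψa.continuousAt.eventually_mem (by
    rw [hψ0]; exact isOpen_ball.mem_nhds hw₀')
  have heqv : ∀ᶠ w in 𝓝 w₀, ξ' (ψ w) = ξ w := by
    filter_upwards [hev1, hev2, hev3] with w h1 h2 h3
    refine e.injOn h3 h2 ?_
    have h4 : e (ξ' (ψ w)) = θ (ψ w) := by rw [hθ]
    rw [h4]
    exact θ.right_inv h1
  have hz : ∀ᶠ w in 𝓝 w₀, w 0 = 0 → ψ w 0 = 0 := by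
    filter_upwards [heqv, hev4, isOpen_ball.mem_nhds hw₀] with w h1 h2 h3 h4
    rw [← h'.mem _ h2, h1]
    exact (h.mem w h3).2 h4
  have hψa0 : AnalyticAt ℂ (fun w => ψ w 0) w₀ := (analyticAt_pi_iff.1 hψa) 0
  obtain ⟨g, hg, hgψ⟩ := exists_div hψa0 h.zero hz
  refine ⟨ψ, ‖g w₀‖ + 1, hψa, hψ0, heqv, by positivity, ?_⟩
  have hgb : ∀ᶠ w in 𝓝 w₀, ‖g w‖ < ‖g w₀‖ + 1 :=
    hg.continuousAt.norm.eventually_lt continuousAt_const (by simp)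
  filter_upwards [hgψ, hgb] with w h1 h2
  rw [h1, norm_mul, mul_comm]
  exact mul_le_mul_of_nonneg_right h2.le (norm_nonneg _)

/-- the change of coordinates, with bounds in both directions -/
theorem exists_trans' (h : IsPar G ξ w₀ r) (h' : IsPar G ξ' w₀' r') (heq : ξ w₀ = ξ' w₀') :
    ∃ (ψ : Cm 4 → Cm 4) (C : ℝ), AnalyticAt ℂ ψ w₀ ∧ ψ w₀ = w₀' ∧
      (∀ᶠ w in 𝓝 w₀, ξ' (ψ w) = ξ w) ∧ 0 < C ∧
      ∀ᶠ w in 𝓝 w₀, ‖ψ w 0‖ ≤ C * ‖w 0‖ ∧ ‖w 0‖ ≤ C * ‖ψ w 0‖ := by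
  have hw₀ : w₀ ∈ ball w₀ r := mem_ball_self h.pos
  obtain ⟨ψ, C, h1, h2, h3, h4, h5⟩ := exists_trans h h' heq
  obtain ⟨ψ', C', g1, g2, g3, g4, g5⟩ := exists_trans h' h heq.symm
  have ht : Tendsto ψ (𝓝 w₀) (𝓝 w₀') := by
    have := h1.continuousAt.tendsto
    rwa [h2] at this
  have hc : ContinuousAt (fun w => ψ' (ψ w)) w₀ := by
    refine ContinuousAt.comp (g := ψ') (f := ψ) ?_ h1.continuousAt
    rw [h2]; exact g1.continuousAt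
  have hev : ∀ᶠ w in 𝓝 w₀, ψ' (ψ w) ∈ ball w₀ r := hc.eventually_mem (by
    rw [h2, g2]; exact isOpen_ball.mem_nhds hw₀)
  refine ⟨ψ, max C C', h1, h2, h3, lt_max_of_lt_left h4, ?_⟩
  filter_upwards [h3, h5, ht.eventually g3, ht.eventually g5, hev,
    isOpen_ball.mem_nhds hw₀] with w k1 k2 k3 k4 k5 k6
  have k7 : ψ' (ψ w) = w := h.inj k5 k6 (by rw [k3, k1])
  rw [k7] at k4
  exact ⟨k2.trans (mul_le_mul_of_nonneg_right (le_max_left _ _) (norm_nonneg _)),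
    k4.trans (mul_le_mul_of_nonneg_right (le_max_right _ _) (norm_nonneg _))⟩

/-- a dense set of points of `Y` is dense in the parametrisation -/
theorem IsPar.dense (h : IsPar G ξ w₀ r) {D : Set Y} (hD : Dense D) {w : Cm 4}
    (hw : w ∈ ball w₀ r) {N : Set (Cm 4)} (hN : N ∈ 𝓝 w) :
    ∃ w' ∈ N, w' ∈ ball w₀ r ∧ ξ w' ∈ D := by
  obtain ⟨U, hUN, hUo, hwU⟩ := _root_.mem_nhds_iff.1 hN
  have h1 : IsOpen (ξ '' (U ∩ ball w₀ r)) := h.openMap _ inter_subset_right (hUo.inter isOpen_ball)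
  obtain ⟨y, ⟨w', hw', rfl⟩, hy⟩ := hD.inter_open_nonempty _ h1 ⟨_, w, ⟨hwU, hw⟩, rfl⟩
  exact ⟨w', hUN hw'.1, hw'.2, hy⟩

end Vale.Agent.P277.H615
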