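import Vale.Agent.P277.H615.D3

/-!
# P277, task D0: the exceptional set of a flip can be taken minimal
-/

open scoped Manifold ContDiff Topology
open Vale.Agent.P272.K Vale.Agent.P285.H281.FD Vale.Agent.P267.H175 Set Filter

noncomputable section

namespace Vale.Agent.P277.H615

open Vale.Agent.P277

variable {X Z X' : CSp} {f : X.pt → Z.pt} {f' : X'.pt → Z.pt} {A : Set Z.pt}

/-- `Amin f` is analytic. -/
theorem amin_an {L : Bd X.pt} {L' : Bd X'.pt} (h : IsFlip X Z X' f f' A L L') :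
    IsAn Z univ (Amin f) := by
  classical
  intro z _
  obtain ⟨V, k, κ, κ', _, _, s, σ', hV, hzV, hk, hs, hσ'⟩ := exists_common h z
  obtain ⟨t, ht⟩ := h.iso
  choose σ hσ htr using fun l => transport h.normal h.small h.small' (IsLBx.pow h.lb k)
    (IsLBx.pow h.lb' k) (IsIso.pow ht k) hV (hσ'.sec l)
  choose g hg hg' using fun (p : κ × κ') => prod_descend h.normalZ h.normal h.small
    (IsLBx.pow h.lb k) hV (hσ p.2) (hs.sec p.1)
  let e : Fin (Fintype.card (κ × κ')) ≃ κ × κ' := (Fintype.equivFin (κ × κ')).symm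
  refine ⟨Fintype.card (κ × κ'), fun n => g (e n), fun n => hg (e n) z hzV, ?_⟩
  filter_upwards [hV.mem_nhds hzV] with z' hz'
  obtain ⟨x, hx⟩ := h.small.surj z'
  obtain ⟨i, hi⟩ := h.lb.cover x
  constructor
  · intro hzA n
    have h1 := vanish h.normalZ h.normal h.small (IsLBx.pow h.lb k) hV hs (hσ (e n).2) hz' hzA x i
      hx hi
    have h2 := hg' (e n) x i (by rw [hx]; exact hz') hi
    rw [h1, zero_mul, hx] at h2
    exact h2.symm
  · intro h0
    by_contra hzA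
    obtain ⟨x', hx'⟩ := h.small'.surj z'
    obtain ⟨j, hj⟩ := h.lb'.cover x'
    obtain ⟨l, hl⟩ := hσ'.bpf x' j (by rw [hx']; exact hz') hj
    have huniq : ∀ y', f' y' = z' → y' = x' := by
      intro y' hy'
      by_contra hne
      exact hzA (by rw [amin_eq h]; exact ⟨y', x', hy', hx', hne⟩)
    have h1 := nz h.normal h.small h.small' (IsLBx.pow h.lb k) (IsLBx.pow h.lb' k)
      (IsIso.pow ht k) hV (hσ l) (hσ'.sec l) (htr l) hz' (by
        intro y' j' hy' hj'
        have e := huniq y' hy'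
        subst e
        rw [(hσ'.sec l).change j' j y' (by show f' y' ∈ V; rw [hy']; exact hz') hj' hj]
        exact mul_ne_zero ((IsLBx.pow h.lb' k).ne_zero j' j y' hj' hj) hl)
    obtain ⟨a, ha⟩ := hs.bpf x i (by rw [hx]; exact hz') hi
    have h2 := hg' (a, l) x i (by rw [hx]; exact hz') hi
    have h3 := h0 (e.symm (a, l))
    rw [e.apply_symm_apply] at h3
    rw [hx, h3] at h2
    exact (mul_ne_zero (h1 x i hx hi) ha) h2

theorem small_amin (hZ : IsNormal 4 Z) (hX : IsNormal 4 X) (h : IsSmall X Z f A)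
    (han : IsAn Z univ (Amin f)) : IsSmall X Z f (Amin f) where
  cont := h.cont
  holo := h.holo
  surj := h.surj
  an := han
  dim := h.dim.mono (preimage_mono (amin_sub_A h))
  inj := fun x x' hx hx' => by
    by_contra hne
    exact hx ⟨x', x, hx', rfl, hne⟩
  iso := fun x g hx hg => by
    obtain ⟨W, hW, hWo, hxW⟩ := eventually_nhds_iff.1 (hol_eventually hg)
    obtain ⟨V, hV, hxV, hVW⟩ := exists_nhds_preimage_subset h.cont (z := f x) hWo (by
      intro x' hx'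
      have e : x' = x := by
        by_contra hne
        exact hx ⟨x', x, hx', rfl, hne⟩
      rw [e]
      exact hxW)
    obtain ⟨k, hk, hk'⟩ := descend hZ hX h hV (F := g) fun y hy => hW y (hVW hy)
    refine ⟨k, hk _ hxV, ?_⟩
    filter_upwards [(hV.preimage h.cont).mem_nhds hxV] with y hy
    exact hk' y hy

/-- (D0) -/
theorem stD0 : StD0 := by
  intro X Z X' f f' A L L' h
  have han := amin_an h
  have heq := amin_eq h
  have h2 : IsSmall X Z f (Amin f) := small_amin h.normalZ h.normal h.small han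
  have h2' : IsSmall X' Z f' (Amin f) := by
    rw [heq]
    exact small_amin h.normalZ h.normal' h.small' (by rw [← heq]; exact han)
  refine ⟨⟨h.normal, h.normalZ, h.normal', h2, h2', h.ninj, h.ninj', h.lb, h.lb', ?_, h.ample,
    h.ample'⟩, heq, amin_sub_A h.small⟩
  obtain ⟨t, ht⟩ := h.iso
  -- the domain
  let D : L.ι → L'.ι → Set Z.pt := fun i j =>
    {z | z ∉ Amin f ∧ h2.sec z ∈ L.U i ∧ h2'.sec z ∈ L'.U j}
  have hD : ∀ i j, IsOpen (D i j) := by
    intro i j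
    rw [isOpen_iff_mem_nhds]
    rintro z ⟨hz, hzi, hzj⟩
    have n1 : ∀ᶠ w in 𝓝 z, w ∉ Amin f := h2.isClosed.isOpen_compl.mem_nhds hz
    have n2 : ∀ᶠ w in 𝓝 z, h2.sec w ∈ L.U i :=
      (h2.holMap_sec hz).1.eventually_mem ((h.lb.isOpen i).mem_nhds hzi)
    have n3 : ∀ᶠ w in 𝓝 z, h2'.sec w ∈ L'.U j :=
      (h2'.holMap_sec hz).1.eventually_mem ((h.lb'.isOpen j).mem_nhds hzj)
    filter_upwards [n1, n2, n3] with w w1 w2 w3
    exact ⟨w1, w2, w3⟩
  have htD : ∀ i j, ∀ z ∈ D i j, z ∉ A → Z.Hol (t i j) z ∧ t i j z ≠ 0 := by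
    rintro i j z ⟨hz, hzi, hzj⟩ hzA
    have h3 := ht.holo (h2.sec z) (h2'.sec z) i j (by rw [h2.sec_eq]; exact hzA)
      (by rw [h2.sec_eq, h2'.sec_eq]) hzi hzj
    rwa [h2.sec_eq] at h3
  have hA2 : ∀ i j, DimLe Z 2 (D i j ∩ A) := fun i j => (dimLe_A h.small).mono inter_subset_right
  choose T hT1 hT2 using fun i j => h.normalZ.ext (D i j) A (hD i j)
    (h.small.an.mono (subset_univ _)) (hA2 i j) (t i j) fun z hz => (htD i j z hz.1 hz.2).1
  choose U hU1 hU2 using fun i j => h.normalZ.ext (D i j) A (hD i j)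
    (h.small.an.mono (subset_univ _)) (hA2 i j) (fun z => (t i j z)⁻¹) fun z hz =>
      hol_inv (htD i j z hz.1 hz.2).1 (htD i j z hz.1 hz.2).2
  have hdA : Dense Aᶜ := dense_A h.normalZ h.small
  have hTU : ∀ i j, ∀ z ∈ D i j, T i j z * U i j z = 1 := by
    intro i j
    refine eqOn_of_dense (hD i j) hdA
      (hol_continuousOn fun z hz => hol_mul (hT1 i j z hz) (hU1 i j z hz)) continuousOn_const ?_
    intro z hz hzA
    rw [hT2 i j z ⟨hz, hzA⟩, hU2 i j z ⟨hz, hzA⟩]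
    exact mul_inv_cancel₀ (htD i j z hz hzA).2
  have hmem : ∀ x x' i j, f x ∉ Amin f → f' x' = f x → x ∈ L.U i → x' ∈ L'.U j → f x ∈ D i j := by
    intro x x' i j hx hxx' hi hj
    refine ⟨hx, ?_, ?_⟩
    · rw [h2.sec_apply hx]; exact hi
    · rw [← hxx', h2'.sec_apply (by rw [hxx']; exact hx)]; exact hj
  refine ⟨T, ⟨?_, ?_⟩⟩
  · intro x x' i j hx hxx' hi hj
    have h3 := hmem x x' i j hx hxx' hi hj
    exact ⟨hT1 i j _ h3, left_ne_zero_of_mul (by rw [hTU i j _ h3]; exact one_ne_zero)⟩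
  · intro x x' i i₁ j j₁ hx hxx' hi hi₁ hj hj₁
    have h3 := hmem x x' i j hx hxx' hi hj
    have h4 := hmem x x' i₁ j₁ hx hxx' hi₁ hj₁
    have h5 : ∀ z ∈ D i j ∩ D i₁ j₁,
        T i₁ j₁ z = L.g i i₁ (h2.sec z) * T i j z * L'.g j₁ j (h2'.sec z) := by
      refine eqOn_of_dense ((hD i j).inter (hD i₁ j₁)) hdA
        (hol_continuousOn fun z hz => hT1 i₁ j₁ z hz.2)
        (hol_continuousOn (g := fun z => L.g i i₁ (h2.sec z) * T i j z * L'.g j₁ j (h2'.sec z))
          fun z hz => ?_) ?_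
      · have a1 : Z.Hol (L.g i i₁ ∘ h2.sec) z :=
          (h2.holMap_sec hz.1.1).2 _ (h.lb.holo i i₁ _ hz.1.2.1 hz.2.2.1)
        have a2 : Z.Hol (L'.g j₁ j ∘ h2'.sec) z :=
          (h2'.holMap_sec hz.1.1).2 _ (h.lb'.holo j₁ j _ hz.2.2.2 hz.1.2.2)
        exact hol_mul (hol_mul a1 (hT1 i j z hz.1)) a2
      · rintro z ⟨hz1, hz2⟩ hzA
        have b1 := ht.change (h2.sec z) (h2'.sec z) i i₁ j j₁ (by rw [h2.sec_eq]; exact hzA)
          (by rw [h2.sec_eq, h2'.sec_eq]) hz1.2.1 hz2.2.1 hz1.2.2 hz2.2.2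
        rw [h2.sec_eq] at b1
        rw [hT2 i₁ j₁ z ⟨hz2, hzA⟩, hT2 i j z ⟨hz1, hzA⟩, b1]
    have h6 := h5 (f x) ⟨h3, h4⟩
    rwa [h2.sec_apply hx, ← hxx', h2'.sec_apply (by rw [hxx']; exact hx), hxx'] at h6

end Vale.Agent.P277.H615
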