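import Vale.Agent.P277.H371.Reg
import Vale.Agent.P277.Stmts8

/-!
# P277, REGc: the flipped surfaces of a sequence of flips of a generalized canonical pair lie
generically in the regular locus
-/

open scoped Manifold ContDiff Topology
open Vale.Agent.P272.K Vale.Agent.P285.H281.FD Vale.Agent.P267.H175 Set Metric Filter

noncomputable section

namespace Vale.Agent.P277.H615

open Vale.Agent.P277 Vale.Agent.P277.T2 Vale.Agent.P277.TX Vale.Agent.P277.H335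
open Vale.Agent.P277.H371 (HasLiftF sharp isReg_of_sec sing_global)

section
variable {Y : Type} [TopologicalSpace Y] [T2Space Y] [CompactSpace Y] [ChartedSpace (Cm 4) Y]
  [IsManifold 𝓘(ℂ, Cm 4) ω Y] {X : CSp} {O : Set Y} {v : Y → X.pt} {L : Bd X.pt} {M : Bd Y}
  {m P Q : ℕ} {T : L.ι → (((Bd.can 4 Y).pow m).mul M).ι → Y → ℂ}

omit [T2Space Y] [CompactSpace Y] in
theorem hasLiftF_of_chainc {S : Set X.pt}
    (hch : Chain2c (((Bd.can 4 Y).pow m).mul M) X L O v T S) (hlb : IsLBx X (L.pow P))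
    {W : Set (Cm 4)} {w₀ : Cm 4}
    {φ : Cm 4 → X.pt} (hW : IsOpen W) (hw₀ : w₀ ∈ W) (h0 : w₀ 0 = 0)
    (hφ : ∀ w ∈ W, HolAt X φ w) (hS : ∀ w ∈ W, w 0 = 0 → φ w ∈ S)
    (hcl : W ⊆ closure {w | w ∈ W ∧ φ w ∈ v '' O}) :
    ∃ w₁ ∈ W, w₁ 0 = 0 ∧ HasLiftF O v (L.pow P) M m Q T φ w₁ := by
  obtain ⟨i, hi⟩ := hlb.cover (φ w₀)
  set W' : Set (Cm 4) := {w | w ∈ W ∧ φ w ∈ (L.pow P).U i} with hW'
  have hW'o : IsOpen W' := by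
    have h1 : ContinuousOn φ W := fun w hw => (hφ w hw).1.continuousWithinAt
    exact h1.isOpen_inter_preimage hW (hlb.isOpen i)
  have hcl' : W' ⊆ closure {w | w ∈ W' ∧ φ w ∈ v '' O} := by
    intro w hw
    rw [_root_.mem_closure_iff]
    intro U hU hwU
    obtain ⟨w', hw', hw'2⟩ := _root_.mem_closure_iff.1 (hcl hw.1) _ (hU.inter hW'o) ⟨hwU, hw⟩
    exact ⟨w', hw'.1, hw'.2, hw'2.2⟩
  obtain ⟨w₁, hw₁, hw₁0, W₁, γ, e, cc, F, K, hW₁, hw₁W, hW₁W, hK, h1, h2, h3, h4, h5⟩ :=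
    hch W' w₀ φ i hW'o ⟨hw₀, hi⟩ h0 (fun w hw => hφ w hw.1) hcl' (fun w hw => hw.2)
  have h5' := h5 fun w hw hw0 => hS w hw.1 hw0
  obtain ⟨e', μ⟩ := cc
  obtain ⟨g1, g2, g3, g4, g5⟩ := h1 w₁ hw₁W
  have hW₁n := hW₁.mem_nhds hw₁W
  refine ⟨w₁, hw₁.1, hw₁0, γ, e', μ, i, F, K, hK, g1, g4.1, g4.2,
    H19.analyticAt_change g1 g2 g4.1 g3, ?_, hw₁.2, g5, ?_, ?_⟩
  · filter_upwards [hW₁n] with w hw hwO
    have h6 := h2 w hw hwO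
    exact ⟨h6, h3 w hw h6⟩
  · filter_upwards [hW₁n] with w hw hwO
    exact h4 w hw hwO
  · filter_upwards [hW₁n] with w hw hw0
    exact h5' w hw hw0

/-- the singular points in an analytic set whose wedges have positive order -/
theorem dimLe_singc {χ : Chart 4 Y → Cm 4 → Matrix (Fin 4) (Fin 4) ℂ} (hX : IsNormal 4 X)
    (hχ : IsKahler χ) (hM : IsLB 4 M) (hNef : Nef χ M) (hm : 1 ≤ m) {V : CSp} {vV : Y → V.pt}
    {D : Set Y} {S : Set X.pt}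
    (hTw : Tw2c vV D (((Bd.can 4 Y).pow m).mul M) X L O v P Q T S)
    (hSan : IsAn X univ S) (hSO : S ⊆ (v '' O)ᶜ) : DimLe X 1 {x | x ∈ S ∧ ¬ IsReg 4 X x} := by
  have hS2 : DimLe X 2 S := hTw.dim.mono hSO
  refine sing_global hX hTw.emb hTw.dim hSan hS2 fun U₀ hU₀ hS1 => ?_
  obtain ⟨V', G, c, r, d, lam, θ, n, ζ, hVU, hg, hζ⟩ := TX.stMinLoc_final Y X hX O v hTw.emb
    hTw.dim S hSan U₀ hU₀ (fun x hx => hSO hx.1) hS1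
  have hd : d = 1 := sharp (L := L.pow P) (Q := Q) (T := T) H29.stAlg H335.stCovRes H335.stDet
    H19.stThin H19.stBr H19.stPush TD.stCoreX hX hχ hM hNef hm hTw.emb hTw.dim hSan hS2 hTw.lb
    hTw.hQ hTw.iso hg hζ fun W w₀ φ hW hw₀ h0 hφ hS hcl _ =>
      hasLiftF_of_chainc hTw.chain hTw.lb hW hw₀ h0 hφ hS hcl
  subst hd
  have hc := hg.toIsCov
  obtain ⟨x, hxV, hxc⟩ := (hc.finite c (mem_ball_self hc.pos)).2
  have hxS : x ∈ S := (hg.memS x hxV).2 (by rw [hxc]; exact ⟨hg.c0, hg.c1⟩)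
  obtain ⟨s, hs1, hs2⟩ := (IsCov.toPre hc).sec_of_one (fun a ha b hb hab hθ => by
    obtain ⟨y, hy⟩ := hc.enum (G a) (hc.maps a ha) hθ
    obtain ⟨k, hk⟩ := (hy.2 a).2 ⟨ha, rfl⟩
    obtain ⟨l, hl⟩ := (hy.2 b).2 ⟨hb, hab.symm⟩
    rw [← hk, ← hl, Subsingleton.elim k l]) ⟨x, hxV⟩ hζ
  exact ⟨x, ⟨hxS, hVU hxV⟩, isReg_of_sec hc.holo ⟨V', s, hc.isOpen, hxV, Subset.rfl,
    hc.openMap _ Subset.rfl hc.isOpen, fun y hy => ⟨hs2 y hy, (hs1 _ (hc.maps y hy)).2.2⟩⟩⟩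

/-- The towers on `X 0` and on all `X (j + 1)`, `j < N` (canonical version). -/
theorem exists_towerc (hL0 : StL0) {NB : Bd Y} (hNo : ∀ c, IsOpen (NB.U c))
    (hNc : ∀ y, ∃ c, y ∈ NB.U c) (N : ℕ) (hN : 1 ≤ N) (W : CSp) (X Z : ℕ → CSp)
    (hX0 : IsNormal 4 (X 0)) (r : ℕ) (v : Y → W.pt) (p : W.pt → (X 0).pt) (P : Bd W.pt)
    (G : Fin r → Set Y) (hR : T2.IsRes v p P G) (f : ∀ j, (X j).pt → (Z j).pt)
    (f' : ∀ j, (X (j + 1)).pt → (Z j).pt) (A : ∀ j, Set (Z j).pt) (L : ∀ j, Bd (X j).pt)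
    (hL : ∃ c : ℕ, 1 ≤ c ∧ ∃ t, IsCmpC (fun y => p (v y)) (L 0) (NB.pow c) (⋃ l, G l) t)
    (hflip : ∀ j < N, ∃ p q : ℕ, 1 ≤ p ∧ 1 ≤ q ∧
      IsFlip (X j) (Z j) (X (j + 1)) (f j) (f' j) (A j) ((L j).pow p) ((L (j + 1)).pow q)) :
    (∃ (P' Q' : ℕ) (T : (L 0).ι → NB.ι → Y → ℂ),
      Tw2c v (⋃ l, G l) NB (X 0) (L 0) (⋃ l, G l)ᶜ (fun y => p (v y)) P' Q' T ∅) ∧
    ∀ j < N, ∃ (O : Set Y) (v' : Y → (X (j + 1)).pt) (P' Q' : ℕ)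
      (T : (L (j + 1)).ι → NB.ι → Y → ℂ),
      Tw2c v (⋃ l, G l) NB (X (j + 1)) (L (j + 1)) O v' P' Q' T (f' j ⁻¹' Amin (f j)) ∧
      f' j ⁻¹' Amin (f j) ⊆ (v' '' O)ᶜ := by
  have hch : ∀ j, ∃ p q : ℕ, j < N → (1 ≤ p ∧ 1 ≤ q ∧ IsFlip (X j) (Z j) (X (j + 1)) (f j) (f' j)
      (Amin (f j)) ((L j).pow p) ((L (j + 1)).pow q)) := by
    intro j
    by_cases hj : j < N
    · obtain ⟨p, q, hp, hq, h⟩ := hflip j hj
      exact ⟨p, q, fun _ => ⟨hp, hq, (stD0 _ _ _ _ _ _ _ _ h).1⟩⟩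
    · exact ⟨0, 0, fun h => (hj h).elim⟩
  choose pp qq hpq using hch
  have hneX : Nonempty (X 0).pt := by
    have h1 := (hpq 0 hN).2.2.ninj
    rw [Function.Injective] at h1
    push Not at h1
    obtain ⟨x, -⟩ := h1
    exact ⟨x⟩
  have hneW : Nonempty W.pt := by
    obtain ⟨x⟩ := hneX
    obtain ⟨w, -⟩ := hR.psurj x
    exact ⟨w⟩
  have h0 : ∃ (P' Q' : ℕ) (T : (L 0).ι → NB.ι → Y → ℂ),
      Tw2c v (⋃ l, G l) NB (X 0) (L 0) (⋃ l, G l)ᶜ (fun y => p (v y)) P' Q' T ∅ := by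
    obtain ⟨c, hc, t, ht⟩ := hL
    exact ⟨_, _, _, Tw2c.base hL0 hX0 hR hNo hNc hc ht (hpq 0 hN).1 (hpq 0 hN).2.2.lb⟩
  refine ⟨h0, ?_⟩
  have hst : ∀ j < N, (∃ (O : Set Y) (v' : Y → (X j).pt) (P' Q' : ℕ)
      (T : (L j).ι → NB.ι → Y → ℂ) (S : Set (X j).pt),
        Tw2c v (⋃ l, G l) NB (X j) (L j) O v' P' Q' T S) →
      ∃ (O : Set Y) (v' : Y → (X (j + 1)).pt) (P' Q' : ℕ) (T : (L (j + 1)).ι → NB.ι → Y → ℂ),
      Tw2c v (⋃ l, G l) NB (X (j + 1)) (L (j + 1)) O v' P' Q' T (f' j ⁻¹' Amin (f j)) ∧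
      f' j ⁻¹' Amin (f j) ⊆ (v' '' O)ᶜ := by
    rintro j hj ⟨O, v', P', Q', T, S, hTw⟩
    obtain ⟨hp, hq, hf⟩ := hpq j hj
    obtain ⟨s, hs⟩ := hf.iso
    choose a ha using hf.lb.cover
    have ha' : ∀ x, x ∈ (L j).U (a x) := ha
    refine ⟨_, _, _, _, _, hTw.step hNo hR.emb hp hq hf rfl hs ha', ?_⟩
    rintro x' hx' ⟨y, hy, rfl⟩
    have h1 : f' j (hf.small'.sec (f j (v' y))) ∈ Amin (f j) := hx'
    rw [hf.small'.sec_eq] at h1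
    exact hy.2 h1
  intro j
  induction j with
  | zero =>
    intro hj
    obtain ⟨P', Q', T, h⟩ := h0
    exact hst 0 hj ⟨_, _, P', Q', T, _, h⟩
  | succ j ih =>
    intro hj
    obtain ⟨O, v', P', Q', T, h, -⟩ := ih (by omega)
    exact hst (j + 1) hj ⟨_, _, P', Q', T, _, h⟩

end

/-- (REGc) -/
theorem stRegC : StRegC := by
  intro Y _ _ _ _ _ χ hχ M hM hnef m hm N W X Z hX0 r v p P G hR f f' A L hL hflip j hj
  have hNB := ctBd (Y := Y) hM m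
  have hT := (exists_towerc H884.stL0 hNB.isOpen hNB.cover N (by omega) W X Z hX0
    r v p P G hR f f' A L hL hflip).2 j hj
  obtain ⟨O, v', P', Q', T, hTw, hsub⟩ := hT
  obtain ⟨pp, qq, hpp, hqq, hf⟩ := hflip j hj
  have hf' := (stD0 _ _ _ _ _ _ _ _ hf).1
  exact dimLe_singc hf'.normal' hχ hM hnef hm hTw
    (IsAn.preimage (fun x => hf'.small'.holMap x) hf'.small'.an) hsub

end Vale.Agent.P277.H615
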