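import Vale.Agent.P277.H615.P7
import Vale.Agent.P277.H884.L0
import Vale.Agent.P277.H884.Conn
import Vale.Agent.P277.H884.Dis2
import Vale.Agent.P277.H19.TX2
import Vale.Agent.P277.H19.Pull2
import Vale.Agent.P277.H762.CoreFin
import Vale.Agent.P277.H73.Final

/-!
# P277, T2: the discrepancy half (P7), proved
-/

namespace Vale.Agent.P277.H615

open Vale.Agent.P277

theorem stTX2' : T2.StTX2 :=
  H19.stTX2 H73.stTA_final (H19.stTD_of_core TD.stCore) H884.stDis

/-- (P7): at most `m r` flips have a flipped locus of dimension two. -/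
theorem stP7 : T2.StP7 := stP7_of H884.stL0 stTX2' H884.stConn

end Vale.Agent.P277.H615
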