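import Vale.Agent.P277.Stmts8
import Vale.Agent.P277.H73.TA
import Vale.Agent.P277.H622.B1

/-!
# P277, package TAc: a bidisc through a regular point in a two-dimensional analytic set
-/

open scoped Manifold ContDiff Topology
open Vale.Agent.P272.K Vale.Agent.P285.H281.FD Set Filter

noncomputable section

namespace Vale.Agent.P277.H615

open Vale.Agent.P277 Vale.Agent.P277.H73

theorem stTAc (hB1 : StB1) : T2.StTAc := by
  intro X S hSan hS2 hS1 hsing
  have : Nonempty X.pt := hS2.nonempty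
  -- charts and equations
  have key : ∀ x : {x // IsReg 4 X x}, ∃ (U V : Set X.pt) (Ω : Set (Cm 4)) (h : Fin 0 → Cm 4 → ℂ)
      (φ : X.pt → Cm 4) (k : ℕ) (f : Fin k → X.pt → ℂ), x.1 ∈ U ∧ IsOpen U ∧ U ⊆ V ∧
      IsModel X.Hol V Ω h φ ∧ (∀ i, ∀ y ∈ U, X.Hol (f i) y) ∧ ∀ y ∈ U, (y ∈ S ↔ ∀ i, f i y = 0) := by
    rintro ⟨x, V, Ω, h, φ, hx, hM⟩
    obtain ⟨k, f, hf, hfS⟩ := hSan x (mem_univ x)
    have h1 : ∀ᶠ y in 𝓝 x, y ∈ V ∧ (∀ i, X.Hol (f i) y) ∧ (y ∈ S ↔ ∀ i, f i y = 0) :=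
      (hM.isOpen.eventually_mem hx).and
        ((eventually_all.2 fun i => hol_eventually (hf i)).and hfS)
    obtain ⟨U, hU, hUo, hxU⟩ := eventually_nhds_iff.1 h1
    exact ⟨U, V, Ω, h, φ, k, f, hxU, hUo, fun y hy => (hU y hy).1, hM, fun i y hy => (hU y hy).2.1 i,
      fun y hy => (hU y hy).2.2⟩
  choose U V Ω h φ k f hxU hUo hUV hM hf hfS using key
  -- the regular part is not one-dimensional
  have hSR : ¬ DimLe X 1 (S ∩ {x | IsReg 4 X x}) := by
    intro hcon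
    apply hS1
    refine (hcon.union hsing).mono fun x hx => ?_
    by_cases hr : IsReg 4 X x
    · exact Or.inl ⟨hx, hr⟩
    · exact Or.inr ⟨hx, hr⟩
  obtain ⟨κ, hκ, c, r, g, i, hr, hg, hgU, hcov⟩ :=
    (hS2.mono (inter_subset_left (t := {x | IsReg 4 X x}))).refine (U := U) hUo
      (fun x hx => mem_iUnion.2 ⟨⟨x, hx.2⟩, hxU _⟩)
  -- one of the pieces is not one-dimensional
  have hpiece : ∃ a, ¬ DimLe X 1 (S ∩ g a '' Metric.ball (c a) (r a)) := by
    by_contra hcon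
    push Not at hcon
    apply hSR
    refine (dimLe_iUnion hcon).mono fun x hx => ?_
    obtain ⟨a, ha⟩ := mem_iUnion.1 (hcov hx)
    exact mem_iUnion.2 ⟨a, hx.1, ha⟩
  obtain ⟨a, ha⟩ := hpiece
  have hga : ∀ p ∈ Metric.ball (c a) (r a), HolAt X (g a) p := fun p hp =>
    hg a p (Metric.ball_subset_closedBall hp)
  have hgaU : ∀ p ∈ Metric.ball (c a) (r a), g a p ∈ U (i a) := fun p hp =>
    hgU a p (Metric.ball_subset_closedBall hp)
  -- the piece is contained in `S`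
  have hsub : ∀ p ∈ Metric.ball (c a) (r a), ∀ l, f (i a) l (g a p) = 0 := by
    by_contra hcon
    push Not at hcon
    obtain ⟨p, hp, l, hl⟩ := hcon
    apply ha
    refine (dimLe_image_zeros hB1 hga (F := fun q => f (i a) l (g a q))
      (fun q hq => (hga q hq).analyticAt (hf _ _ _ (hgaU q hq))) ⟨p, hp, hl⟩).mono ?_
    rintro _ ⟨hxS, q, hq, rfl⟩
    exact ⟨q, ⟨hq, (hfS _ _ (hgaU q hq)).1 hxS l⟩, rfl⟩
  have hgS : ∀ p ∈ Metric.ball (c a) (r a), g a p ∈ S := fun p hp =>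
    (hfS _ _ (hgaU p hp)).2 (hsub p hp)
  have hgV : ∀ p ∈ Metric.ball (c a) (r a), g a p ∈ V (i a) := fun p hp => hUV _ (hgaU p hp)
  have hG : ∀ p ∈ Metric.ball (c a) (r a), AnalyticAt ℂ (fun q => φ (i a) (g a q)) p := by
    intro p hp
    exact AnalyticAt.pi fun b => (hga p hp).analyticAt ((hM (i a)).isCoord.hol b _ (hgV p hp))
  -- a point where the rank is two
  have hrk : ∃ p ∈ Metric.ball (c a) (r a),
      Function.Injective (fderiv ℂ (fun q => φ (i a) (g a q)) p) := by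
    by_contra hcon
    push Not at hcon
    apply ha
    refine (dimLe_one_of_rank hB1 (hM (i a)).injOn hga hgV hG fun p hp => ?_).mono inter_subset_right
    have h1 := hcon p hp
    rw [injective_iff_map_eq_zero] at h1
    push Not at h1
    obtain ⟨v, hv, hv0⟩ := h1
    exact ⟨v, hv0, hv⟩
  obtain ⟨p, hp, hinj⟩ := hrk
  set φ₀ := φ (i a) with hφ₀
  set G : Cm 2 → Cm 4 := fun q => φ₀ (g a q) with hGdef
  obtain ⟨x, y, hxy⟩ := exists_complement hinj
  obtain ⟨ψ, hψ1, hψ2, hψ3, hψ4⟩ := exists_chartInv (hM (i a)) ⟨_, hgV p hp⟩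
  -- the straightened map
  let P : Cm 4 →L[ℂ] Cm 2 := ContinuousLinearMap.pi
    ![ContinuousLinearMap.proj 2, ContinuousLinearMap.proj 3]
  have hP : ∀ w, P w = ![w 2, w 3] := by
    intro w
    ext k; fin_cases k <;> rfl
  let Ψ : Cm 4 → Cm 4 := fun w => w 0 • x + w 1 • y + G (p + P w)
  have hproj : ∀ (k : Fin 4) (w : Cm 4), AnalyticAt ℂ (fun w : Cm 4 => w k) w := fun k w =>
    (ContinuousLinearMap.proj (R := ℂ) (φ := fun _ : Fin 4 => ℂ) k).analyticAt w
  have haff : ∀ w : Cm 4, AnalyticAt ℂ (fun w => p + P w) w := fun w =>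
    analyticAt_const.add (P.analyticAt w)
  have hΨan : ∀ w, p + P w ∈ Metric.ball (c a) (r a) → AnalyticAt ℂ Ψ w := by
    intro w hw
    refine (((hproj 0 w).smul analyticAt_const).add ((hproj 1 w).smul analyticAt_const)).add ?_
    exact AnalyticAt.fun_comp (hG _ hw) (haff w)
  have hp0 : p + P 0 ∈ Metric.ball (c a) (r a) := by simpa using hp
  have hΨd : ∀ w, fderiv ℂ Ψ 0 w = w 0 • x + w 1 • y + fderiv ℂ G p ![w 2, w 3] := by
    intro w
    have h0 : HasFDerivAt (fun w : Cm 4 => w 0 • x)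
        ((ContinuousLinearMap.proj (R := ℂ) (φ := fun _ : Fin 4 => ℂ) 0).smulRight x) 0 :=
      ((ContinuousLinearMap.proj (R := ℂ) (φ := fun _ : Fin 4 => ℂ) 0).smulRight x).hasFDerivAt
    have h1 : HasFDerivAt (fun w : Cm 4 => w 1 • y)
        ((ContinuousLinearMap.proj (R := ℂ) (φ := fun _ : Fin 4 => ℂ) 1).smulRight y) 0 :=
      ((ContinuousLinearMap.proj (R := ℂ) (φ := fun _ : Fin 4 => ℂ) 1).smulRight y).hasFDerivAt
    have h2 : HasFDerivAt (fun w => p + P w) P 0 := P.hasFDerivAt.const_add p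
    have h3 : HasFDerivAt G (fderiv ℂ G p) (p + P 0) := by
      have h5 : p + P 0 = p := by simp
      rw [h5]
      exact (hG p hp).differentiableAt.hasFDerivAt
    have h4 := h3.comp (0 : Cm 4) h2
    have h6 := ((h0.add h1).add h4).fderiv
    have h7 : fderiv ℂ Ψ 0 = _ := h6
    rw [h7]
    simp [hP]
  have hΨinj : Function.Injective (fderiv ℂ Ψ 0) := by
    rw [injective_iff_map_eq_zero]
    intro w hw
    rw [hΨd] at hw
    exact hxy w hw
  obtain ⟨e, he, h0e, -, hesymm⟩ := exists_localInv (hΨan 0 hp0) hΨinj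
  -- the radius
  have hΨ0 : Ψ 0 = G p := by simp [Ψ]
  have hnb : ∀ᶠ w in 𝓝 (0 : Cm 4), w ∈ e.source ∧ Ψ w ∈ Ω (i a) ∧
      p + P w ∈ Metric.ball (c a) (r a) := by
    refine (e.open_source.eventually_mem h0e).and (Eventually.and ?_ ?_)
    · refine (hΨan 0 hp0).continuousAt.eventually ?_
      refine (hM (i a)).isOpen'.mem_nhds ?_
      rw [hΨ0]
      exact (hψ2 _ (hgV p hp)).1
    · exact (haff 0).continuousAt.eventually (Metric.isOpen_ball.mem_nhds hp0)
  obtain ⟨ρ, hρ, hρ'⟩ := Metric.eventually_nhds_iff_ball.1 hnb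
  have hxi : ∀ w ∈ Metric.ball (0 : Cm 4) ρ, φ₀ (ψ (Ψ w)) = Ψ w := fun w hw =>
    (hψ1 _ (hρ' w hw).2.1).2
  refine ⟨ψ ∘ Ψ, ρ, hρ, ?_, ?_, ?_, ?_⟩
  · intro w hw w' hw' hww
    have h1 : Ψ w = Ψ w' := by
      rw [← hxi w hw, ← hxi w' hw']
      exact congrArg φ₀ hww
    rw [← he] at h1
    exact e.injOn (hρ' w hw).1 (hρ' w' hw').1 h1
  · intro W hW hWo
    have h1 : (ψ ∘ Ψ) '' W = V (i a) ∩ φ₀ ⁻¹' (Ψ '' W) := by
      ext z
      constructor
      · rintro ⟨w, hw, rfl⟩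
        exact ⟨(hψ1 _ (hρ' w (hW hw)).2.1).1, w, hw, (hxi w (hW hw)).symm⟩
      · rintro ⟨hz, w, hw, hzw⟩
        refine ⟨w, hw, ?_⟩
        show ψ (Ψ w) = z
        rw [hzw]
        exact (hψ2 z hz).2
    rw [h1]
    refine (hM (i a)).continuousOn.isOpen_inter_preimage (hM (i a)).isOpen ?_
    rw [← he]
    exact e.isOpen_image_of_subset_source hWo fun w hw => (hρ' w (hW hw)).1
  · intro w hw
    obtain ⟨h1, h2, h3⟩ := hρ' w hw
    refine ⟨(hψ3 _ h2).1.comp (hΨan w h3).continuousAt, fun F => ?_⟩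
    show X.Hol F (ψ (Ψ w)) ↔ _
    rw [hψ4 _ h2 F]
    constructor
    · intro hF
      exact AnalyticAt.comp (g := F ∘ ψ) (f := Ψ) hF (hΨan w h3)
    · intro hF
      have h4 : Ψ w ∈ e.target := by
        rw [← he]; exact e.map_source h1
      have h5 : e.symm (Ψ w) = w := by
        rw [← he]; exact e.left_inv h1
      have h6 : AnalyticAt ℂ ((F ∘ (ψ ∘ Ψ)) ∘ e.symm) (Ψ w) := by
        refine AnalyticAt.comp ?_ (hesymm _ h4)
        rw [h5]; exact hF
      refine h6.congr ?_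
      filter_upwards [e.open_target.mem_nhds h4] with z hz
      have h7 := e.right_inv hz
      rw [he] at h7
      simp only [Function.comp_apply, h7]
  · intro w hw hw0 hw1
    obtain ⟨h1, h2, h3⟩ := hρ' w hw
    have h4 : Ψ w = φ₀ (g a (p + P w)) := by simp [Ψ, hw0, hw1, hGdef]
    show ψ (Ψ w) ∈ S
    rw [h4, (hψ2 _ (hgV _ h3)).2]
    exact hgS _ h3

theorem stTAc_final : T2.StTAc := stTAc H622.stB1

end Vale.Agent.P277.H615
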