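import Vale.Agent.P277.H615.Datum2
import Vale.Agent.P277.H615.TAc
import Vale.Agent.P277.H615.TX2c
import Vale.Agent.P277.H615.Regc
import Vale.Agent.P277.H615.P7Final

/-!
# P277, T2c: at most `m r` flips have a flipped locus of dimension two (generalized canonical pairs)
-/

open scoped Manifold ContDiff Topology
open Vale.Agent.P272.K Vale.Agent.P285.H281.FD Vale.Agent.P267.H175 Set Filter Metric

noncomputable section

namespace Vale.Agent.P277.H615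

open Vale.Agent.P277 Vale.Agent.P277.T2 Vale.Agent.P277.H335
open Vale.Agent.P277.H19 (exists_max_pow upd exists_div at_chartAt analyticAt_det)

variable {Y : Type} [TopologicalSpace Y] [T2Space Y] [CompactSpace Y] [ChartedSpace (Cm 4) Y]
  [IsManifold 𝓘(ℂ, Cm 4) ω Y]

theorem exists_datumc (hTX : StTX2c) {V : CSp} {vV : Y → V.pt} (hvV : IsOpenEmb V univ vV)
    (hsurj : Function.Surjective vV) {n : ℕ} {G : Fin n → Set Y} (hG : ∀ l, IsHyp (G l))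
    (hcl : ∀ l, IsClosed (G l)) {χ : Chart 4 Y → Cm 4 → Matrix (Fin 4) (Fin 4) ℂ}
    (hχ : IsKahler χ) {M : Bd Y} (hM : IsLB 4 M) (hnef : Nef χ M) {m : ℕ} (hm : 1 ≤ m)
    {X : CSp} (hX : IsNormal 4 X) {L : Bd X.pt}
    {O : Set Y} {v : Y → X.pt} {P Q : ℕ}
    {T : L.ι → (((Bd.can 4 Y).pow m).mul M).ι → Y → ℂ}
    {S : Set X.pt} (h : Tw2c vV (⋃ l, G l) (((Bd.can 4 Y).pow m).mul M) X L O v P Q T S)
    (hS : IsAn X univ S) (hSO : S ⊆ (v '' O)ᶜ) (hS1 : ¬ DimLe X 1 S)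
    (hreg : DimLe X 1 {x | x ∈ S ∧ ¬ IsReg 4 X x}) :
    ∃ l ξ w₀ r γ i c F ν K, NiceAt O v T (G l) ξ w₀ r γ i c F ν K ∧
      (∀ w ∈ ball w₀ r, w 0 = 0 → γ w ∈ S) ∧ Q * K ∣ ν ∧ 1 ≤ ν ∧ ν ≤ m * (Q * K) := by
  obtain ⟨W, w₀, φ, hW, hw₀, hw₀0, hφ, hφS, hφd, hfin⟩ := hTX Y χ hχ M hM hnef m hm X hX O v
    h.emb h.dim S hS hSO hS1 hreg (L.pow P) h.lb Q h.hQ T h.iso
  obtain ⟨i, hi⟩ := h.lb.cover (φ w₀)
  have hi' : φ w₀ ∈ L.U i := hi
  have hW' : IsOpen (W ∩ φ ⁻¹' L.U i) := by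
    have hc : ContinuousOn φ W := fun w hw => (hφ w hw).1.continuousWithinAt
    exact hc.isOpen_inter_preimage hW (h.lb.isOpen i)
  obtain ⟨w₁, hw₁, hw₁0, W₁, γ₀, e, c, F, K, hW₁, hw₁', hW₁W, hK, hγ₀, hO1, hO2, hF, hF0⟩ :=
    h.chain (W ∩ φ ⁻¹' L.U i) w₀ φ i hW' ⟨hw₀, hi'⟩ hw₀0
      (fun w hw => hφ w hw.1)
      (subset_closure_of_open (D := {w | φ w ∈ v '' O}) hW' inter_subset_left hφd)
      (fun w hw => hw.2)
  have hφO : ∀ w ∈ W, w 0 = 0 → φ w ∉ v '' O := fun w hw hw0 => hSO (hφS w hw hw0)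
  have hFz : ∀ w ∈ W₁, w 0 = 0 → F w = 0 := hF0 fun w hw hw0 => hφS w hw.1 hw0
  -- the conclusion of TX2 at the points of `W₁`
  have hfin' := fun (w : Cm 4) (hw : w ∈ W₁) (hw0 : w 0 = 0) =>
    hfin w (hW₁W hw).1 hw0 γ₀ e F i c (hγ₀ w hw).1 (hγ₀ w hw).2.1 (hγ₀ w hw).2.2.1 (by
      filter_upwards [hW₁.mem_nhds hw] with z hz hzO
      exact ⟨hO1 z hz hzO, hO2 z hz (hO1 z hz hzO)⟩) (hW₁W hw).2 (hγ₀ w hw).2.2.2.1
      (hγ₀ w hw).2.2.2.2 K hK (by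
      filter_upwards [hW₁.mem_nhds hw] with z hz hzO
      exact hF z hz hzO) (by
      filter_upwards [hW₁.mem_nhds hw] with z hz hz0
      exact hFz z hz hz0)
  have hFnz : ¬ ∀ᶠ w in 𝓝 w₁, F w = 0 := by
    intro hz
    obtain ⟨w', ⟨k1, k2⟩, k3, k4⟩ := mem_closure_iff_nhds.1 (hφd (hW₁W hw₁').1) _
      (hz.and (hW₁.mem_nhds hw₁'))
    have k5 := hO1 w' k2 k4
    have k6 := hF w' k2 k5
    obtain ⟨k7, k8, -, k9, -⟩ := hγ₀ w' k2
    have k10 := (h.iso.holo (γ₀ w') k5 i c e k8 (by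
      rw [hO2 w' k2 k5]; exact (hW₁W k2).2) k9).2
    rw [k1] at k6
    exact pow_ne_zero K k10 k6.symm
  obtain ⟨ν, F₁, hF₁, hFF₁, hF₁ne⟩ := exists_max_pow (hγ₀ w₁ hw₁').2.2.2.2 hw₁0 hFnz
  have hF₁fr : ∃ᶠ w in 𝓝 w₁, w 0 = 0 ∧ F₁ w ≠ 0 := by
    rw [Filter.not_eventually] at hF₁ne
    refine hF₁ne.mono fun w hw => ?_
    push Not at hw
    exact hw
  have hfr := freq_mul hw₁0 hF₁ (analyticAt_det (hγ₀ w₁ hw₁').2.2.1) hF₁fr
    (hfin' w₁ hw₁' hw₁0).1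
  have hevW : ∀ᶠ w in 𝓝 w₁, w ∈ W₁ := hW₁.mem_nhds hw₁'
  obtain ⟨w₂, ⟨hw₂0, hF₁w₂, hdet⟩, hw₂W, hw₂F, hw₂an⟩ := (hfr.and_eventually
    (hevW.and (hFF₁.eventually_nhds.and hF₁.eventually_analyticAt))).exists
  obtain ⟨hdvd, hle⟩ := (hfin' w₂ hw₂W hw₂0).2 ν F₁ hw₂an.continuousAt hF₁w₂ hdet hw₂F
  have hν : 1 ≤ ν := by
    by_contra hν
    have hν0 : ν = 0 := by omega
    have k1 := hw₂F.self_of_nhds
    rw [hFz w₂ hw₂W hw₂0, hν0, pow_zero, one_mul] at k1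
    exact hF₁w₂ k1.symm
  -- shrink
  obtain ⟨r₂, hr₂, hball⟩ := Metric.eventually_nhds_iff_ball.1
    ((hW₁.eventually_mem hw₂W).and (hw₂F.and (hw₂an.eventually_analyticAt.and
      (hw₂an.continuousAt.eventually_ne hF₁w₂))))
  have hs₂ : ball w₂ r₂ ⊆ W₁ := fun w hw => (hball w hw).1
  obtain ⟨l, w₃, hw₃, hw₃0, r₃, hs₃, hpar⟩ := exists_par hvV hsurj hG hcl h.thin isOpen_ball
    (mem_ball_self hr₂) hw₂0 (fun w hw => ⟨(hγ₀ w (hs₂ hw)).1, (hγ₀ w (hs₂ hw)).2.1,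
      (hγ₀ w (hs₂ hw)).2.2.1⟩) hdet (by
      intro w hw hw0 hwO
      exact hφO w (hW₁W (hs₂ hw)).1 hw0 ⟨γ₀ w, hwO, hO2 w (hs₂ hw) hwO⟩)
  refine ⟨l, γ₀, w₃, r₃, φ, i, c, F₁, ν, K, ⟨hpar, hK, fun w hw => hφ w (hW₁W (hs₂ (hs₃ hw))).1,
    fun w hw => (hW₁W (hs₂ (hs₃ hw))).2, fun w hw => (hγ₀ w (hs₂ (hs₃ hw))).2.2.2.1,
    fun w hw hwO => (hO2 w (hs₂ (hs₃ hw)) hwO).symm, fun w hw => (hball w (hs₃ hw)).2.2.1, ?_,
    ⟨w₃, mem_ball_self hpar.pos, hw₃0, (hball w₃ hw₃).2.2.2⟩⟩, ?_, hdvd, hν, hle⟩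
  · intro w hw hwO
    rw [← (hball w (hs₃ hw)).2.1]
    exact hF w (hs₂ (hs₃ hw)) hwO
  · intro w hw hw0
    exact hφS w (hW₁W (hs₂ (hs₃ hw))).1 hw0

/-- (P7c) -/
theorem stP7c_of (hL0 : StL0) (hTX : StTX2c) (hConn : StConn) (hReg : StRegC) : StP7c := by
  intro Y _ _ _ _ _ χ hχ M hM hnef m hm N W X Z hX0 r v p P G hR f f' A L hL hflip
  have hreg := hReg Y χ hχ M hM hnef m hm N W X Z hX0 r v p P G hR f f' A L hL hflip
  rcases Nat.eq_zero_or_pos N with rfl | hNpos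
  · simp
  set NB : Bd Y := ((Bd.can 4 Y).pow m).mul M with hNB
  have hN : CtBd NB := ctBd hM m
  have hch : ∀ j, ∃ p q : ℕ, j < N → (1 ≤ p ∧ 1 ≤ q ∧ IsFlip (X j) (Z j) (X (j + 1)) (f j) (f' j)
      (Amin (f j)) ((L j).pow p) ((L (j + 1)).pow q)) := by
    intro j
    by_cases hj : j < N
    · obtain ⟨p, q, hp, hq, h⟩ := hflip j hj
      exact ⟨p, q, fun _ => ⟨hp, hq, (stD0 _ _ _ _ _ _ _ _ h).1⟩⟩
    · exact ⟨0, 0, fun h => (hj h).elim⟩
  choose pp qq hpq using hch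
  have hneX : Nonempty (X 0).pt := by
    have h1 := (hpq 0 hNpos).2.2.ninj
    rw [Function.Injective] at h1
    push Not at h1
    obtain ⟨x, -⟩ := h1
    exact ⟨x⟩
  have hneW : Nonempty W.pt := by
    obtain ⟨x⟩ := hneX
    obtain ⟨w, -⟩ := hR.psurj x
    exact ⟨w⟩
  have hneY : Nonempty Y := by
    obtain ⟨w⟩ := hneW
    obtain ⟨y, -⟩ := hR.surj w
    exact ⟨y⟩
  have hDd : Dense (⋃ l, G l)ᶜ := dense_compl_iUnion_hyp hR.hyp hR.closed
  have hDc : IsClosed (⋃ l, G l) := isClosed_iUnion_of_finite hR.closed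
  have key : ∀ j ≤ N, ∃ (O : Set Y) (v' : Y → (X j).pt) (P' Q' : ℕ)
      (T : (L j).ι → NB.ι → Y → ℂ) (α : Fin r → ℚ) (S : Set (X j).pt),
      Tw2c v (⋃ l, G l) NB (X j) (L j) O v' P' Q' T S ∧
      OrdD v G O v' T Q' α ∧
      {i | i < j ∧ ¬ DimLe (X (i + 1)) 1 (f' i ⁻¹' Amin (f i))}.ncard ≤
        ∑ l, min m ⌊α l⌋₊ := by
    intro j
    induction j with
    | zero =>
      intro _
      obtain ⟨c, hc, t, ht⟩ := hL
      have h1 := Tw2c.base hL0 hX0 hR (N := NB) (fun c => hN.isOpen c) hN.cover hc ht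
        (hpq 0 hNpos).1 (hpq 0 hNpos).2.2.lb
      obtain ⟨α, hα⟩ := OrdD.base hR hN ht h1.toTw0 hDd
      exact ⟨_, _, _, _, _, α, _, h1, hα, by simp⟩
    | succ j ih =>
      intro hj
      obtain ⟨O, v', P', Q', T, α, S, hTw, hOrd, hcount⟩ := ih (by omega)
      obtain ⟨hp, hq, hf⟩ := hpq j (by omega)
      obtain ⟨s, hs⟩ := hf.iso
      choose a ha using hf.lb.cover
      have ha' : ∀ x, x ∈ (L j).U (a x) := ha
      have hTw' := hTw.step (fun c => hN.isOpen c) hR.emb hp hq hf rfl hs ha'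
      have hdO := hTw.dense hR.emb hR.surj hDd hDc
      have hdO' := hTw'.dense hR.emb hR.surj hDd hDc
      obtain ⟨α', hOrd', hle, hlt⟩ := hOrd.step hConn hR.emb hR.hyp hR.conn
        (fun l => subset_iUnion G l) hN hTw.toTw0 hp hq hf rfl hs ha' hdO hdO'
      refine ⟨_, _, _, _, _, α', _, hTw', hOrd', ?_⟩
      have hmono : ∀ l, min m ⌊α l⌋₊ ≤ min m ⌊α' l⌋₊ := fun l =>
        min_le_min le_rfl (Nat.floor_mono (hle l))
      by_cases hJ : DimLe (X (j + 1)) 1 (f' j ⁻¹' Amin (f j))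
      · have h1 : {i | i < j + 1 ∧ ¬ DimLe (X (i + 1)) 1 (f' i ⁻¹' Amin (f i))} =
            {i | i < j ∧ ¬ DimLe (X (i + 1)) 1 (f' i ⁻¹' Amin (f i))} := by
          ext i
          constructor
          · rintro ⟨h1, h2⟩
            refine ⟨lt_of_le_of_ne (Nat.lt_succ_iff.1 h1) ?_, h2⟩
            rintro rfl
            exact h2 hJ
          · rintro ⟨h1, h2⟩
            exact ⟨h1.trans (Nat.lt_succ_self _), h2⟩
        rw [h1]
        exact hcount.trans (Finset.sum_le_sum fun l _ => hmono l)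
      · -- a flipped surface
        have hSO : f' j ⁻¹' Amin (f j) ⊆ ((fun y => hf.small'.sec (f j (v' y))) ''
            {y | y ∈ O ∧ f j (v' y) ∉ Amin (f j)})ᶜ := by
          rintro x' hx' ⟨y, hy, rfl⟩
          have h1 : f' j (hf.small'.sec (f j (v' y))) ∈ Amin (f j) := hx'
          rw [hf.small'.sec_eq] at h1
          exact hy.2 h1
        obtain ⟨l, ξ, w₀, ρ, γ, i, c, F, ν, K, hn, hnS, hdvd, hν1, hνm⟩ := exists_datumc hTX hR.emb
          hR.surj hR.hyp hR.closed hχ hM hnef hm hf.normal' hTw'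
          (hf.small'.an.preimage (V := univ) fun x => hf.small'.holMap x) hSO hJ
          (hreg j (by omega))
        have hlt' := hlt l ξ w₀ ρ γ i c F ν K hn hnS
        have hord := hOrd'.ord l ξ w₀ ρ γ i c F ν K hn
        obtain ⟨b, hb⟩ := hdvd
        have hQK : 0 < Q' * pp j * K := Nat.mul_pos hTw'.hQ hn.hK
        have hαb : α' l = b := by
          have h1 : (0 : ℚ) < (Q' * pp j : ℕ) * K := by exact_mod_cast hQK
          rw [hb] at hord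
          push_cast at hord h1
          have h2 : α' l * (Q' * pp j * K) = b * (Q' * pp j * K) := by linarith
          exact mul_right_cancel₀ h1.ne' h2
        have hb1 : 1 ≤ b := by
          rw [hb] at hν1
          by_contra hb0
          have : b = 0 := by omega
          rw [this, mul_zero] at hν1
          omega
        have hbm : b ≤ m := by
          rw [hb] at hνm
          have h1 : Q' * pp j * K * b ≤ Q' * pp j * K * m := by
            calc _ ≤ m * (Q' * pp j * K) := hνm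
              _ = _ := by ring
          exact Nat.le_of_mul_le_mul_left h1 hQK
        have hlt2 : min m ⌊α l⌋₊ + 1 ≤ min m ⌊α' l⌋₊ := by
          rw [hαb, Nat.floor_natCast, min_eq_right hbm]
          have h1 : ⌊α l⌋₊ < b := by
            rw [Nat.floor_lt' (by omega)]
            rw [hαb] at hlt'
            exact hlt'
          have h2 : min m ⌊α l⌋₊ ≤ ⌊α l⌋₊ := min_le_right _ _
          omega
        have h1 : {i | i < j + 1 ∧ ¬ DimLe (X (i + 1)) 1 (f' i ⁻¹' Amin (f i))} ⊆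
            insert j {i | i < j ∧ ¬ DimLe (X (i + 1)) 1 (f' i ⁻¹' Amin (f i))} := by
          rintro i ⟨h1, h2⟩
          rcases eq_or_ne i j with rfl | hij
          · exact Or.inl rfl
          · exact Or.inr ⟨lt_of_le_of_ne (Nat.lt_succ_iff.1 h1) hij, h2⟩
        have hfin : {i | i < j ∧ ¬ DimLe (X (i + 1)) 1 (f' i ⁻¹' Amin (f i))}.Finite :=
          (Set.finite_lt_nat j).subset fun i hi => hi.1
        have h2 := (ncard_le_ncard h1 (hfin.insert j)).trans (ncard_insert_le _ _)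
        have h3 : ∑ l, min m ⌊α l⌋₊ + 1 ≤ ∑ l, min m ⌊α' l⌋₊ := by
          have h4 : ∑ l, min m ⌊α l⌋₊ < ∑ l, min m ⌊α' l⌋₊ :=
            Finset.sum_lt_sum (fun l _ => hmono l) ⟨l, Finset.mem_univ _, by omega⟩
          omega
        omega
  obtain ⟨O, v', P', Q', T, α, S, -, -, hcount⟩ := key N le_rfl
  refine hcount.trans ?_
  calc ∑ l : Fin r, min m ⌊α l⌋₊ ≤ ∑ _l : Fin r, m := Finset.sum_le_sum fun l _ => min_le_left _ _
    _ = m * r := by simp [mul_comm]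

theorem stTX2c : StTX2c :=
  stTX2c_of stTAc_final (H19.stTD_of_core TD.stCore) H884.stDis

/-- (P7c): at most `m r` flips have a flipped locus of dimension two. -/
theorem stP7c : StP7c := stP7c_of H884.stL0 stTX2c H884.stConn stRegC

end Vale.Agent.P277.H615
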