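import Vale.Agent.P277.Stmts6
import Vale.Agent.P277.H335.Tower
import Vale.Agent.P277.H884.TB

/-!
# P277, T2: the tower of flips over a resolution `Y` of `X 0`
-/

open scoped Manifold ContDiff Topology
open Vale.Agent.P272.K Vale.Agent.P285.H281.FD Vale.Agent.P267.H175 Set Filter

noncomputable section

namespace Vale.Agent.P277.H615

open Vale.Agent.P277 Vale.Agent.P277.T2 Vale.Agent.P277.H335

variable {Y : Type} [TopologicalSpace Y] [ChartedSpace (Cm 4) Y]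

/-- Wedges of `X` lift to `Y`; the function `F` vanishes along `{w 0 = 0}` if the wedge is centred in
the complement of `v '' O`. -/
def Chain2 (N : Bd Y) (X : CSp) (L : Bd X.pt) (O : Set Y) (v : Y → X.pt)
    (T : L.ι → N.ι → Y → ℂ) : Prop :=
  ∀ (W : Set (Cm 4)) (w₀ : Cm 4) (γ' : Cm 4 → X.pt) (i : L.ι), IsOpen W → w₀ ∈ W → w₀ 0 = 0 →
    (∀ w ∈ W, HolAt X γ' w) → W ⊆ closure {w | w ∈ W ∧ γ' w ∈ v '' O} →
    (∀ w ∈ W, γ' w ∈ L.U i) →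
    ∃ w₁ ∈ W, w₁ 0 = 0 ∧ ∃ (W₁ : Set (Cm 4)) (γ₀ : Cm 4 → Y) (e : Chart 4 Y) (c : N.ι)
      (F : Cm 4 → ℂ) (K : ℕ), IsOpen W₁ ∧ w₁ ∈ W₁ ∧ W₁ ⊆ W ∧ 1 ≤ K ∧
      (∀ w ∈ W₁, ContinuousAt γ₀ w ∧ At e (γ₀ w) ∧ AnalyticAt ℂ (fun w => e (γ₀ w)) w ∧
        γ₀ w ∈ N.U c ∧ AnalyticAt ℂ F w) ∧
      (∀ w ∈ W₁, γ' w ∈ v '' O → γ₀ w ∈ O) ∧ (∀ w ∈ W₁, γ₀ w ∈ O → v (γ₀ w) = γ' w) ∧
      (∀ w ∈ W₁, γ₀ w ∈ O → F w = T i c (γ₀ w) ^ K) ∧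
      ((∀ w ∈ W, w 0 = 0 → γ' w ∉ v '' O) → ∀ w ∈ W₁, w 0 = 0 → F w = 0)

/-- Wedges of `X` lift to `Y`; the function `F` vanishes along `{w 0 = 0}` if the wedge is centred in
`S`. -/
def Chain2c (N : Bd Y) (X : CSp) (L : Bd X.pt) (O : Set Y) (v : Y → X.pt)
    (T : L.ι → N.ι → Y → ℂ) (S : Set X.pt) : Prop :=
  ∀ (W : Set (Cm 4)) (w₀ : Cm 4) (γ' : Cm 4 → X.pt) (i : L.ι), IsOpen W → w₀ ∈ W → w₀ 0 = 0 →
    (∀ w ∈ W, HolAt X γ' w) → W ⊆ closure {w | w ∈ W ∧ γ' w ∈ v '' O} →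
    (∀ w ∈ W, γ' w ∈ L.U i) →
    ∃ w₁ ∈ W, w₁ 0 = 0 ∧ ∃ (W₁ : Set (Cm 4)) (γ₀ : Cm 4 → Y) (e : Chart 4 Y) (c : N.ι)
      (F : Cm 4 → ℂ) (K : ℕ), IsOpen W₁ ∧ w₁ ∈ W₁ ∧ W₁ ⊆ W ∧ 1 ≤ K ∧
      (∀ w ∈ W₁, ContinuousAt γ₀ w ∧ At e (γ₀ w) ∧ AnalyticAt ℂ (fun w => e (γ₀ w)) w ∧
        γ₀ w ∈ N.U c ∧ AnalyticAt ℂ F w) ∧
      (∀ w ∈ W₁, γ' w ∈ v '' O → γ₀ w ∈ O) ∧ (∀ w ∈ W₁, γ₀ w ∈ O → v (γ₀ w) = γ' w) ∧
      (∀ w ∈ W₁, γ₀ w ∈ O → F w = T i c (γ₀ w) ^ K) ∧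
      ((∀ w ∈ W, w 0 = 0 → γ' w ∈ S) → ∀ w ∈ W₁, w 0 = 0 → F w = 0)

/-- the data on a space `X` obtained from `X₀` by flips; `D` is the exceptional divisor in `Y` -/
structure Tw0 {V : CSp} (vV : Y → V.pt) (D : Set Y) (N : Bd Y) (X : CSp) (L : Bd X.pt)
    (O : Set Y) (v : Y → X.pt) (P Q : ℕ) (T : L.ι → N.ι → Y → ℂ) : Prop where
  emb : IsOpenEmb X O v
  dim : DimLe X 2 (v '' O)ᶜ
  sub : O ⊆ Dᶜ
  thin : DimLe V 2 (vV '' (Dᶜ \ O))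
  hP : 1 ≤ P
  hQ : 1 ≤ Q
  lb : IsLBx X (L.pow P)
  iso : IsIsoY O v (L.pow P) (N.pow Q) T

/-- `Tw0`, and the lifting of wedges -/
structure Tw2 {V : CSp} (vV : Y → V.pt) (D : Set Y) (N : Bd Y) (X : CSp) (L : Bd X.pt)
    (O : Set Y) (v : Y → X.pt) (P Q : ℕ) (T : L.ι → N.ι → Y → ℂ) : Prop extends
    Tw0 vV D N X L O v P Q T where
  chain : Chain2 N X L O v T

/-- `Tw0`, and the lifting of wedges (canonical version) -/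
structure Tw2c {V : CSp} (vV : Y → V.pt) (D : Set Y) (N : Bd Y) (X : CSp) (L : Bd X.pt)
    (O : Set Y) (v : Y → X.pt) (P Q : ℕ) (T : L.ι → N.ι → Y → ℂ) (S : Set X.pt) : Prop extends
    Tw0 vV D N X L O v P Q T where
  chain : Chain2c N X L O v T S

/-- the removed set stays thin -/
theorem thin_step {V X : CSp} {vV : Y → V.pt} {O D : Set Y} {v : Y → X.pt}
    (hvV : IsOpenEmb V univ vV) (hv : IsOpenEmb X O v) {d : ℕ} (h0 : DimLe V d (vV '' (Dᶜ \ O)))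
    {E : Set X.pt} (hE : DimLe X d E) : DimLe V d (vV '' (Dᶜ \ {y | y ∈ O ∧ v y ∉ E})) := by
  rcases isEmpty_or_nonempty Y with hY | ⟨⟨y₀⟩⟩
  · refine h0.mono ?_
    rintro _ ⟨y, -, -⟩
    exact (hY.false y).elim
  · have h1 : DimLe V d ((fun x => vV (hv.inv y₀ x)) '' (E ∩ v '' O)) := by
      refine (hE.mono inter_subset_left).image ?_
      rintro _ ⟨-, y, hy, rfl⟩
      exact holMap_inv hvV hv y₀ hy
    refine (h0.union h1).mono ?_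
    rintro _ ⟨y, ⟨hyD, hy⟩, rfl⟩
    by_cases hyO : y ∈ O
    · refine Or.inr ⟨v y, ⟨?_, y, hyO, rfl⟩, by simp only [hv.inv_apply y₀ hyO]⟩
      by_contra hyE
      exact hy ⟨hyO, hyE⟩
    · exact Or.inl ⟨y, ⟨hyD, hyO⟩, rfl⟩

section step

variable {V X Z X' : CSp} {vV : Y → V.pt} {D : Set Y} {N : Bd Y} {L : Bd X.pt} {O : Set Y}
  {v : Y → X.pt} {P Q : ℕ} {T : L.ι → N.ι → Y → ℂ} {L' : Bd X'.pt} {f : X.pt → Z.pt}
  {f' : X'.pt → Z.pt} {A : Set Z.pt} {p q : ℕ} {s : L.ι → L'.ι → Z.pt → ℂ}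

/-- the isomorphism of line bundles after the flip -/
def stT (v : Y → X.pt) (f : X.pt → Z.pt) (P p : ℕ) (T : L.ι → N.ι → Y → ℂ)
    (s : L.ι → L'.ι → Z.pt → ℂ) (a : X.pt → L.ι) (b : L'.ι) (c : N.ι) (y : Y) : ℂ :=
  comp1 v f P p T s (a (v y)) b c y

theorem stT_eq (h : IsIsoY O v (L.pow P) (N.pow Q) T) (hP : IsLBx X (L.pow P))
    (hf : IsFlip X Z X' f f' A (L.pow p) (L'.pow q)) (hs : IsIso f f' A (L.pow p) (L'.pow q) s)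
    {a : X.pt → L.ι} (ha : ∀ x, x ∈ L.U (a x)) {y : Y} (hy : y ∈ O) (hyA : f (v y) ∉ A)
    {a₁ : L.ι} {b : L'.ι} {c : N.ι} (h1 : v y ∈ L.U a₁) (h2 : hf.small'.sec (f (v y)) ∈ L'.U b)
    (h3 : y ∈ N.U c) : stT v f P p T s a b c y = comp1 v f P p T s a₁ b c y :=
  comp1_indep h hP hs hf.lb hf.lb' hy hyA (hf.small'.sec_eq _) h1 (ha _) h2 h3

theorem iso_step (hemb : IsOpenEmb X O v) (hlb : IsLBx X (L.pow P))
    (hiso : IsIsoY O v (L.pow P) (N.pow Q) T) (hN : ∀ c, IsOpen (N.U c))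
    (hf : IsFlip X Z X' f f' A (L.pow p) (L'.pow q)) (hs : IsIso f f' A (L.pow p) (L'.pow q) s)
    {a : X.pt → L.ι} (ha' : ∀ x, x ∈ L.U (a x)) :
    IsIsoY {y | y ∈ O ∧ f (v y) ∉ A} (fun y => hf.small'.sec (f (v y))) (L'.pow (q * P))
      (N.pow (Q * p)) (stT v f P p T s a) := by
  set O' : Set Y := {y | y ∈ O ∧ f (v y) ∉ A} with hO'
  set v' : Y → X'.pt := fun y => hf.small'.sec (f (v y)) with hv'
  have hf'v' : ∀ y, f' (v' y) = f (v y) := fun y => hf.small'.sec_eq _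
  set T' : L'.ι → N.ι → Y → ℂ := stT v f P p T s a with hT'
  have hembX' : IsOpenEmb X' O' v' := hemb.flip hf.small hf.small'
  have hindep : ∀ y ∈ O', ∀ (a₁ : L.ι) (b : L'.ι) (c : N.ι), v y ∈ L.U a₁ → v' y ∈ L'.U b →
      y ∈ N.U c → T' b c y = comp1 v f P p T s a₁ b c y := fun y hy a₁ b c h1 h2 h3 =>
    stT_eq hiso hlb hf hs ha' hy.1 hy.2 h1 h2 h3
  refine ⟨?_, ?_⟩
  · intro y hy b c e he hb hc
    have hb' : v' y ∈ L'.U b := hb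
    have hc' : y ∈ N.U c := hc
    have h1 := hiso.holo y hy.1 (a (v y)) c e he (ha' _) hc'
    have h2 := hs.holo (v y) (v' y) (a (v y)) b hy.2 (hf'v' y) (ha' _) hb'
    have h3 : AnalyticAt ℂ (fun z => s (a (v y)) b (f (v (e.symm z)))) (e y) :=
      (hemb.hol_iff hy.1 he).1 (hf.small.holo _ _ h2.1)
    have h3' : s (a (v y)) b (f (v (e.symm (e y)))) ≠ 0 := by rw [e.left_inv he.2]; exact h2.2
    refine ⟨?_, ?_⟩
    · have h4 : AnalyticAt ℂ (fun z => comp1 v f P p T s (a (v y)) b c (e.symm z)) (e y) :=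
        (h1.1.pow p).div (h3.pow P) (pow_ne_zero _ h3')
      refine h4.congr ?_
      have h5 : ContinuousAt e.symm (e y) := e.continuousAt_symm (e.map_source he.2)
      have h6 : ContinuousAt (fun z => v (e.symm z)) (e y) := by
        refine ContinuousAt.comp (g := v) ?_ h5
        rw [e.left_inv he.2]; exact hemb.continuousAt hy.1
      have h7 : ContinuousAt (fun z => v' (e.symm z)) (e y) := by
        refine ContinuousAt.comp (g := v') ?_ h5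
        rw [e.left_inv he.2]; exact hembX'.continuousAt hy
      have e1 : ∀ᶠ z in 𝓝 (e y), e.symm z ∈ O' := h5.eventually_mem (by
        rw [e.left_inv he.2]; exact hembX'.isOpen.mem_nhds hy)
      have e2 : ∀ᶠ z in 𝓝 (e y), v (e.symm z) ∈ L.U (a (v y)) := h6.eventually_mem (by
        rw [e.left_inv he.2]; exact (hf.lb.isOpen _).mem_nhds (ha' _))
      have e3 : ∀ᶠ z in 𝓝 (e y), v' (e.symm z) ∈ L'.U b := h7.eventually_mem (by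
        rw [e.left_inv he.2]; exact (hf.lb'.isOpen _).mem_nhds hb')
      have e4 : ∀ᶠ z in 𝓝 (e y), e.symm z ∈ N.U c := h5.eventually_mem (by
        rw [e.left_inv he.2]; exact (hN c).mem_nhds hc')
      filter_upwards [e1, e2, e3, e4] with z z1 z2 z3 z4
      exact (hindep _ z1 _ b c z2 z3 z4).symm
    · exact div_ne_zero (pow_ne_zero _ h1.2) (pow_ne_zero _ h2.2)
  · intro y hy b b₁ c c₁ hb hb₁ hc hc₁
    have hb' : v' y ∈ L'.U b := hb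
    have hb₁' : v' y ∈ L'.U b₁ := hb₁
    have k1 : T (a (v y)) c₁ y = L.g (a (v y)) (a (v y)) (v y) ^ P * T (a (v y)) c y *
        N.g c₁ c y ^ Q := hiso.change y hy.1 _ _ c c₁ (ha' _) (ha' _) hc hc₁
    have k2 : L.g (a (v y)) (a (v y)) (v y) ^ P = 1 := lb_self hlb (ha' _)
    have k3 : s (a (v y)) b₁ (f (v y)) = L.g (a (v y)) (a (v y)) (v y) ^ p *
        s (a (v y)) b (f (v y)) * L'.g b₁ b (v' y) ^ q :=
      hs.change (v y) (v' y) _ _ b b₁ hy.2 (hf'v' y) (ha' _) (ha' _) hb' hb₁'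
    have k4 : L.g (a (v y)) (a (v y)) (v y) ^ p = 1 := lb_self hf.lb (ha' _)
    have k5 : L'.g b b₁ (v' y) ^ q * L'.g b₁ b (v' y) ^ q = L'.g b b (v' y) ^ q :=
      hf.lb'.cocycle b b₁ b _ hb' hb₁' hb'
    have k6 : L'.g b b (v' y) ^ q = 1 := lb_self hf.lb' hb'
    have k7 : s (a (v y)) b (f (v y)) ≠ 0 :=
      (hs.holo (v y) (v' y) (a (v y)) b hy.2 (hf'v' y) (ha' _) hb').2
    have k8 : L'.g b₁ b (v' y) ^ q ≠ 0 := hf.lb'.ne_zero b₁ b _ hb₁' hb'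
    rw [k6] at k5
    rw [k2, one_mul] at k1
    rw [k4, one_mul] at k3
    show T (a (v y)) c₁ y ^ p / s (a (v y)) b₁ (f (v y)) ^ P =
      L'.g b b₁ (v' y) ^ (q * P) * (T (a (v y)) c y ^ p / s (a (v y)) b (f (v y)) ^ P) *
        N.g c₁ c y ^ (Q * p)
    rw [k1, k3, pow_mul, pow_mul, mul_pow, mul_pow]
    have k9 : L'.g b b₁ (v' y) ^ q = (L'.g b₁ b (v' y) ^ q)⁻¹ := eq_inv_of_mul_eq_one_left k5
    rw [k9]
    generalize L'.g b₁ b (v' y) ^ q = u at *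
    generalize N.g c₁ c y ^ Q = w at *
    generalize T (a (v y)) c y ^ p = r at *
    generalize s (a (v y)) b (f (v y)) ^ P = r' at *
    rw [inv_pow]
    have k10 : u ^ P ≠ 0 := pow_ne_zero _ k8
    generalize u ^ P = u' at *
    generalize w ^ p = w' at *
    by_cases hr : r' = 0
    · simp [hr]
    · field_simp

/-- lifting wedges from `X'` to `Y`: the main part -/
theorem chain_core (h : Tw0 vV D N X L O v P Q T) {S : Set X.pt} (hch : Chain2c N X L O v T S)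
    (hp : 1 ≤ p) (hf : IsFlip X Z X' f f' A (L.pow p) (L'.pow q)) (hA : A = Amin f)
    (hs : IsIso f f' A (L.pow p) (L'.pow q) s) {a : X.pt → L.ι} (ha : ∀ x, x ∈ L.U (a x))
    {W : Set (Cm 4)} {w₀ : Cm 4} {γ' : Cm 4 → X'.pt} {b : L'.ι} (hW : IsOpen W) (hw₀ : w₀ ∈ W)
    (hw₀0 : w₀ 0 = 0) (hγ' : ∀ w ∈ W, HolAt X' γ' w)
    (hd : W ⊆ closure {w | w ∈ W ∧ γ' w ∈ (fun y => hf.small'.sec (f (v y))) ''
      {y | y ∈ O ∧ f (v y) ∉ A}})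
    (hb : ∀ w ∈ W, γ' w ∈ L'.U b) :
    ∃ w₁ ∈ W, w₁ 0 = 0 ∧ ∃ (W₁ : Set (Cm 4)) (γ₀ : Cm 4 → Y) (e : Chart 4 Y) (c : N.ι)
      (F : Cm 4 → ℂ) (K : ℕ), IsOpen W₁ ∧ w₁ ∈ W₁ ∧ W₁ ⊆ W ∧ 1 ≤ K ∧
      (∀ w ∈ W₁, ContinuousAt γ₀ w ∧ At e (γ₀ w) ∧ AnalyticAt ℂ (fun w => e (γ₀ w)) w ∧
        γ₀ w ∈ N.U c ∧ AnalyticAt ℂ F w) ∧
      (∀ w ∈ W₁, γ' w ∈ (fun y => hf.small'.sec (f (v y))) '' {y | y ∈ O ∧ f (v y) ∉ A} →
        γ₀ w ∈ {y | y ∈ O ∧ f (v y) ∉ A}) ∧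
      (∀ w ∈ W₁, γ₀ w ∈ {y | y ∈ O ∧ f (v y) ∉ A} → hf.small'.sec (f (v (γ₀ w))) = γ' w) ∧
      (∀ w ∈ W₁, γ₀ w ∈ {y | y ∈ O ∧ f (v y) ∉ A} → F w = stT v f P p T s a b c (γ₀ w) ^ K) ∧
      ((∀ w ∈ W, w 0 = 0 → f' (γ' w) ∈ A) → ∀ w ∈ W₁, w 0 = 0 → F w = 0) ∧
      ((∀ w ∈ W, w 0 = 0 → f' (γ' w) ∉ A ∧ ∀ x, f x = f' (γ' w) → x ∈ S) →
        ∀ w ∈ W₁, w 0 = 0 → F w = 0) := by
  set O' : Set Y := {y | y ∈ O ∧ f (v y) ∉ A} with hO'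
  set v' : Y → X'.pt := fun y => hf.small'.sec (f (v y)) with hv'
  have hf'v' : ∀ y, f' (v' y) = f (v y) := fun y => hf.small'.sec_eq _
  set T' : L'.ι → N.ι → Y → ℂ := stT v f P p T s a with hT'
  have hindep : ∀ y ∈ O', ∀ (a₁ : L.ι) (b : L'.ι) (c : N.ι), v y ∈ L.U a₁ → v' y ∈ L'.U b →
      y ∈ N.U c → T' b c y = comp1 v f P p T s a₁ b c y := fun y hy a₁ b c h1 h2 h3 =>
    stT_eq h.iso h.lb hf hs ha hy.1 hy.2 h1 h2 h3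
  have hd' : W ⊆ closure {w | w ∈ W ∧ f' (γ' w) ∉ A} := by
    refine hd.trans (closure_mono ?_)
    rintro w ⟨hw, y, hy, hyw⟩
    refine ⟨hw, ?_⟩
    rw [← hyw]
    exact (hf'v' y).symm ▸ hy.2
  obtain ⟨w₁, hw₁W, hw₁0, W₁, γ, k, a₁, H, hW₁, hw₁, hW₁W, hγ, hk, hHt, hH0⟩ :=
    lift H884.stTB hf hA hs hW hw₀ hw₀0 hγ' hd' b hb
  -- points over `v' O'`
  have key : ∀ w ∈ W₁, ∀ y ∈ O', v' y = γ' w → γ w = v y := by
    intro w hw y hy hyw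
    have h1 : f (γ w) = f (v y) := by rw [(hγ w hw).2.1, ← hyw, hf'v']
    exact hf.small.inj _ _ hy.2 h1
  have hd₁ : W₁ ⊆ closure {w | w ∈ W₁ ∧ γ w ∈ v '' O} := by
    refine (subset_closure_of_open (D := {w | γ' w ∈ v' '' O'}) hW₁ hW₁W hd).trans
      (closure_mono ?_)
    rintro w ⟨hw, y, hy, hyw⟩
    exact ⟨hw, y, hy.1, (key w hw y hy hyw).symm⟩
  obtain ⟨w₂, hw₂W, hw₂0, W₂, γ₀, e, c, F, K, hW₂, hw₂, hW₂W, hK, hγ₀, hO1, hO2, hF, hF0⟩ :=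
    hch W₁ w₁ γ a₁ hW₁ hw₁ hw₁0 (fun w hw => (hγ w hw).1) hd₁ fun w hw => (hγ w hw).2.2.1
  have hO2' : ∀ w ∈ W₂, γ₀ w ∈ O' → v' (γ₀ w) = γ' w := by
    intro w hw hy
    have h1 : v (γ₀ w) = γ w := hO2 w hw hy.1
    refine hf.small'.inj _ _ ?_ ?_
    · rw [← (hγ w (hW₂W hw)).2.1, ← h1]; exact hy.2
    · rw [hf'v', h1, (hγ w (hW₂W hw)).2.1]
  refine ⟨w₂, hW₁W hw₂W, hw₂0, W₂, γ₀, e, c, fun w => F w ^ (p * k) * H w ^ (P * K), K * k, hW₂,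
    hw₂, hW₂W.trans hW₁W, Nat.mul_pos hK hk, ?_, ?_, hO2', ?_, ?_, ?_⟩
  · intro w hw
    obtain ⟨g1, g2, g3, g4, g5⟩ := hγ₀ w hw
    exact ⟨g1, g2, g3, g4, (g5.pow _).mul ((hγ w (hW₂W hw)).2.2.2.pow _)⟩
  · rintro w hw ⟨y, hy, hyw⟩
    have h1 : γ w = v y := key w (hW₂W hw) y hy hyw
    have h2 : γ₀ w ∈ O := hO1 w hw ⟨y, hy.1, h1.symm⟩
    have h3 : γ₀ w = y := h.emb.inj h2 hy.1 (by rw [hO2 w hw h2, h1])
    rw [h3]; exact hy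
  · intro w hw hy
    have h1 : v (γ₀ w) = γ w := hO2 w hw hy.1
    have h2 : v (γ₀ w) ∈ L.U a₁ := by rw [h1]; exact (hγ w (hW₂W hw)).2.2.1
    have h3 : v' (γ₀ w) ∈ L'.U b := by
      rw [hO2' w hw hy]; exact hb w (hW₁W (hW₂W hw))
    rw [hindep _ hy a₁ b c h2 h3 (hγ₀ w hw).2.2.2.1]
    have h4 : f (γ w) ∉ A := by rw [← h1]; exact hy.2
    have h5 := hHt w (hW₂W hw) h4
    rw [← h1] at h5
    show F w ^ (p * k) * H w ^ (P * K) = (T a₁ c (γ₀ w) ^ p / s a₁ b (f (v (γ₀ w))) ^ P) ^ (K * k)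
    rw [hF w hw hy.1]
    generalize s a₁ b (f (v (γ₀ w))) = u at *
    generalize T a₁ c (γ₀ w) = r at *
    have hu : u ^ k ≠ 0 := right_ne_zero_of_mul (h5.trans_ne one_ne_zero)
    have h6 : H w = (u ^ k)⁻¹ := eq_inv_of_mul_eq_one_left h5
    rw [h6, div_pow, div_eq_mul_inv, inv_pow]
    congr 1
    · rw [← pow_mul, ← pow_mul]; congr 1; ring
    · congr 1
      rw [← pow_mul, ← pow_mul]; congr 1; ring
  · intro h0 w hw hw0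
    have h1 : H w = 0 := hH0 (fun z hz hz0 => h0 z hz hz0) w (hW₂W hw) hw0
    show F w ^ (p * k) * H w ^ (P * K) = 0
    rw [h1, zero_pow (Nat.mul_pos h.hP hK).ne', mul_zero]
  · intro h0 w hw hw0
    have h1 : F w = 0 := hF0 (fun z hz hz0 => (h0 z (hW₁W hz) hz0).2 _ (hγ z hz).2.1) w hw hw0
    show F w ^ (p * k) * H w ^ (P * K) = 0
    rw [h1, zero_pow (Nat.mul_pos hp hk).ne', zero_mul]

/-- The step for `Tw0`. -/
theorem Tw0.step (hN : ∀ c, IsOpen (N.U c)) (hvV : IsOpenEmb V univ vV)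
    (h : Tw0 vV D N X L O v P Q T) (hp : 1 ≤ p) (hq : 1 ≤ q)
    (hf : IsFlip X Z X' f f' A (L.pow p) (L'.pow q))
    (hs : IsIso f f' A (L.pow p) (L'.pow q) s) {a : X.pt → L.ι} (ha : ∀ x, x ∈ L.U (a x)) :
    Tw0 vV D N X' L' {y | y ∈ O ∧ f (v y) ∉ A} (fun y => hf.small'.sec (f (v y))) (q * P) (Q * p)
      (stT v f P p T s a) where
  emb := h.emb.flip hf.small hf.small'
  dim := dimLe_compl_flip hf.small hf.small' h.dim hf.small'.dim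
  sub := fun y hy => h.sub hy.1
  thin := thin_step hvV h.emb h.thin hf.small.dim
  hP := Nat.mul_pos hq h.hP
  hQ := Nat.mul_pos h.hQ hp
  lb := lb_pow hf.lb' P
  iso := iso_step h.emb h.lb h.iso hN hf hs ha

/-- The step: from the tower on `X` to the tower on `X'`. -/
theorem Tw2.step (hN : ∀ c, IsOpen (N.U c)) (hvV : IsOpenEmb V univ vV)
    (h : Tw2 vV D N X L O v P Q T) (hp : 1 ≤ p) (hq : 1 ≤ q)
    (hf : IsFlip X Z X' f f' A (L.pow p) (L'.pow q)) (hA : A = Amin f)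
    (hs : IsIso f f' A (L.pow p) (L'.pow q) s) {a : X.pt → L.ι} (ha : ∀ x, x ∈ L.U (a x)) :
    Tw2 vV D N X' L' {y | y ∈ O ∧ f (v y) ∉ A} (fun y => hf.small'.sec (f (v y))) (q * P) (Q * p)
      (stT v f P p T s a) where
  toTw0 := h.toTw0.step hN hvV hp hq hf hs ha
  chain := by
    have hch : Chain2c N X L O v T (v '' O)ᶜ := h.chain
    intro W w₀ γ' b hW hw₀ hw₀0 hγ' hd hb
    by_cases hcase : ∃ w ∈ W, w 0 = 0 ∧ f' (γ' w) ∉ A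
    · obtain ⟨w', hw', hw'0, hw'A⟩ := hcase
      have hcont : ContinuousOn (fun w => f' (γ' w)) W := fun w hw =>
        ((hf.small'.cont.continuousAt (x := γ' w)).comp (hγ' w hw).1).continuousWithinAt
      have hW' : IsOpen (W ∩ (fun w => f' (γ' w)) ⁻¹' Aᶜ) :=
        hcont.isOpen_inter_preimage hW hf.small'.isClosed.isOpen_compl
      have hsub : W ∩ (fun w => f' (γ' w)) ⁻¹' Aᶜ ⊆ W := inter_subset_left
      obtain ⟨w₁, hw₁, hw₁0, W₁, γ₀, e, c, F, K, g1, g2, g3, g4, g5, g6, g7, g8, -, g10⟩ :=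
        chain_core h.toTw0 hch hp hf hA hs ha hW' ⟨hw', hw'A⟩ hw'0 (fun w hw => hγ' w hw.1)
          (subset_closure_of_open (D := {w | γ' w ∈ (fun y => hf.small'.sec (f (v y))) ''
            {y | y ∈ O ∧ f (v y) ∉ A}}) hW' hsub hd) (fun w hw => hb w hw.1)
      refine ⟨w₁, hw₁.1, hw₁0, W₁, γ₀, e, c, F, K, g1, g2, g3.trans hsub, g4, g5, g6, g7, g8, ?_⟩
      intro h0
      refine g10 fun w hw hw0 => ⟨hw.2, ?_⟩
      rintro x hx ⟨y, hy, rfl⟩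
      refine h0 w hw.1 hw0 ⟨y, ⟨hy, by rw [hx]; exact hw.2⟩, ?_⟩
      refine hf.small'.inj _ _ hw.2 ?_
      rw [← hx]
      exact hf.small'.sec_eq _
    · push Not at hcase
      obtain ⟨w₁, hw₁, hw₁0, W₁, γ₀, e, c, F, K, g1, g2, g3, g4, g5, g6, g7, g8, g9, -⟩ :=
        chain_core h.toTw0 hch hp hf hA hs ha hW hw₀ hw₀0 hγ' hd hb
      exact ⟨w₁, hw₁, hw₁0, W₁, γ₀, e, c, F, K, g1, g2, g3, g4, g5, g6, g7, g8, fun _ => g9 hcase⟩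

/-- The step in the canonical case: `F` vanishes for wedges centred in the flipped locus. -/
theorem Tw2c.step {S : Set X.pt} (hN : ∀ c, IsOpen (N.U c)) (hvV : IsOpenEmb V univ vV)
    (h : Tw2c vV D N X L O v P Q T S) (hp : 1 ≤ p) (hq : 1 ≤ q)
    (hf : IsFlip X Z X' f f' A (L.pow p) (L'.pow q)) (hA : A = Amin f)
    (hs : IsIso f f' A (L.pow p) (L'.pow q) s) {a : X.pt → L.ι} (ha : ∀ x, x ∈ L.U (a x)) :
    Tw2c vV D N X' L' {y | y ∈ O ∧ f (v y) ∉ A} (fun y => hf.small'.sec (f (v y))) (q * P) (Q * p)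
      (stT v f P p T s a) (f' ⁻¹' A) where
  toTw0 := h.toTw0.step hN hvV hp hq hf hs ha
  chain := by
    intro W w₀ γ' b hW hw₀ hw₀0 hγ' hd hb
    obtain ⟨w₁, hw₁, hw₁0, W₁, γ₀, e, c, F, K, g1, g2, g3, g4, g5, g6, g7, g8, g9, -⟩ :=
      chain_core h.toTw0 h.chain hp hf hA hs ha hW hw₀ hw₀0 hγ' hd hb
    exact ⟨w₁, hw₁, hw₁0, W₁, γ₀, e, c, F, K, g1, g2, g3, g4, g5, g6, g7, g8, g9⟩

end step

end Vale.Agent.P277.H615
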