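import Vale.Agent.P277.Stmts8
import Vale.Agent.P277.H615.Tw2
import Vale.Agent.P277.H19.Rho

/-!
# P277, T2: the start of the tower over a resolution
-/

open scoped Manifold ContDiff Topology
open Vale.Agent.P272.K Vale.Agent.P285.H281.FD Vale.Agent.P267.H175 Set Filter

noncomputable section

namespace Vale.Agent.P277.H615

open Vale.Agent.P277 Vale.Agent.P277.T2 Vale.Agent.P277.H335

variable {Y : Type} [TopologicalSpace Y] [T2Space Y] [CompactSpace Y] [ChartedSpace (Cm 4) Y]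
  [IsManifold 𝓘(ℂ, Cm 4) ω Y]

omit [T2Space Y] [CompactSpace Y] [IsManifold 𝓘(ℂ, Cm 4) ω Y] in
theorem isRes_compl {W X : CSp} {r : ℕ} {v : Y → W.pt} {p : W.pt → X.pt} {P : Bd W.pt}
    {G : Fin r → Set Y} (hR : IsRes v p P G) :
    ((fun y => p (v y)) '' (⋃ l, G l)ᶜ)ᶜ = (fun y => p (v y)) '' ⋃ l, G l := by
  ext x
  constructor
  · intro hx
    obtain ⟨w, rfl⟩ := hR.psurj x
    obtain ⟨y, rfl⟩ := hR.surj w
    by_cases hy : y ∈ ⋃ l, G l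
    · exact ⟨y, hy, rfl⟩
    · exact (hx ⟨y, hy, rfl⟩).elim
  · rintro ⟨y, hy, rfl⟩ ⟨y', hy', hyy⟩
    have h1 : v y = v y' := hR.inj y' (v y) hy' hyy.symm
    have h2 : y = y' := hR.emb.inj (mem_univ _) (mem_univ _) h1
    exact hy' (h2 ▸ hy)

omit [T2Space Y] [CompactSpace Y] [IsManifold 𝓘(ℂ, Cm 4) ω Y] in
/-- composition of an analytic function on `Y` with an analytic map to `Y` -/
theorem analyticAt_comp_chart {γ₀ : Cm 4 → Y} {w : Cm 4} (hc : ContinuousAt γ₀ w) {e : Chart 4 Y}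
    (he : At e (γ₀ w)) (ha : AnalyticAt ℂ (fun w => e (γ₀ w)) w) {g : Y → ℂ}
    (hg : AnalyticAt ℂ (fun z => g (e.symm z)) (e (γ₀ w))) : AnalyticAt ℂ (fun w => g (γ₀ w)) w := by
  have h1 : AnalyticAt ℂ (fun w => g (e.symm (e (γ₀ w)))) w :=
    AnalyticAt.fun_comp (g := fun z => g (e.symm z)) (f := fun w => e (γ₀ w)) hg ha
  refine h1.congr ?_
  filter_upwards [hc.eventually_mem (e.open_source.mem_nhds he.2)] with z hz
  simp only [e.left_inv hz]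

theorem Tw0.base {W X : CSp} [Nonempty W.pt] {r : ℕ}
    {v : Y → W.pt} {p : W.pt → X.pt} {P : Bd W.pt} {G : Fin r → Set Y} (hR : IsRes v p P G)
    {N : Bd Y} {L : Bd X.pt} {c : ℕ} (hc : 1 ≤ c) {t : L.ι → N.ι → Y → ℂ}
    (ht : IsCmpC (fun y => p (v y)) L (N.pow c) (⋃ l, G l) t) {q : ℕ} (hq : 1 ≤ q)
    (hL : IsLBx X (L.pow q)) :
    Tw0 v (⋃ l, G l) N X L (⋃ l, G l)ᶜ (fun y => p (v y)) q (c * q) (fun i j y => t i j y ^ q) := by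
  refine ⟨hR.emb', ?_, subset_rfl, ?_, hq, Nat.mul_pos hc hq, hL, ⟨?_, ?_⟩⟩
  · rw [isRes_compl hR]; exact hR.dim
  · rw [sdiff_self, image_empty]; exact dimLe_empty
  · intro y hy i j e he hi hj
    have h1 := ht.holo y i j e he hi hj
    refine ⟨h1.1.pow q, pow_ne_zero _ fun h0 => hy (h1.2 h0)⟩
  · intro y hy i i₁ j j₁ hi hi₁ hj hj₁
    have h1 : t i₁ j₁ y = L.g i i₁ (p (v y)) * t i j y * N.g j₁ j y ^ c :=
      ht.change y i i₁ j j₁ hi hi₁ hj hj₁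
    show t i₁ j₁ y ^ q = L.g i i₁ (p (v y)) ^ q * t i j y ^ q * N.g j₁ j y ^ (c * q)
    rw [h1, mul_pow, mul_pow, ← pow_mul]

/-- lifting of wedges to the resolution -/
theorem chain_base (hL0 : StL0) {W X : CSp} (hX : IsNormal 4 X) {r : ℕ}
    {v : Y → W.pt} {p : W.pt → X.pt} {P : Bd W.pt} {G : Fin r → Set Y} (hR : IsRes v p P G)
    {N : Bd Y} (hNo : ∀ c, IsOpen (N.U c)) (hNc : ∀ y, ∃ c, y ∈ N.U c) {L : Bd X.pt} {c : ℕ}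
    {t : L.ι → N.ι → Y → ℂ}
    (ht : IsCmpC (fun y => p (v y)) L (N.pow c) (⋃ l, G l) t) {q : ℕ} (hq : 1 ≤ q)
    {S : Set X.pt} (hS : ∀ y, p (v y) ∈ S → y ∈ ⋃ l, G l →
      ∀ i j, p (v y) ∈ L.U i → y ∈ N.U j → t i j y = 0) (hSO : ∀ y, p (v y) ∈ S → y ∈ ⋃ l, G l) :
    Chain2c N X L (⋃ l, G l)ᶜ (fun y => p (v y)) (fun i j y => t i j y ^ q) S := by
  intro B w₀ γ' i hB hw₀ hw₀0 hγ' hd hi
  obtain ⟨w₁, hw₁, hw₁0, B₁, γ₀, hB₁, hw₁', hB₁B, hγ₀⟩ :=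
    hL0 Y W X hX r v p P G hR B hB w₀ hw₀ hw₀0 γ' hγ' hd
  obtain ⟨j, hj⟩ := hNc (γ₀ w₁)
  set e : Chart 4 Y := chartAt (Cm 4) (γ₀ w₁) with he
  have heat : e ∈ atlas (Cm 4) Y := chart_mem_atlas _ _
  have hW₁ : IsOpen (B₁ ∩ γ₀ ⁻¹' (e.source ∩ N.U j)) := by
    have h1 : ContinuousOn γ₀ B₁ := fun w hw => (hγ₀ w hw).1.continuousWithinAt
    exact h1.isOpen_inter_preimage hB₁ (e.open_source.inter (hNo j))
  refine ⟨w₁, hw₁, hw₁0, _, γ₀, e, j, fun w => t i j (γ₀ w) ^ q, 1, hW₁,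
    ⟨hw₁', mem_chart_source _ _, hj⟩, inter_subset_left.trans hB₁B, le_refl 1, ?_, ?_, ?_, ?_, ?_⟩
  · rintro w ⟨hw, hws, hwj⟩
    obtain ⟨h1, h2, h3⟩ := hγ₀ w hw
    refine ⟨h1, ⟨heat, hws⟩, h3 e ⟨heat, hws⟩, hwj, ?_⟩
    have h4 := (ht.holo (γ₀ w) i j e ⟨heat, hws⟩ (by
      show p (v (γ₀ w)) ∈ L.U i
      rw [h2]; exact hi w (hB₁B hw)) hwj).1
    exact (analyticAt_comp_chart h1 ⟨heat, hws⟩ (h3 e ⟨heat, hws⟩) h4).pow q
  · rintro w ⟨hw, hws, hwj⟩ ⟨y, hy, hyw⟩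
    have h1 : p (v (γ₀ w)) = p (v y) := by rw [(hγ₀ w hw).2.1]; exact hyw.symm
    have h2 : v (γ₀ w) = v y := hR.inj y _ hy h1
    rw [hR.emb.inj (mem_univ _) (mem_univ _) h2]; exact hy
  · rintro w ⟨hw, hws, hwj⟩ -
    exact (hγ₀ w hw).2.1
  · intro w _ _; exact (pow_one _).symm
  · rintro h0 w ⟨hw, hws, hwj⟩ hw0
    have h3 : p (v (γ₀ w)) ∈ S := by rw [(hγ₀ w hw).2.1]; exact h0 w (hB₁B hw) hw0
    have h2 : t i j (γ₀ w) = 0 := hS _ h3 (hSO _ h3) i j (by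
      rw [(hγ₀ w hw).2.1]; exact hi w (hB₁B hw)) hwj
    show t i j (γ₀ w) ^ q = 0
    rw [h2, zero_pow (by omega)]

omit [T2Space Y] [CompactSpace Y] [IsManifold 𝓘(ℂ, Cm 4) ω Y] in
theorem _root_.Vale.Agent.P277.T2.IsCmp.toC {X : CSp} {v : Y → X.pt} {L : Bd X.pt} {M : Bd Y}
    {D : Set Y} {t : L.ι → M.ι → Y → ℂ} (h : IsCmp v L M D t) : IsCmpC v L M D t :=
  ⟨fun y i j e he hi hj => ⟨(h.holo y i j e he hi hj).1, (h.holo y i j e he hi hj).2.1⟩, h.change⟩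

theorem Tw2.base (hL0 : StL0) {W X : CSp} [Nonempty W.pt] (hX : IsNormal 4 X) {r : ℕ}
    {v : Y → W.pt} {p : W.pt → X.pt} {P : Bd W.pt} {G : Fin r → Set Y} (hR : IsRes v p P G)
    {N : Bd Y} (hNo : ∀ c, IsOpen (N.U c)) (hNc : ∀ y, ∃ c, y ∈ N.U c) {L : Bd X.pt} {c : ℕ}
    (hc : 1 ≤ c) {t : L.ι → N.ι → Y → ℂ}
    (ht : IsCmp (fun y => p (v y)) L (N.pow c) (⋃ l, G l) t) {q : ℕ} (hq : 1 ≤ q)
    (hL : IsLBx X (L.pow q)) :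
    Tw2 v (⋃ l, G l) N X L (⋃ l, G l)ᶜ (fun y => p (v y)) q (c * q) (fun i j y => t i j y ^ q) where
  toTw0 := Tw0.base hR hc ht.toC hq hL
  chain := by
    have hS : ∀ y, p (v y) ∈ ((fun y => p (v y)) '' (⋃ l, G l)ᶜ)ᶜ → y ∈ ⋃ l, G l := by
      intro y hy
      by_contra hcon
      exact hy ⟨y, hcon, rfl⟩
    exact chain_base hL0 hX hR hNo hNc ht.toC hq (fun y _ hyG i j hi hj =>
      (ht.holo y i j _ (H19.at_chartAt y) hi hj).2.2 hyG) hS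

/-- the base in the canonical case -/
theorem Tw2c.base (hL0 : StL0) {W X : CSp} [Nonempty W.pt] (hX : IsNormal 4 X) {r : ℕ}
    {v : Y → W.pt} {p : W.pt → X.pt} {P : Bd W.pt} {G : Fin r → Set Y} (hR : IsRes v p P G)
    {N : Bd Y} (hNo : ∀ c, IsOpen (N.U c)) (hNc : ∀ y, ∃ c, y ∈ N.U c) {L : Bd X.pt} {c : ℕ}
    (hc : 1 ≤ c) {t : L.ι → N.ι → Y → ℂ}
    (ht : IsCmpC (fun y => p (v y)) L (N.pow c) (⋃ l, G l) t) {q : ℕ} (hq : 1 ≤ q)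
    (hL : IsLBx X (L.pow q)) :
    Tw2c v (⋃ l, G l) N X L (⋃ l, G l)ᶜ (fun y => p (v y)) q (c * q) (fun i j y => t i j y ^ q)
      ∅ where
  toTw0 := Tw0.base hR hc ht hq hL
  chain := chain_base hL0 hX hR hNo hNc ht hq (fun _ h => h.elim) fun _ h => h.elim

end Vale.Agent.P277.H615
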