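import Vale.Agent.P277.Stmts5
import Vale.Agent.P277.H615.Tw2Base
import Vale.Agent.P277.H615.D0

/-!
# P277, T2: assembly of Theorem T2 from the two halves
-/

open scoped Manifold ContDiff Topology
open Vale.Agent.P272.K Vale.Agent.P285.H281.FD Vale.Agent.P267.H175 Set Filter Metric

noncomputable section

namespace Vale.Agent.P277.H615

open Vale.Agent.P277 Vale.Agent.P277.T2 Vale.Agent.P277.H335 MeasureTheory

theorem volume_hyperplane : volume {w : Cm 4 | w 0 = 0} = 0 := by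
  set s : Submodule ℝ (Cm 4) := LinearMap.ker ((LinearMap.proj 0 : Cm 4 →ₗ[ℂ] ℂ).restrictScalars ℝ)
    with hs
  have h1 : ({w : Cm 4 | w 0 = 0} : Set (Cm 4)) = s := by
    ext w
    simp [hs]
  rw [h1]
  refine Measure.addHaar_submodule volume s fun h => ?_
  have h2 : (Pi.single 0 1 : Cm 4) ∈ s := by rw [h]; trivial
  have h3 : (Pi.single 0 1 : Cm 4) 0 = 0 := by
    rw [hs] at h2
    exact h2
  simp at h3

variable {Y : Type} [TopologicalSpace Y] [T2Space Y] [CompactSpace Y] [ChartedSpace (Cm 4) Y]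
  [IsManifold 𝓘(ℂ, Cm 4) ω Y]

omit [T2Space Y] [CompactSpace Y] [IsManifold 𝓘(ℂ, Cm 4) ω Y] in
/-- a smooth hypersurface has measure zero -/
theorem volume_hyp {G : Set Y} (hG : IsHyp G) {e : OpenPartialHomeomorph Y (Cm 4)}
    (he : e ∈ atlas (Cm 4) Y) : volume (e '' (e.source ∩ G)) = 0 := by
  refine measure_null_of_locally_null _ ?_
  rintro _ ⟨y, ⟨hye, hyG⟩, rfl⟩
  obtain ⟨ξ, w₀, r, h, rfl⟩ := hG y hyG
  set B : Set (Cm 4) := {w | w ∈ ball w₀ r ∧ ξ w ∈ e.source} with hB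
  have hBo : IsOpen B := by
    have h1 : ContinuousOn ξ (ball w₀ r) := fun w hw => (h.cont w hw).continuousWithinAt
    exact h1.isOpen_inter_preimage isOpen_ball e.open_source
  have hV : IsOpen (ξ '' B) := h.openMap B (fun w hw => hw.1) hBo
  have hV' : IsOpen (e '' (ξ '' B)) := e.isOpen_image_of_subset_source hV (by
    rintro _ ⟨w, hw, rfl⟩; exact hw.2)
  refine ⟨e '' (e.source ∩ G) ∩ e '' (ξ '' B), inter_mem_nhdsWithin _ (hV'.mem_nhds
    ⟨_, ⟨w₀, ⟨mem_ball_self h.pos, hye⟩, rfl⟩, rfl⟩), ?_⟩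
  have h2 : e '' (e.source ∩ G) ∩ e '' (ξ '' B) ⊆ (fun w => e (ξ w)) '' (B ∩ {w | w 0 = 0}) := by
    rintro _ ⟨⟨y, ⟨h1, h2⟩, rfl⟩, y', ⟨w, hw, rfl⟩, hyy⟩
    have h3 : ξ w = y := e.injOn hw.2 h1 hyy
    exact ⟨w, ⟨hw, (h.mem w hw.1).1 (h3 ▸ h2)⟩, hyy⟩
  refine measure_mono_null h2 ?_
  refine addHaar_image_eq_zero_of_differentiableOn_of_addHaar_eq_zero volume (fun w hw => ?_)
    (measure_mono_null inter_subset_right volume_hyperplane)
  exact ((h.an w hw.1.1 e ⟨he, hw.1.2⟩).1.differentiableAt.restrictScalars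
    ℝ).differentiableWithinAt

omit [T2Space Y] [CompactSpace Y] [IsManifold 𝓘(ℂ, Cm 4) ω Y] in
/-- the log resolution gives a resolution in the sense of the topological half -/
theorem isRes_top {W X : CSp} {r : ℕ} {v : Y → W.pt} {p : W.pt → X.pt} {P : Bd W.pt}
    {G : Fin r → Set Y} (hR : T2.IsRes v p P G) :
    Vale.Agent.P277.IsRes Y X (fun y => p (v y)) (⋃ l, G l)ᶜ where
  cont := hR.cont.comp (continuousOn_univ.1 hR.emb.cont)
  holo := fun y e he g hg => (hR.emb.hol y (mem_univ y) e he _).1 (hR.holo _ g hg)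
  emb := hR.emb'
  fib := by
    rintro y ⟨y', hy', hyy⟩
    have h1 : v y = v y' := hR.inj y' (v y) hy' hyy.symm
    rwa [hR.emb.inj (mem_univ _) (mem_univ _) h1]
  dim := by
    rw [isRes_compl hR]; exact hR.dim
  null := by
    intro e he
    have h1 : e '' (e.source \ (⋃ l, G l)ᶜ) = ⋃ l, e '' (e.source ∩ G l) := by
      rw [diff_compl, inter_iUnion, image_iUnion]
    rw [h1]
    exact measure_iUnion_null fun l => volume_hyp (hR.hyp l) he

/-- the two halves contradict each other -/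
theorem stT2_core (hRinf : StRinf) (hP7 : StP7) (χ : Chart 4 Y → Cm 4 → Matrix (Fin 4) (Fin 4) ℂ)
    (hχ : IsKahler χ) (M : Bd Y) (hM : IsLB 4 M) (hnef : Nef χ M) (m : ℕ) (hm : 1 ≤ m)
    (W : CSp) (X Z : ℕ → CSp) (r : ℕ) (v : Y → W.pt)
    (p : W.pt → (X 0).pt) (P : Bd W.pt) (G : Fin r → Set Y) (hR : T2.IsRes v p P G)
    (f : ∀ j, (X j).pt → (Z j).pt) (f' : ∀ j, (X (j + 1)).pt → (Z j).pt)
    (A : ∀ j, Set (Z j).pt) (L : ∀ j, Bd (X j).pt)
    (hL : ∃ c : ℕ, 1 ≤ c ∧ ∃ t, IsCmp (fun y => p (v y)) (L 0)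
      ((((Bd.can 4 Y).pow m).mul M).pow c) (⋃ l, G l) t)
    (hflip : ∀ j, ∃ p q : ℕ, 1 ≤ p ∧ 1 ≤ q ∧
      IsFlip (X j) (Z j) (X (j + 1)) (f j) (f' j) (A j) ((L j).pow p) ((L (j + 1)).pow q))
    (hreg : ∀ j, DimLe (X j) 1 {x | ¬ IsReg 4 (X j) x}) : False := by
  have hch : ∀ j, ∃ p q : ℕ, 1 ≤ p ∧ 1 ≤ q ∧ IsFlip (X j) (Z j) (X (j + 1)) (f j) (f' j)
      (Amin (f j)) ((L j).pow p) ((L (j + 1)).pow q) := by
    intro j
    obtain ⟨p, q, hp, hq, h⟩ := hflip j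
    exact ⟨p, q, hp, hq, (stD0 _ _ _ _ _ _ _ _ h).1⟩
  choose pp qq hpq using hch
  have hinf := hRinf Y X Z (fun y => p (v y)) (⋃ l, G l)ᶜ (isRes_top hR) f f'
    (fun j => Amin (f j)) (fun j => (L j).pow (pp j)) (fun j => (L (j + 1)).pow (qq j))
    (fun j => (hpq j).2.2) hreg
  set B : Set ℕ := {j | ¬ DimLe (X (j + 1)) 1 (f' j ⁻¹' Amin (f j))} with hB
  have hBinf : B.Infinite := by
    refine Set.infinite_of_forall_exists_gt fun a => ?_
    obtain ⟨j, hj, hj'⟩ := hinf (a + 1)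
    exact ⟨j, hj', hj⟩
  obtain ⟨t, htB, htc⟩ := hBinf.exists_subset_card_eq (m * r + 1)
  set N : ℕ := t.sup id + 1 with hN
  have h1 := hP7 Y χ hχ M hM hnef m hm N W X Z (hpq 0).2.2.normal r v p P G hR f f' A L hL
    (fun j _ => hflip j) fun j _ => hreg j
  have h2 : (t : Set ℕ) ⊆ {j | j < N ∧ ¬ DimLe (X (j + 1)) 1 (f' j ⁻¹' Amin (f j))} := by
    intro j hj
    refine ⟨?_, htB hj⟩
    have h3 : id j ≤ t.sup id := Finset.le_sup (f := id) (Finset.mem_coe.1 hj)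
    simp only [id] at h3
    omega
  have h3 := ncard_le_ncard h2 ((Set.finite_lt_nat N).subset fun i hi => hi.1)
  rw [ncard_coe_finset, htc] at h3
  omega

/-- Theorem T2 for spaces which are smooth in codimension two. -/
theorem stT2_true (hRinf : StRinf) (hP7 : StP7) : StT2 True :=
  fun Y _ _ _ _ _ χ hχ M hM hnef m hm W X Z r v p P G hR f f' A L hL hflip hreg =>
    stT2_core hRinf hP7 χ hχ M hM hnef m hm W X Z r v p P G hR f f' A L hL hflip (hreg trivial)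

end Vale.Agent.P277.H615
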