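import Vale.Agent.P277.H615.Datum

/-!
# P277, T2: a flipped surface is the centre of one of the exceptional divisors
-/

open scoped Manifold ContDiff Topology
open Vale.Agent.P272.K Vale.Agent.P285.H281.FD Vale.Agent.P267.H175 Set Filter Metric

noncomputable section

namespace Vale.Agent.P277.H615

open Vale.Agent.P277 Vale.Agent.P277.T2 Vale.Agent.P277.H335
open Vale.Agent.P277.H19 (exists_max_pow upd exists_div at_chartAt analyticAt_det)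

variable {Y : Type} [TopologicalSpace Y] [T2Space Y] [CompactSpace Y] [ChartedSpace (Cm 4) Y]
  [IsManifold 𝓘(ℂ, Cm 4) ω Y]

omit [T2Space Y] [CompactSpace Y] [IsManifold 𝓘(ℂ, Cm 4) ω Y] in
/-- a lift `γ₀` which is a local isomorphism at `w₂` is a parametrisation of some `G l` near a point
near `w₂` -/
theorem exists_par {V : CSp} {vV : Y → V.pt} (hvV : IsOpenEmb V univ vV)
    (hsurj : Function.Surjective vV) {n : ℕ} {G : Fin n → Set Y} (hG : ∀ l, IsHyp (G l))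
    (hcl : ∀ l, IsClosed (G l)) {O : Set Y} (hthin : DimLe V 2 (vV '' ((⋃ l, G l)ᶜ \ O)))
    {W : Set (Cm 4)} (hW : IsOpen W) {w₂ : Cm 4} (hw₂ : w₂ ∈ W) (hw₂0 : w₂ 0 = 0)
    {γ₀ : Cm 4 → Y} {e : Chart 4 Y} (hγ : ∀ w ∈ W, ContinuousAt γ₀ w ∧ At e (γ₀ w) ∧
      AnalyticAt ℂ (fun w => e (γ₀ w)) w)
    (hdet : (fderiv ℂ (fun w => e (γ₀ w)) w₂).det ≠ 0)
    (hnot : ∀ w ∈ W, w 0 = 0 → γ₀ w ∉ O) [IsManifold 𝓘(ℂ, Cm 4) ω Y] :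
    ∃ l, ∃ w₃ ∈ W, w₃ 0 = 0 ∧ ∃ r₃, ball w₃ r₃ ⊆ W ∧ IsPar (G l) γ₀ w₃ r₃ := by
  have hinj : Function.Injective (fderiv ℂ (fun w => e (γ₀ w)) w₂) := by
    have h1 : LinearMap.det (fderiv ℂ (fun w => e (γ₀ w)) w₂ : Cm 4 →ₗ[ℂ] Cm 4) ≠ 0 := hdet
    exact (LinearMap.equivOfDetNeZero _ h1).injective
  obtain ⟨θ, hθ, hθs, -, -⟩ := H73.exists_localInv (hγ w₂ hw₂).2.2 hinj
  have hJ : ∀ᶠ w in 𝓝 w₂, (fderiv ℂ (fun w => e (γ₀ w)) w).det ≠ 0 :=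
    (analyticAt_det (hγ w₂ hw₂).2.2).continuousAt.eventually_ne hdet
  obtain ⟨r₀, hr₀, hball⟩ := Metric.eventually_nhds_iff_ball.1
    ((hW.eventually_mem hw₂).and ((θ.open_source.eventually_mem hθs).and hJ))
  set B : Set (Cm 4) := ball w₂ r₀ with hB
  have hBW : B ⊆ W := fun w hw => (hball w hw).1
  have hinjB : InjOn γ₀ B := by
    intro w hw w' hw' hww
    have h1 : θ w = θ w' := by rw [hθ]; exact congrArg e hww
    exact θ.injOn (hball w hw).2.1 (hball w' hw').2.1 h1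
  have hopen : ∀ U ⊆ B, IsOpen U → IsOpen (γ₀ '' U) := by
    intro U hU hUo
    have h1 : IsOpen (θ '' U) := θ.isOpen_image_of_subset_source hUo fun w hw => (hball w (hU hw)).2.1
    have h2 : γ₀ '' U = e.symm '' (θ '' U) := by
      rw [image_image]
      refine image_congr fun w hw => ?_
      rw [hθ]
      exact (e.left_inv (hγ w (hBW (hU hw))).2.1.2).symm
    rw [h2]
    refine e.isOpen_image_symm_of_subset_target h1 ?_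
    rintro _ ⟨w, hw, rfl⟩
    rw [hθ]
    exact e.map_source (hγ w (hBW (hU hw))).2.1.2
  have han : ∀ w ∈ B, ∀ e' : Chart 4 Y, At e' (γ₀ w) →
      AnalyticAt ℂ (fun w => e' (γ₀ w)) w ∧ (fderiv ℂ (fun w => e' (γ₀ w)) w).det ≠ 0 := by
    intro w hw e' he'
    obtain ⟨h1, h2, h3⟩ := hγ w (hBW hw)
    refine ⟨H19.analyticAt_change h1 h2 he' h3, ?_⟩
    have h4 := H19.det_change h1 h2 he' h3
    rw [h4]
    refine mul_ne_zero ?_ (hball w hw).2.2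
    have h5 := H19.det_jacM_mul (y := γ₀ w) (e := e) (e' := e') h2 he'
    intro h0
    rw [h0] at h5
    simp at h5
  -- the hyperplane is mapped to the union of the `G l`
  have hD : ∀ w ∈ B, w 0 = 0 → ∃ l ∈ (Finset.univ : Finset (Fin n)), γ₀ w ∈ G l := by
    intro w hw hw0
    by_contra hcon
    push Not at hcon
    have h0 : γ₀ w ∈ (⋃ l, G l)ᶜ := by
      simp only [mem_compl_iff, mem_iUnion, not_exists]
      exact fun l => hcon l (Finset.mem_univ _)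
    have hcl' : IsOpen (⋃ l, G l)ᶜ := (isClosed_iUnion_of_finite hcl).isOpen_compl
    have hc : ContinuousOn γ₀ B := fun w hw => (hγ w (hBW hw)).1.continuousWithinAt
    have hW' : IsOpen (B ∩ γ₀ ⁻¹' (⋃ l, G l)ᶜ) := hc.isOpen_inter_preimage isOpen_ball hcl'
    have hdim : DimLe V 2 (vV '' ((⋃ l, G l)ᶜ \ O)ᶜ)ᶜ := by
      refine hthin.mono ?_
      intro x hx
      obtain ⟨y, rfl⟩ := hsurj x
      refine ⟨y, ?_, rfl⟩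
      by_contra hy
      exact hx ⟨y, hy, rfl⟩
    obtain ⟨z, hz, hz0, hzO⟩ := exists_mem_of_det_ne_zero hvV hdim hW' (w := w) ⟨hw, h0⟩ hw0
      (fun w hw => (hγ w (hBW hw.1)).2.1) (fun w hw => (hγ w (hBW hw.1)).2.2) (hball w hw).2.2
    refine hzO ⟨hz.2, hnot z (hBW hz.1) hz0⟩
  obtain ⟨l, U', hU'B, hU'o, ⟨w₃, hw₃, hw₃0⟩, hU'G⟩ := exists_cover_mem hcl Finset.univ B isOpen_ball
    (fun w hw => (hγ w (hBW hw)).1) ⟨w₂, mem_ball_self hr₀, hw₂0⟩ hD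
  obtain ⟨r₃, hr₃, hs₃⟩ := Metric.isOpen_iff.1 hU'o w₃ hw₃
  have hpar : IsPar (γ₀ '' {w | w ∈ ball w₃ r₃ ∧ w 0 = 0}) γ₀ w₃ r₃ := by
    refine ⟨hr₃, hw₃0, hinjB.mono (hs₃.trans hU'B), fun W hW => hopen W (hW.trans (hs₃.trans hU'B)),
      fun w hw => (hγ w (hBW (hU'B (hs₃ hw)))).1, fun w hw => han w (hU'B (hs₃ hw)), ?_⟩
    intro w hw
    constructor
    · rintro ⟨w', ⟨h1, h2⟩, h3⟩
      have h4 : w' = w := hinjB (hU'B (hs₃ h1)) (hU'B (hs₃ hw)) h3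
      rw [← h4]; exact h2
    · intro h0
      exact ⟨w, ⟨hw, h0⟩, rfl⟩
  obtain ⟨r₄, hr₄, hs₄, hpar'⟩ := exists_isPar (hG l) hpar (by
    filter_upwards [isOpen_ball.mem_nhds (mem_ball_self hr₃)] with w hw hw0
    exact hU'G w (hs₃ hw) hw0)
  exact ⟨l, w₃, hBW (hU'B hw₃), hw₃0, r₄, hs₄.trans (hs₃.trans (hU'B.trans hBW)), hpar'⟩

theorem exists_datum (hTX : StTX2) {V : CSp} {vV : Y → V.pt} (hvV : IsOpenEmb V univ vV)
    (hsurj : Function.Surjective vV) {n : ℕ} {G : Fin n → Set Y} (hG : ∀ l, IsHyp (G l))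
    (hcl : ∀ l, IsClosed (G l)) {χ : Chart 4 Y → Cm 4 → Matrix (Fin 4) (Fin 4) ℂ}
    (hχ : IsKahler χ) {M : Bd Y} (hM : IsLB 4 M) (hnef : Nef χ M) {m : ℕ} (hm : 1 ≤ m)
    {X : CSp} (hX : IsNormal 4 X) (hreg : DimLe X 1 {x | ¬ IsReg 4 X x}) {L : Bd X.pt}
    {O : Set Y} {v : Y → X.pt} {P Q : ℕ}
    {T : L.ι → (((Bd.can 4 Y).pow m).mul M).ι → Y → ℂ}
    (h : Tw2 vV (⋃ l, G l) (((Bd.can 4 Y).pow m).mul M) X L O v P Q T)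
    {S : Set X.pt} (hS : IsAn X univ S) (hSO : S ⊆ (v '' O)ᶜ) (hS1 : ¬ DimLe X 1 S) :
    ∃ l ξ w₀ r γ i c F ν K, NiceAt O v T (G l) ξ w₀ r γ i c F ν K ∧
      (∀ w ∈ ball w₀ r, w 0 = 0 → γ w ∈ S) ∧ Q * K ∣ ν ∧ 1 ≤ ν ∧ ν ≤ m * (Q * K) := by
  obtain ⟨W, w₀, φ, hW, hw₀, hw₀0, hφ, hφS, hφd, hfin⟩ := hTX Y χ hχ M hM hnef m hm X hX hreg O v
    h.emb h.dim S hS hSO hS1 (L.pow P) h.lb Q h.hQ T h.iso
  obtain ⟨i, hi⟩ := h.lb.cover (φ w₀)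
  have hi' : φ w₀ ∈ L.U i := hi
  have hW' : IsOpen (W ∩ φ ⁻¹' L.U i) := by
    have hc : ContinuousOn φ W := fun w hw => (hφ w hw).1.continuousWithinAt
    exact hc.isOpen_inter_preimage hW (h.lb.isOpen i)
  obtain ⟨w₁, hw₁, hw₁0, W₁, γ₀, e, c, F, K, hW₁, hw₁', hW₁W, hK, hγ₀, hO1, hO2, hF, hF0⟩ :=
    h.chain (W ∩ φ ⁻¹' L.U i) w₀ φ i hW' ⟨hw₀, hi'⟩ hw₀0
      (fun w hw => hφ w hw.1)
      (subset_closure_of_open (D := {w | φ w ∈ v '' O}) hW' inter_subset_left hφd)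
      (fun w hw => hw.2)
  have hφO : ∀ w ∈ W, w 0 = 0 → φ w ∉ v '' O := fun w hw hw0 => hSO (hφS w hw hw0)
  have hFz : ∀ w ∈ W₁, w 0 = 0 → F w = 0 := hF0 fun w hw hw0 => hφO w hw.1 hw0
  -- the conclusion of TX2 at the points of `W₁`
  have hfin' := fun (w : Cm 4) (hw : w ∈ W₁) (hw0 : w 0 = 0) =>
    hfin w (hW₁W hw).1 hw0 γ₀ e F i c (hγ₀ w hw).1 (hγ₀ w hw).2.1 (hγ₀ w hw).2.2.1 (by
      filter_upwards [hW₁.mem_nhds hw] with z hz hzO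
      exact ⟨hO1 z hz hzO, hO2 z hz (hO1 z hz hzO)⟩) (hW₁W hw).2 (hγ₀ w hw).2.2.2.1
      (hγ₀ w hw).2.2.2.2 K hK (by
      filter_upwards [hW₁.mem_nhds hw] with z hz hzO
      exact hF z hz hzO) (by
      filter_upwards [hW₁.mem_nhds hw] with z hz hz0
      exact hFz z hz hz0)
  have hFnz : ¬ ∀ᶠ w in 𝓝 w₁, F w = 0 := by
    intro hz
    obtain ⟨w', ⟨k1, k2⟩, k3, k4⟩ := mem_closure_iff_nhds.1 (hφd (hW₁W hw₁').1) _
      (hz.and (hW₁.mem_nhds hw₁'))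
    have k5 := hO1 w' k2 k4
    have k6 := hF w' k2 k5
    obtain ⟨k7, k8, -, k9, -⟩ := hγ₀ w' k2
    have k10 := (h.iso.holo (γ₀ w') k5 i c e k8 (by
      rw [hO2 w' k2 k5]; exact (hW₁W k2).2) k9).2
    rw [k1] at k6
    exact pow_ne_zero K k10 k6.symm
  obtain ⟨ν, F₁, hF₁, hFF₁, hF₁ne⟩ := exists_max_pow (hγ₀ w₁ hw₁').2.2.2.2 hw₁0 hFnz
  have hF₁fr : ∃ᶠ w in 𝓝 w₁, w 0 = 0 ∧ F₁ w ≠ 0 := by
    rw [Filter.not_eventually] at hF₁ne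
    refine hF₁ne.mono fun w hw => ?_
    push Not at hw
    exact hw
  have hfr := freq_mul hw₁0 hF₁ (analyticAt_det (hγ₀ w₁ hw₁').2.2.1) hF₁fr
    (hfin' w₁ hw₁' hw₁0).1
  have hevW : ∀ᶠ w in 𝓝 w₁, w ∈ W₁ := hW₁.mem_nhds hw₁'
  obtain ⟨w₂, ⟨hw₂0, hF₁w₂, hdet⟩, hw₂W, hw₂F, hw₂an⟩ := (hfr.and_eventually
    (hevW.and (hFF₁.eventually_nhds.and hF₁.eventually_analyticAt))).exists
  obtain ⟨hdvd, hle⟩ := (hfin' w₂ hw₂W hw₂0).2 ν F₁ hw₂an.continuousAt hF₁w₂ hdet hw₂F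
  have hν : 1 ≤ ν := by
    by_contra hν
    have hν0 : ν = 0 := by omega
    have k1 := hw₂F.self_of_nhds
    rw [hFz w₂ hw₂W hw₂0, hν0, pow_zero, one_mul] at k1
    exact hF₁w₂ k1.symm
  -- shrink
  obtain ⟨r₂, hr₂, hball⟩ := Metric.eventually_nhds_iff_ball.1
    ((hW₁.eventually_mem hw₂W).and (hw₂F.and (hw₂an.eventually_analyticAt.and
      (hw₂an.continuousAt.eventually_ne hF₁w₂))))
  have hs₂ : ball w₂ r₂ ⊆ W₁ := fun w hw => (hball w hw).1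
  obtain ⟨l, w₃, hw₃, hw₃0, r₃, hs₃, hpar⟩ := exists_par hvV hsurj hG hcl h.thin isOpen_ball
    (mem_ball_self hr₂) hw₂0 (fun w hw => ⟨(hγ₀ w (hs₂ hw)).1, (hγ₀ w (hs₂ hw)).2.1,
      (hγ₀ w (hs₂ hw)).2.2.1⟩) hdet (by
      intro w hw hw0 hwO
      exact hφO w (hW₁W (hs₂ hw)).1 hw0 ⟨γ₀ w, hwO, hO2 w (hs₂ hw) hwO⟩)
  refine ⟨l, γ₀, w₃, r₃, φ, i, c, F₁, ν, K, ⟨hpar, hK, fun w hw => hφ w (hW₁W (hs₂ (hs₃ hw))).1,
    fun w hw => (hW₁W (hs₂ (hs₃ hw))).2, fun w hw => (hγ₀ w (hs₂ (hs₃ hw))).2.2.2.1,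
    fun w hw hwO => (hO2 w (hs₂ (hs₃ hw)) hwO).symm, fun w hw => (hball w (hs₃ hw)).2.2.1, ?_,
    ⟨w₃, mem_ball_self hpar.pos, hw₃0, (hball w₃ hw₃).2.2.2⟩⟩, ?_, hdvd, hν, hle⟩
  · intro w hw hwO
    rw [← (hball w (hs₃ hw)).2.1]
    exact hF w (hs₂ (hs₃ hw)) hwO
  · intro w hw hw0
    exact hφS w (hW₁W (hs₂ (hs₃ hw))).1 hw0

end Vale.Agent.P277.H615
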