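import Vale.Agent.P277.H615.D1

/-!
# P277, package D, second part: fibres of a flip

* `VA`: relatively very ample families of sections; powers, common powers for both sides.
* `nz`: nonvanishing is preserved by the transport of sections.
* `amin_eq` (D3a), `vanish` (D3b), `has_zero` (D3c).
-/

open scoped Manifold ContDiff Topology
open Vale.Agent.P272.K Vale.Agent.P285.H281.FD Vale.Agent.P267.H175 Set Filter

noncomputable section

namespace Vale.Agent.P277.H615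

open Vale.Agent.P277

/-- the sections `s l` of `L` over `f⁻¹ V` embed `f⁻¹ V` into `V × ℙ(κ)`. -/
structure VA (X Z : CSp) (f : X.pt → Z.pt) (L : Bd X.pt) (V : Set Z.pt) (κ : Type) [Fintype κ]
    (s : κ → L.ι → X.pt → ℂ) : Prop where
  sec : ∀ l, IsSecx X (f ⁻¹' V) L (s l)
  bpf : ∀ x i, f x ∈ V → x ∈ L.U i → ∃ l, s l i x ≠ 0
  sep : ∀ x x' i j, f x ∈ V → f x' = f x → x' ≠ x → x ∈ L.U i → x' ∈ L.U j →
    ∃ l m, s l i x * s m j x' ≠ s m i x * s l j x'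
  jet : ∀ x i l, f x ∈ V → x ∈ L.U i → s l i x ≠ 0 → ∀ h, X.Hol h x →
    ∃ (M : ℕ) (g : Fin M → Z.pt → ℂ) (G : Cm M × (κ → ℂ) → ℂ),
      (∀ a, Z.Hol (g a) (f x)) ∧
      AnalyticAt ℂ G (fun a => g a (f x), fun m => s m i x / s l i x) ∧
      h =ᶠ[𝓝 x] fun y => G (fun a => g a (f y), fun m => s m i y / s l i y)

variable {X Z X' : CSp} {f : X.pt → Z.pt} {f' : X'.pt → Z.pt} {A : Set Z.pt}

theorem VA.mono {L : Bd X.pt} {V W : Set Z.pt} {κ : Type} [Fintype κ] {s : κ → L.ι → X.pt → ℂ}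
    (h : VA X Z f L V κ s) (hW : W ⊆ V) : VA X Z f L W κ s where
  sec := fun l => IsSecx.mono (h.sec l) (preimage_mono hW)
  bpf := fun x i hx => h.bpf x i (hW hx)
  sep := fun x x' i j hx => h.sep x x' i j (hW hx)
  jet := fun x i l hx => h.jet x i l (hW hx)

/-- the family `s_i^(m-1) s_j` -/
def powF {T ι κ : Type} (m : ℕ) (s : κ → ι → T → ℂ) : κ × κ → ι → T → ℂ :=
  fun p i x => s p.1 i x ^ (m - 1) * s p.2 i x

theorem VA.pow {L : Bd X.pt} {V : Set Z.pt} {κ : Type} [Fintype κ] {s : κ → L.ι → X.pt → ℂ}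
    (h : VA X Z f L V κ s) {m : ℕ} (hm : 1 ≤ m) :
    VA X Z f (L.pow m) V (κ × κ) (powF m s) where
  sec := by
    rintro ⟨a, b⟩
    refine ⟨fun i x hx hi => hol_mul (hol_pow ((h.sec a).holo i x hx hi) _)
      ((h.sec b).holo i x hx hi), fun i j x hx hi hj => ?_⟩
    show s a i x ^ (m - 1) * s b i x = L.g i j x ^ m * (s a j x ^ (m - 1) * s b j x)
    rw [(h.sec a).change i j x hx hi hj, (h.sec b).change i j x hx hi hj, mul_pow]
    obtain ⟨n, rfl⟩ : ∃ n, m = n + 1 := ⟨m - 1, by omega⟩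
    rw [Nat.add_sub_cancel, pow_succ (L.g i j x) n]
    ring
  bpf := by
    intro x i hx hi
    obtain ⟨l, hl⟩ := h.bpf x i hx hi
    exact ⟨(l, l), mul_ne_zero (pow_ne_zero _ hl) hl⟩
  sep := by
    intro x x' i j hx hxx' hne hi hj
    by_contra hcon
    push Not at hcon
    obtain ⟨a, ha⟩ := h.bpf x i hx hi
    obtain ⟨b, hb⟩ := h.bpf x' j (by rw [hxx']; exact hx) hj
    have hi' : x ∈ L.U i := hi
    have hj' : x' ∈ L.U j := hj
    obtain ⟨l, n, hln⟩ := h.sep x x' i j hx hxx' hne hi' hj'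
    -- s_a(x') ≠ 0
    have h1 := hcon (a, a) (b, b)
    have h2 : s a j x' ≠ 0 := by
      intro h0
      have h3 : (s a i x ^ (m - 1) * s a i x) * (s b j x' ^ (m - 1) * s b j x') =
        (s b i x ^ (m - 1) * s b i x) * (s a j x' ^ (m - 1) * s a j x') := h1
      rw [h0, mul_zero, mul_zero] at h3
      exact (mul_ne_zero (mul_ne_zero (pow_ne_zero _ ha) ha)
        (mul_ne_zero (pow_ne_zero _ hb) hb)) h3
    -- ratios
    have h4 : ∀ c, s c j x' * s a i x = s c i x * s a j x' := by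
      intro c
      have h5 := hcon (a, a) (a, c)
      have h6 : (s a i x ^ (m - 1) * s a i x) * (s a j x' ^ (m - 1) * s c j x') =
        (s a i x ^ (m - 1) * s c i x) * (s a j x' ^ (m - 1) * s a j x') := h5
      have h7 : (s a i x ^ (m - 1) * s a j x' ^ (m - 1)) ≠ 0 :=
        mul_ne_zero (pow_ne_zero _ ha) (pow_ne_zero _ h2)
      refine mul_left_cancel₀ h7 ?_
      linear_combination h6
    apply hln
    have h8 := h4 l
    have h9 := h4 n
    have h10 : (s l i x * s n j x' - s n i x * s l j x') * s a i x = 0 := by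
      linear_combination s l i x * h9 - s n i x * h8
    rcases mul_eq_zero.1 h10 with h11 | h11
    · exact sub_eq_zero.1 h11
    · exact absurd h11 ha
  jet := by
    rintro x (i : L.ι) ⟨a, b⟩ hx hi hab g hg
    have hab' : s a i x ^ (m - 1) * s b i x ≠ 0 := hab
    have ha : s a i x ^ (m - 1) ≠ 0 := left_ne_zero_of_mul hab'
    have hb : s b i x ≠ 0 := right_ne_zero_of_mul hab'
    obtain ⟨M, k, G, h1, h3, h4⟩ := h.jet x i b hx hi hb g hg
    -- the linear map restricting the second argument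
    let R : (κ × κ → ℂ) →L[ℂ] (κ → ℂ) :=
      ContinuousLinearMap.pi fun c => ContinuousLinearMap.proj (a, c)
    have hR : ∀ q : κ × κ → ℂ, R q = fun c => q (a, c) := fun q => rfl
    have hval : ∀ y, s a i y ^ (m - 1) ≠ 0 →
        R (fun q => powF m s q i y / powF m s (a, b) i y) = fun c => s c i y / s b i y := by
      intro y hy
      rw [hR]
      funext c
      show (s a i y ^ (m - 1) * s c i y) / (s a i y ^ (m - 1) * s b i y) = s c i y / s b i y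
      rw [mul_div_mul_left _ _ hy]
    refine ⟨M, k, fun p => G (p.1, R p.2), h1, ?_, ?_⟩
    · have h5 : AnalyticAt ℂ (fun p : Cm M × (κ × κ → ℂ) => (p.1, R p.2))
          (fun a => k a (f x), fun q => powF m s q i x / powF m s (a, b) i x) :=
        analyticAt_fst.prod ((R.analyticAt _).comp analyticAt_snd)
      have h6 : AnalyticAt ℂ G (fun a => k a (f x),
          R (fun q => powF m s q i x / powF m s (a, b) i x)) := by
        rw [hval x ha]
        exact h3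
      exact AnalyticAt.fun_comp (g := G) h6 h5
    · have h6 : ∀ᶠ y in 𝓝 x, s a i y ^ (m - 1) ≠ 0 :=
        ((hol_continuousAt ((h.sec a).holo i x hx hi)).pow (m - 1)).eventually_ne ha
      filter_upwards [h4, h6] with y hy hy'
      have h7 : G (fun a => k a (f y), R (fun q => powF m s q i y / powF m s (a, b) i y)) =
          G (fun a => k a (f y), fun m => s m i y / s b i y) := by
        rw [hval y hy']
      exact hy.trans h7.symm

theorem VA.of_relAmple {L : Bd X.pt} (h : RelAmple X Z f L) (z : Z.pt) :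
    ∃ (V : Set Z.pt) (k : ℕ) (κ : Type) (_ : Fintype κ) (s : κ → L.ι → X.pt → ℂ), IsOpen V ∧
      z ∈ V ∧ 1 ≤ k ∧ VA X Z f (L.pow k) V κ s := by
  obtain ⟨V, k, N, s, h1, h2, h3, h4, h5, h6, h7⟩ := h z
  exact ⟨V, k, Fin (N + 1), inferInstance, s, h1, h2, h3, h4, h5, h6, h7⟩

theorem VA.congr {ι : Type} {U : ι → Set X.pt} {g g' : ι → ι → X.pt → ℂ} {V : Set Z.pt} {κ : Type}
    [Fintype κ] {s : κ → ι → X.pt → ℂ} (h : VA X Z f ⟨ι, U, g⟩ V κ s) (hg : g = g') :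
    VA X Z f ⟨ι, U, g'⟩ V κ s := hg ▸ h

/-- common power for both sides -/
theorem exists_common {L : Bd X.pt} {L' : Bd X'.pt} (h : IsFlip X Z X' f f' A L L') (z : Z.pt) :
    ∃ (V : Set Z.pt) (k : ℕ) (κ κ' : Type) (_ : Fintype κ) (_ : Fintype κ')
      (s : κ → L.ι → X.pt → ℂ) (σ' : κ' → L'.ι → X'.pt → ℂ), IsOpen V ∧ z ∈ V ∧ 1 ≤ k ∧
      VA X Z f (Bd.inv (L.pow k)) V κ s ∧ VA X' Z f' (L'.pow k) V κ' σ' := by
  obtain ⟨V₁, k₁, κ₁, _, s₁, h1, h2, h3, h4⟩ := VA.of_relAmple h.ample z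
  obtain ⟨V₂, k₂, κ₂, _, s₂, g1, g2, g3, g4⟩ := VA.of_relAmple h.ample' z
  have a1 : VA X Z f (Bd.inv (L.pow (k₁ * k₂))) V₁ (κ₁ × κ₁) (powF k₂ s₁) :=
    VA.congr (ι := L.ι) (U := L.U) (g := fun i j x => ((L.g i j x)⁻¹ ^ k₁) ^ k₂) (VA.pow h4 g3)
      (by funext i j x; rw [← pow_mul, inv_pow]; rfl)
  have a2 : VA X' Z f' (L'.pow (k₁ * k₂)) V₂ (κ₂ × κ₂) (powF k₁ s₂) :=
    VA.congr (ι := L'.ι) (U := L'.U) (g := fun i j x => (L'.g i j x ^ k₂) ^ k₁) (VA.pow g4 h3)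
      (by funext i j x; rw [← pow_mul, mul_comm])
  exact ⟨V₁ ∩ V₂, k₁ * k₂, κ₁ × κ₁, κ₂ × κ₂, inferInstance, inferInstance, _, _, h1.inter g1,
    ⟨h2, g2⟩, Nat.mul_pos h3 g3, VA.mono a1 inter_subset_left, VA.mono a2 inter_subset_right⟩

/-! ### nonvanishing -/

/-- The section `s` of `P` and the section `τ` of `P⁻¹` have a product which is a function. -/
theorem prod_descend (hZ : IsNormal 4 Z) (hX : IsNormal 4 X) (h : IsSmall X Z f A) {P : Bd X.pt}
    (hP : IsLBx X P) {V : Set Z.pt} (hV : IsOpen V) {s τ : P.ι → X.pt → ℂ}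
    (hs : IsSecx X (f ⁻¹' V) P s) (hτ : IsSecx X (f ⁻¹' V) (Bd.inv P) τ) :
    ∃ g : Z.pt → ℂ, (∀ z ∈ V, Z.Hol g z) ∧
      ∀ x i, f x ∈ V → x ∈ P.U i → s i x * τ i x = g (f x) := by
  choose I hI using hP.cover
  have hprod : ∀ x i j, f x ∈ V → x ∈ P.U i → x ∈ P.U j → s i x * τ i x = s j x * τ j x := by
    intro x i j hx hi hj
    have h1 := hs.change i j x hx hi hj
    have h2 : τ i x = (P.g i j x)⁻¹ * τ j x := hτ.change i j x hx hi hj
    have h3 := hP.ne_zero i j x hi hj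
    rw [h1, h2]
    field_simp
  obtain ⟨g, hg, hg'⟩ := descend hZ hX h hV (F := fun x => s (I x) x * τ (I x) x) (by
    intro x hx
    refine hol_congr (hol_mul (hs.holo (I x) x hx (hI x)) (hτ.holo (I x) x hx (hI x))) ?_
    filter_upwards [(hP.isOpen (I x)).mem_nhds (hI x), (hV.preimage h.cont).mem_nhds hx]
      with y hy hy'
    exact hprod y (I y) (I x) hy' (hI y) hy)
  refine ⟨g, hg, fun x i hx hi => ?_⟩
  rw [← hg' x hx]
  exact hprod x i (I x) hx hi (hI x)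

/-- the inverse of a section without zeros -/
theorem IsSecx.inv {V : Set X.pt} {L : Bd X.pt} {s : L.ι → X.pt → ℂ}
    (h : IsSecx X V L s) (h0 : ∀ i, ∀ x ∈ V, x ∈ L.U i → s i x ≠ 0) :
    IsSecx X V (Bd.inv L) (fun i x => (s i x)⁻¹) where
  holo := fun i x hx hi => hol_inv (h.holo i x hx hi) (h0 i x hx hi)
  change := fun i j x hx hi hj => by
    show (s i x)⁻¹ = (L.g i j x)⁻¹ * (s j x)⁻¹
    rw [h.change i j x hx hi hj, mul_inv]

/-- If `σ'` has no zero over `z`, then it has no zero over a neighbourhood of `z`. -/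
theorem exists_nz_nhds {L : Bd X.pt} (hL : IsLBx X L) (hf : Continuous f) {V : Set Z.pt}
    (hV : IsOpen V) {s : L.ι → X.pt → ℂ} (hs : IsSecx X (f ⁻¹' V) L s) {z : Z.pt} (hz : z ∈ V)
    (h0 : ∀ x i, f x = z → x ∈ L.U i → s i x ≠ 0) :
    ∃ W ⊆ V, IsOpen W ∧ z ∈ W ∧ ∀ i, ∀ x ∈ f ⁻¹' W, x ∈ L.U i → s i x ≠ 0 := by
  have h1 : IsOpen {x | f x ∈ V ∧ ∀ i, x ∈ L.U i → s i x ≠ 0} := by
    rw [isOpen_iff_mem_nhds]
    rintro x ⟨hx, hx0⟩
    obtain ⟨j, hj⟩ := hL.cover x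
    have h2 := (hol_continuousAt (hs.holo j x hx hj)).eventually_ne (hx0 j hj)
    filter_upwards [h2, (hL.isOpen j).mem_nhds hj, (hV.preimage hf).mem_nhds hx]
      with y hy hyj hyV
    refine ⟨hyV, fun i hi => ?_⟩
    rw [hs.change i j y hyV hi hyj]
    exact mul_ne_zero (hL.ne_zero i j y hi hyj) hy
  obtain ⟨W, hW, hzW, hWV⟩ := exists_nhds_preimage_subset hf (z := z) h1 (by
    intro x hx
    have hx' : f x = z := hx
    exact ⟨by rw [hx']; exact hz, fun i hi => h0 x i hx' hi⟩)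
  refine ⟨W ∩ V, inter_subset_right, hW.inter hV, ⟨hzW, hz⟩, fun i x hx hi => ?_⟩
  exact (hWV hx.1).2 i hi

/-- Nonvanishing over `z` is preserved by the transport of sections. -/
theorem nz (hX : IsNormal 4 X) (h : IsSmall X Z f A) (h' : IsSmall X' Z f' A)
    {P : Bd X.pt} {P' : Bd X'.pt} (hP : IsLBx X P) (hP' : IsLBx X' P')
    {t : P.ι → P'.ι → Z.pt → ℂ} (ht : IsIso f f' A P P' t) {V : Set Z.pt} (hV : IsOpen V)
    {σ : P.ι → X.pt → ℂ} {σ' : P'.ι → X'.pt → ℂ} (hσ : IsSecx X (f ⁻¹' V) P σ)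
    (hσ' : IsSecx X' (f' ⁻¹' V) P' σ') (htr : Tr f f' A P P' t V σ σ') {z : Z.pt} (hz : z ∈ V)
    (h0 : ∀ x' j, f' x' = z → x' ∈ P'.U j → σ' j x' ≠ 0) :
    ∀ x i, f x = z → x ∈ P.U i → σ i x ≠ 0 := by
  obtain ⟨W, hWV, hW, hzW, hW0⟩ := exists_nz_nhds hP' h'.cont hV hσ' hz h0
  obtain ⟨τ, hτ, hτtr⟩ := transport hX h h' (IsLBx.inv hP) (IsLBx.inv hP') (IsIso.inv ht) hW
    (IsSecx.inv (IsSecx.mono hσ' (preimage_mono hWV)) hW0)
  intro x i hx hi h1
  -- the product is one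
  have h2 : ∀ y ∈ f ⁻¹' W ∩ P.U i, σ i y * τ i y = 1 := by
    refine eqOn_of_dense ((hW.preimage h.cont).inter (hP.isOpen i)) (dense_pre hX h)
      (hol_continuousOn fun y hy => hol_mul (hσ.holo i y (hWV hy.1) hy.2) (hτ.holo i y hy.1 hy.2))
      continuousOn_const ?_
    rintro y ⟨hyW, hyi⟩ hyA
    obtain ⟨y', hy'⟩ := h'.surj (f y)
    obtain ⟨j, hj⟩ := hP'.cover y'
    have h3 := htr y y' i j (hWV hyW) hyA hy' hyi hj
    have h4 : (σ' j y')⁻¹ = (t i j (f y))⁻¹ * τ i y := hτtr y y' i j hyW hyA hy' hyi hj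
    have h5 := hW0 j y' (by show f' y' ∈ W; rw [hy']; exact hyW) hj
    have h6 := (ht.holo y y' i j hyA hy' hyi hj).2
    rw [h3] at h4 h5
    have h7 : σ i y ≠ 0 := right_ne_zero_of_mul h5
    have h8 : τ i y = (σ i y)⁻¹ := by
      rw [mul_inv] at h4
      exact (mul_left_cancel₀ (inv_ne_zero h6) h4).symm
    rw [h8, mul_inv_cancel₀ h7]
  have h9 := h2 x ⟨by show f x ∈ W; rw [hx]; exact hzW, hi⟩
  rw [h1, zero_mul] at h9
  exact zero_ne_one h9

/-- The key computation: if a section of `P` has no zero over `z`, where `P⁻¹` is very ample, then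
there is only one point over `z`. -/
theorem single (hZ : IsNormal 4 Z) (hX : IsNormal 4 X) (h : IsSmall X Z f A)
    {P : Bd X.pt} (hP : IsLBx X P) {V : Set Z.pt} (hV : IsOpen V) {κ : Type} [Fintype κ]
    {s : κ → P.ι → X.pt → ℂ} (hs : VA X Z f (Bd.inv P) V κ s) {σ : P.ι → X.pt → ℂ}
    (hσ : IsSecx X (f ⁻¹' V) P σ) {z : Z.pt} (hz : z ∈ V)
    (h0 : ∀ x i, f x = z → x ∈ P.U i → σ i x ≠ 0) {x x' : X.pt} (hx : f x = z) (hx' : f x' = z) :
    x' = x := by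
  by_contra hne
  obtain ⟨i, hi⟩ := hP.cover x
  obtain ⟨j, hj⟩ := hP.cover x'
  obtain ⟨l, m, hlm⟩ := hs.sep x x' i j (by rw [hx]; exact hz) (by rw [hx, hx']) hne hi hj
  obtain ⟨gl, -, hgl⟩ := prod_descend hZ hX h hP hV hσ (hs.sec l)
  obtain ⟨gm, -, hgm⟩ := prod_descend hZ hX h hP hV hσ (hs.sec m)
  have a1 := hgl x i (by rw [hx]; exact hz) hi
  have a2 := hgl x' j (by rw [hx']; exact hz) hj
  have a3 := hgm x i (by rw [hx]; exact hz) hi
  have a4 := hgm x' j (by rw [hx']; exact hz) hj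
  rw [hx] at a1 a3
  rw [hx'] at a2 a4
  have b1 := h0 x i hx hi
  have b2 := h0 x' j hx' hj
  apply hlm
  refine mul_left_cancel₀ (mul_ne_zero b1 b2) ?_
  have e1 : σ i x * σ j x' * (s l i x * s m j x') = gl z * gm z := by rw [← a1, ← a4]; ring
  have e2 : σ i x * σ j x' * (s m i x * s l j x') = gl z * gm z := by rw [← a3, ← a2]; ring
  rw [e1, e2]

/-- (D3b) sections of `P` vanish over the points of `Amin`. -/
theorem vanish (hZ : IsNormal 4 Z) (hX : IsNormal 4 X) (h : IsSmall X Z f A)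
    {P : Bd X.pt} (hP : IsLBx X P) {V : Set Z.pt} (hV : IsOpen V) {κ : Type} [Fintype κ]
    {s : κ → P.ι → X.pt → ℂ} (hs : VA X Z f (Bd.inv P) V κ s) {σ : P.ι → X.pt → ℂ}
    (hσ : IsSecx X (f ⁻¹' V) P σ) {z : Z.pt} (hz : z ∈ V) (hzA : z ∈ Amin f) :
    ∀ x i, f x = z → x ∈ P.U i → σ i x = 0 := by
  intro x i hx hi
  by_contra hne
  obtain ⟨y, y', hy, hy', hyy'⟩ := hzA
  refine hyy' ?_
  refine single hZ hX h hP hV hs hσ hz ?_ hy' hy
  intro w j hw hj hw0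
  obtain ⟨l, hl⟩ := hs.bpf x i (by rw [hx]; exact hz) hi
  obtain ⟨g, -, hg⟩ := prod_descend hZ hX h hP hV hσ (hs.sec l)
  have a1 := hg x i (by rw [hx]; exact hz) hi
  have a2 := hg w j (by rw [hw]; exact hz) hj
  rw [hw0, zero_mul, hw] at a2
  rw [hx, ← a2] at a1
  exact (mul_ne_zero hne hl) a1

/-- (D3a), one half -/
theorem amin_sub {L : Bd X.pt} {L' : Bd X'.pt} (h : IsFlip X Z X' f f' A L L') :
    Amin f ⊆ Amin f' := by
  intro z hz
  by_contra hz'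
  obtain ⟨V, k, κ, κ', _, _, s, σ', hV, hzV, hk, hs, hσ'⟩ := exists_common h z
  obtain ⟨t, ht⟩ := h.iso
  obtain ⟨x', hx'⟩ := h.small'.surj z
  have huniq : ∀ y', f' y' = z → y' = x' := by
    intro y' hy'
    by_contra hne
    exact hz' ⟨y', x', hy', hx', hne⟩
  obtain ⟨j, hj⟩ := h.lb'.cover x'
  obtain ⟨l, hl⟩ := hσ'.bpf x' j (by rw [hx']; exact hzV) hj
  obtain ⟨σ, hσ, htr⟩ := transport h.normal h.small h.small' (IsLBx.pow h.lb k)
    (IsLBx.pow h.lb' k) (IsIso.pow ht k) hV (hσ'.sec l)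
  have h0 : ∀ y' j', f' y' = z → y' ∈ (L'.pow k).U j' → σ' l j' y' ≠ 0 := by
    intro y' j' hy' hj'
    have e := huniq y' hy'
    subst e
    rw [(hσ'.sec l).change j' j y' (by show f' y' ∈ V; rw [hy']; exact hzV) hj' hj]
    exact mul_ne_zero ((IsLBx.pow h.lb' k).ne_zero j' j y' hj' hj) hl
  have h1 := nz h.normal h.small h.small' (IsLBx.pow h.lb k) (IsLBx.pow h.lb' k)
    (IsIso.pow ht k) hV hσ (hσ'.sec l) htr hzV h0
  obtain ⟨y, y', hy, hy', hyy'⟩ := hz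
  exact hyy' (single h.normalZ h.normal h.small (IsLBx.pow h.lb k) hV hs hσ hzV h1 hy' hy)

/-- (D3a) -/
theorem amin_eq {L : Bd X.pt} {L' : Bd X'.pt} (h : IsFlip X Z X' f f' A L L') :
    Amin f = Amin f' :=
  Subset.antisymm (amin_sub h) (amin_sub (IsFlip.symm h))

theorem amin_sub_A (h : IsSmall X Z f A) : Amin f ⊆ A := by
  rintro z ⟨x, x', hx, hx', hne⟩
  by_contra hz
  exact hne ((h.inj x x' (by rw [hx]; exact hz) (by rw [hx, hx'])).symm)

/-- (D3c) every section of `L'^k` has a zero over every point of `Amin`. -/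
theorem has_zero {L : Bd X.pt} {L' : Bd X'.pt} (h : IsFlip X Z X' f f' A L L') {V : Set Z.pt}
    (hV : IsOpen V) {k : ℕ} {κ : Type} [Fintype κ] {s : κ → L.ι → X.pt → ℂ}
    (hs : VA X Z f (Bd.inv (L.pow k)) V κ s) {σ' : L'.ι → X'.pt → ℂ}
    (hσ' : IsSecx X' (f' ⁻¹' V) (L'.pow k) σ') {z : Z.pt} (hz : z ∈ V) (hzA : z ∈ Amin f) :
    ∃ x' j, f' x' = z ∧ x' ∈ L'.U j ∧ σ' j x' = 0 := by
  by_contra hcon
  push Not at hcon
  obtain ⟨t, ht⟩ := h.iso
  obtain ⟨σ, hσ, htr⟩ := transport h.normal h.small h.small' (IsLBx.pow h.lb k)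
    (IsLBx.pow h.lb' k) (IsIso.pow ht k) hV hσ'
  have h1 := nz h.normal h.small h.small' (IsLBx.pow h.lb k) (IsLBx.pow h.lb' k)
    (IsIso.pow ht k) hV hσ hσ' htr hz hcon
  obtain ⟨y, hy⟩ := h.small.surj z
  obtain ⟨i, hi⟩ := h.lb.cover y
  exact h1 y i hy hi (vanish h.normalZ h.normal h.small (IsLBx.pow h.lb k) hV hs hσ hz hzA y i hy hi)

end Vale.Agent.P277.H615
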