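import Vale.Agent.P277.H615.Datum2
import Vale.Agent.P277.H615.D0

/-!
# P277, T2: at most `m r` flips have a flipped locus of dimension two
-/

open scoped Manifold ContDiff Topology
open Vale.Agent.P272.K Vale.Agent.P285.H281.FD Vale.Agent.P267.H175 Set Filter Metric

noncomputable section

namespace Vale.Agent.P277.H615

open Vale.Agent.P277 Vale.Agent.P277.T2 Vale.Agent.P277.H335
open Vale.Agent.P277.H19 (exists_max_pow upd exists_div at_chartAt analyticAt_det exists_ne_zero)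

variable {Y : Type} [TopologicalSpace Y] [T2Space Y] [CompactSpace Y] [ChartedSpace (Cm 4) Y]
  [IsManifold 𝓘(ℂ, Cm 4) ω Y]

omit [T2Space Y] [CompactSpace Y] [IsManifold 𝓘(ℂ, Cm 4) ω Y] in
theorem dense_compl_hyp {G : Set Y} (hG : IsHyp G) : Dense Gᶜ := by
  intro y
  by_cases hy : y ∈ G
  · obtain ⟨ξ, w₀, r, h, rfl⟩ := hG y hy
    rw [mem_closure_iff_nhds]
    intro U hU
    have h1 : ∀ᶠ w in 𝓝 w₀, w ∈ ball w₀ r ∧ ξ w ∈ U :=
      (isOpen_ball.eventually_mem (mem_ball_self h.pos)).and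
        ((h.cont _ (mem_ball_self h.pos)).eventually hU)
    obtain ⟨w, ⟨hw1, hw2⟩, hw0⟩ := exists_ne_zero h1
    exact ⟨ξ w, hw2, fun hw => hw0 ((h.mem w hw1).1 hw)⟩
  · exact subset_closure hy

omit [IsManifold 𝓘(ℂ, Cm 4) ω Y] in
theorem dense_compl_iUnion_hyp {n : ℕ} {G : Fin n → Set Y} (hG : ∀ l, IsHyp (G l))
    (hcl : ∀ l, IsClosed (G l)) : Dense (⋃ l, G l)ᶜ := by
  rw [compl_iUnion]
  exact dense_iInter_of_isOpen (fun l => (hcl l).isOpen_compl) fun l => dense_compl_hyp (hG l)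

omit [T2Space Y] [CompactSpace Y] [IsManifold 𝓘(ℂ, Cm 4) ω Y] in
theorem Tw0.dense {V : CSp} {vV : Y → V.pt} (hvV : IsOpenEmb V univ vV)
    (hsurj : Function.Surjective vV) {D : Set Y} (hD : Dense Dᶜ) (hDc : IsClosed D) {N : Bd Y}
    {X : CSp} {L : Bd X.pt} {O : Set Y} {v : Y → X.pt} {P Q : ℕ} {T : L.ι → N.ι → Y → ℂ}
    (h : Tw0 vV D N X L O v P Q T) : Dense O := by
  have hreg : Dense {x | IsReg 4 V x} := by
    have h1 : {x | IsReg 4 V x} = univ := by
      ext x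
      simp only [mem_univ, iff_true]
      obtain ⟨y, rfl⟩ := hsurj x
      exact hvV.isReg (mem_univ y)
    rw [h1]
    exact dense_univ
  have h2 := dense_compl_of_dimLe (by norm_num : 2 < 4) hreg h.thin
  rw [dense_iff_inter_open]
  intro U hU hUne
  obtain ⟨y, hyU, hyD⟩ := hD.inter_open_nonempty U hU hUne
  obtain ⟨x, ⟨y', ⟨hy'1, hy'2⟩, rfl⟩, hx⟩ := h2.inter_open_nonempty (vV '' (U ∩ Dᶜ))
    (hvV.isOpenMap _ (subset_univ _) (hU.inter hDc.isOpen_compl)) ⟨_, y, ⟨hyU, hyD⟩, rfl⟩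
  refine ⟨y', hy'1, ?_⟩
  by_contra hcon
  exact hx ⟨y', ⟨hy'2, hcon⟩, rfl⟩

omit [T2Space Y] [CompactSpace Y] [IsManifold 𝓘(ℂ, Cm 4) ω Y] in
/-- the orders at the beginning -/
theorem OrdD.base {W X : CSp} [Nonempty W.pt] {r : ℕ} {v : Y → W.pt} {p : W.pt → X.pt}
    {P : Bd W.pt} {G : Fin r → Set Y} (hR : IsRes v p P G) {N : Bd Y} (hN : CtBd N)
    {L : Bd X.pt} {c : ℕ} {t : L.ι → N.ι → Y → ℂ}
    (ht : IsCmpC (fun y => p (v y)) L (N.pow c) (⋃ l, G l) t) {q : ℕ}
    (h : Tw0 v (⋃ l, G l) N X L (⋃ l, G l)ᶜ (fun y => p (v y)) q (c * q)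
      (fun i j y => t i j y ^ q)) (hO : Dense (⋃ l, G l)ᶜ) :
    ∃ α, OrdD v G (⋃ l, G l)ᶜ (fun y => p (v y)) (fun i j y => t i j y ^ q) (c * q) α := by
  have hNS : ∀ l, NS (⋃ l, G l)ᶜ (fun y => p (v y)) (fun i j y => t i j y ^ q) (G l) = G l := by
    intro l
    refine Subset.antisymm (fun y hy => hy.1) fun y hy => ⟨hy, ?_⟩
    obtain ⟨ξ, w₀, r, hpar, rfl⟩ := hR.hyp l y hy
    have hw₀ := mem_ball_self (x := w₀) hpar.pos
    obtain ⟨i, hi⟩ := h.lb.cover (p (v (ξ w₀)))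
    have hi' : p (v (ξ w₀)) ∈ L.U i := hi
    obtain ⟨j, hj⟩ := hN.cover (ξ w₀)
    have hhol : ∀ w ∈ ball w₀ r, HolAt X (fun w => p (v (ξ w))) w := by
      intro w hw
      have h1 := holAt_par hR.emb hpar hw
      refine ⟨ContinuousAt.comp (g := p) hR.cont.continuousAt h1.1, fun g hg => ?_⟩
      exact h1.2 _ (hR.holo _ g hg)
    have hev1 : ∀ᶠ w in 𝓝 w₀, w ∈ ball w₀ r ∧ p (v (ξ w)) ∈ L.U i ∧ ξ w ∈ N.U j :=
      (isOpen_ball.eventually_mem hw₀).and (((hhol w₀ hw₀).1.eventually_mem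
        ((h.lb.isOpen i).mem_nhds hi')).and
        ((hpar.cont _ hw₀).eventually_mem ((hN.isOpen j).mem_nhds hj)))
    have hFan : ∀ w, w ∈ ball w₀ r ∧ p (v (ξ w)) ∈ L.U i ∧ ξ w ∈ N.U j →
        AnalyticAt ℂ (fun w => t i j (ξ w) ^ q) w := by
      rintro w ⟨h1, h2, h3⟩
      have hat : At (chartAt (Cm 4) (ξ w)) (ξ w) := at_chartAt _
      exact (analyticAt_comp_chart (g := fun y => t i j y) (hpar.cont w h1) hat
        (hpar.an w h1 _ hat).1 (ht.holo (ξ w) i j _ hat h2 h3).1).pow q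
    have hnz : ¬ ∀ᶠ w in 𝓝 w₀, t i j (ξ w) ^ q = 0 := by
      intro hz
      obtain ⟨w, ⟨k1, k2, k3, k4⟩, -, k5⟩ := IsPar.dense hpar hO hw₀ (hz.and hev1)
      have k6 := (ht.holo (ξ w) i j _ (at_chartAt _) k3 k4).2
      exact k5 (k6 (pow_eq_zero_iff (Nat.one_le_iff_ne_zero.1 h.hP) |>.1 k1))
    obtain ⟨ν, F, hF, hFF, hFne⟩ := exists_max_pow (hFan w₀ hev1.self_of_nhds) hpar.zero hnz
    obtain ⟨r₁, hr₁, hball⟩ := Metric.eventually_nhds_iff_ball.1
      (hev1.and (hFF.and hF.eventually_analyticAt))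
    have hs : ball w₀ r₁ ⊆ ball w₀ r := fun w hw => (hball w hw).1.1
    refine ⟨ξ, w₀, r₁, fun w => p (v (ξ w)), i, j, F, ν, 1, ⟨hpar.restrict hpar.zero hr₁ hs, le_rfl,
      fun w hw => hhol w (hs hw), fun w hw => (hball w hw).1.2.1, fun w hw => (hball w hw).1.2.2,
      fun w _ _ => rfl, fun w hw => (hball w hw).2.2, ?_, ?_⟩, rfl⟩
    · intro w hw _
      rw [pow_one]
      exact (hball w hw).2.1.symm
    · rw [Filter.not_eventually] at hFne
      obtain ⟨w, hw1, hw2⟩ := (hFne.and_eventually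
        (isOpen_ball.eventually_mem (mem_ball_self hr₁))).exists
      push Not at hw1
      exact ⟨w, hw2, hw1.1, hw1.2⟩
  have hex : ∀ l, ∃ a : ℚ, ∀ ξ w₀ r γ i c' F ν K, NiceAt (⋃ l, G l)ᶜ (fun y => p (v y))
      (fun i j y => t i j y ^ q) (G l) ξ w₀ r γ i c' F ν K → (ν : ℚ) = a * ((c * q : ℕ) * K) := by
    intro l
    by_cases hn : ∃ ξ w₀ r γ i c' F ν K, NiceAt (⋃ l, G l)ᶜ (fun y => p (v y))
      (fun i j y => t i j y ^ q) (G l) ξ w₀ r γ i c' F ν K
    · obtain ⟨ξ, w₀, r, γ, i, c', F, ν, K, hn⟩ := hn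
      have hK : (0 : ℚ) < K := by exact_mod_cast hn.hK
      have hcq : (0 : ℚ) < (c * q : ℕ) := by exact_mod_cast h.hQ
      refine ⟨(ν : ℚ) / ((c * q : ℕ) * K), ?_⟩
      intro ξ₁ w₁ r₁ γ₁ i₁ c₁ F₁ ν₁ K₁ hn₁
      have h1 := hn.const hO (disjoint_left.2 fun y hy hyG => hy (mem_iUnion.2 ⟨l, hyG⟩)) h.lb hN
        h.iso (by rw [hNS]; exact hR.conn l) hn₁
      have h2 : (ν : ℚ) * K₁ = ν₁ * K := by exact_mod_cast h1
      field_simp
      linarith
    · push Not at hn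
      exact ⟨0, fun ξ w₀ r γ i c F ν K h => (hn ξ w₀ r γ i c F ν K h).elim⟩
  choose α hα using hex
  refine ⟨α, fun l => ?_, hα⟩
  rw [hNS, Set.sdiff_self, image_empty]
  exact dimLe_empty

omit [T2Space Y] [CompactSpace Y] in
/-- continuity of the transition functions of `K^m M` -/
theorem ctBd {M : Bd Y} (hM : IsLB 4 M) (m : ℕ) : CtBd (((Bd.can 4 Y).pow m).mul M) where
  isOpen := by
    rintro ⟨e, i⟩
    have h1 : IsOpen {x : Y | At e x} := by
      by_cases he : e ∈ atlas (Cm 4) Y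
      · have h2 : {x : Y | At e x} = e.source := by
          ext x
          exact ⟨fun h => h.2, fun h => ⟨he, h⟩⟩
        rw [h2]; exact e.open_source
      · have h2 : {x : Y | At e x} = ∅ := by
          ext x
          exact ⟨fun h => (he h.1).elim, fun h => h.elim⟩
        rw [h2]; exact isOpen_empty
    exact h1.inter (hM.isOpen i)
  cover y := by
    obtain ⟨i, hi⟩ := hM.cover y
    exact ⟨(chartAt (Cm 4) y, i), ⟨chart_mem_atlas _ _, mem_chart_source _ _⟩, hi⟩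
  cont := by
    rintro ⟨(e : Chart 4 Y), i⟩ ⟨(e' : Chart 4 Y), i'⟩ y ⟨he, hi⟩ ⟨he', hi'⟩
    have he : At e y := he
    have he' : At e' y := he'
    have h1 : ContinuousAt (fun x => (jacM e e' x).det) y := by
      have h2 : ContinuousAt (fun x => (fderiv ℂ (fun z => e' (e.symm z)) (e x)).det) y :=
        ContinuousAt.comp (g := fun z => (fderiv ℂ (fun z => e' (e.symm z)) z).det)
          (analyticAt_det (trans_analyticAt he he')).continuousAt (e.continuousAt he.2)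
      refine h2.congr ?_
      filter_upwards [e.open_source.mem_nhds he.2, e'.open_source.mem_nhds he'.2] with x hx hx'
      exact (H19.det_jacM ⟨he.1, hx⟩ ⟨he'.1, hx'⟩).symm
    have h3 : ContinuousAt (M.g i i') y := by
      have h4 : ContinuousAt (fun z => M.g i i' (e.symm z)) (e y) :=
        (hM.holo i i' e y he hi hi').continuousAt
      have h5 : ContinuousAt (fun x => M.g i i' (e.symm (e x))) y :=
        ContinuousAt.comp (g := fun z => M.g i i' (e.symm z)) h4 (e.continuousAt he.2)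
      refine h5.congr ?_
      filter_upwards [e.open_source.mem_nhds he.2] with x hx
      simp only [e.left_inv hx]
    exact (h1.pow m).mul h3
  ne_zero := by
    rintro ⟨(e : Chart 4 Y), i⟩ ⟨(e' : Chart 4 Y), i'⟩ y ⟨he, hi⟩ ⟨he', hi'⟩
    have he : At e y := he
    have he' : At e' y := he'
    refine mul_ne_zero (pow_ne_zero _ ?_) (hM.ne_zero i i' y hi hi')
    intro h0
    have h5 := H19.det_jacM_mul (y := y) (e := e) (e' := e') he he'
    have h0' : (jacM e e' y).det = 0 := h0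
    rw [h0'] at h5
    simp at h5

/-- (P7) -/
theorem stP7_of (hL0 : StL0) (hTX : StTX2) (hConn : StConn) : StP7 := by
  intro Y _ _ _ _ _ χ hχ M hM hnef m hm N W X Z hX0 r v p P G hR f f' A L hL hflip hreg
  rcases Nat.eq_zero_or_pos N with rfl | hNpos
  · simp
  set NB : Bd Y := ((Bd.can 4 Y).pow m).mul M with hNB
  have hN : CtBd NB := ctBd hM m
  have hch : ∀ j, ∃ p q : ℕ, j < N → (1 ≤ p ∧ 1 ≤ q ∧ IsFlip (X j) (Z j) (X (j + 1)) (f j) (f' j)
      (Amin (f j)) ((L j).pow p) ((L (j + 1)).pow q)) := by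
    intro j
    by_cases hj : j < N
    · obtain ⟨p, q, hp, hq, h⟩ := hflip j hj
      exact ⟨p, q, fun _ => ⟨hp, hq, (stD0 _ _ _ _ _ _ _ _ h).1⟩⟩
    · exact ⟨0, 0, fun h => (hj h).elim⟩
  choose pp qq hpq using hch
  have hneX : Nonempty (X 0).pt := by
    have h1 := (hpq 0 hNpos).2.2.ninj
    rw [Function.Injective] at h1
    push Not at h1
    obtain ⟨x, -⟩ := h1
    exact ⟨x⟩
  have hneW : Nonempty W.pt := by
    obtain ⟨x⟩ := hneX
    obtain ⟨w, -⟩ := hR.psurj x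
    exact ⟨w⟩
  have hneY : Nonempty Y := by
    obtain ⟨w⟩ := hneW
    obtain ⟨y, -⟩ := hR.surj w
    exact ⟨y⟩
  have hDd : Dense (⋃ l, G l)ᶜ := dense_compl_iUnion_hyp hR.hyp hR.closed
  have hDc : IsClosed (⋃ l, G l) := isClosed_iUnion_of_finite hR.closed
  have key : ∀ j ≤ N, ∃ (O : Set Y) (v' : Y → (X j).pt) (P' Q' : ℕ)
      (T : (L j).ι → NB.ι → Y → ℂ) (α : Fin r → ℚ), Tw2 v (⋃ l, G l) NB (X j) (L j) O v' P' Q' T ∧
      OrdD v G O v' T Q' α ∧
      {i | i < j ∧ ¬ DimLe (X (i + 1)) 1 (f' i ⁻¹' Amin (f i))}.ncard ≤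
        ∑ l, min m ⌊α l⌋₊ := by
    intro j
    induction j with
    | zero =>
      intro _
      obtain ⟨c, hc, t, ht⟩ := hL
      have h1 := Tw2.base hL0 hX0 hR (N := NB) (fun c => hN.isOpen c) hN.cover hc ht
        (hpq 0 hNpos).1 (hpq 0 hNpos).2.2.lb
      obtain ⟨α, hα⟩ := OrdD.base hR hN ht.toC h1.toTw0 hDd
      exact ⟨_, _, _, _, _, α, h1, hα, by simp⟩
    | succ j ih =>
      intro hj
      obtain ⟨O, v', P', Q', T, α, hTw, hOrd, hcount⟩ := ih (by omega)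
      obtain ⟨hp, hq, hf⟩ := hpq j (by omega)
      obtain ⟨s, hs⟩ := hf.iso
      choose a ha using hf.lb.cover
      have ha' : ∀ x, x ∈ (L j).U (a x) := ha
      have hTw' := hTw.step (fun c => hN.isOpen c) hR.emb hp hq hf rfl hs ha'
      have hdO := hTw.dense hR.emb hR.surj hDd hDc
      have hdO' := hTw'.dense hR.emb hR.surj hDd hDc
      obtain ⟨α', hOrd', hle, hlt⟩ := hOrd.step hConn hR.emb hR.hyp hR.conn
        (fun l => subset_iUnion G l) hN hTw.toTw0 hp hq hf rfl hs ha' hdO hdO'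
      refine ⟨_, _, _, _, _, α', hTw', hOrd', ?_⟩
      have hmono : ∀ l, min m ⌊α l⌋₊ ≤ min m ⌊α' l⌋₊ := fun l =>
        min_le_min le_rfl (Nat.floor_mono (hle l))
      by_cases hJ : DimLe (X (j + 1)) 1 (f' j ⁻¹' Amin (f j))
      · have h1 : {i | i < j + 1 ∧ ¬ DimLe (X (i + 1)) 1 (f' i ⁻¹' Amin (f i))} =
            {i | i < j ∧ ¬ DimLe (X (i + 1)) 1 (f' i ⁻¹' Amin (f i))} := by
          ext i
          constructor
          · rintro ⟨h1, h2⟩
            refine ⟨lt_of_le_of_ne (Nat.lt_succ_iff.1 h1) ?_, h2⟩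
            rintro rfl
            exact h2 hJ
          · rintro ⟨h1, h2⟩
            exact ⟨h1.trans (Nat.lt_succ_self _), h2⟩
        rw [h1]
        exact hcount.trans (Finset.sum_le_sum fun l _ => hmono l)
      · -- a flipped surface
        have hSO : f' j ⁻¹' Amin (f j) ⊆ ((fun y => hf.small'.sec (f j (v' y))) ''
            {y | y ∈ O ∧ f j (v' y) ∉ Amin (f j)})ᶜ := by
          rintro x' hx' ⟨y, hy, rfl⟩
          have h1 : f' j (hf.small'.sec (f j (v' y))) ∈ Amin (f j) := hx'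
          rw [hf.small'.sec_eq] at h1
          exact hy.2 h1
        obtain ⟨l, ξ, w₀, ρ, γ, i, c, F, ν, K, hn, hnS, hdvd, hν1, hνm⟩ := exists_datum hTX hR.emb
          hR.surj hR.hyp hR.closed hχ hM hnef hm hf.normal' (hreg (j + 1) hj) hTw'
          (hf.small'.an.preimage (V := univ) fun x => hf.small'.holMap x) hSO hJ
        have hlt' := hlt l ξ w₀ ρ γ i c F ν K hn hnS
        have hord := hOrd'.ord l ξ w₀ ρ γ i c F ν K hn
        obtain ⟨b, hb⟩ := hdvd
        have hQK : 0 < Q' * pp j * K := Nat.mul_pos hTw'.hQ hn.hK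
        have hαb : α' l = b := by
          have h1 : (0 : ℚ) < (Q' * pp j : ℕ) * K := by exact_mod_cast hQK
          rw [hb] at hord
          push_cast at hord h1
          have h2 : α' l * (Q' * pp j * K) = b * (Q' * pp j * K) := by linarith
          exact mul_right_cancel₀ h1.ne' h2
        have hb1 : 1 ≤ b := by
          rw [hb] at hν1
          by_contra hb0
          have : b = 0 := by omega
          rw [this, mul_zero] at hν1
          omega
        have hbm : b ≤ m := by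
          rw [hb] at hνm
          have h1 : Q' * pp j * K * b ≤ Q' * pp j * K * m := by
            calc _ ≤ m * (Q' * pp j * K) := hνm
              _ = _ := by ring
          exact Nat.le_of_mul_le_mul_left h1 hQK
        have hlt2 : min m ⌊α l⌋₊ + 1 ≤ min m ⌊α' l⌋₊ := by
          rw [hαb, Nat.floor_natCast, min_eq_right hbm]
          have h1 : ⌊α l⌋₊ < b := by
            rw [Nat.floor_lt' (by omega)]
            rw [hαb] at hlt'
            exact hlt'
          have h2 : min m ⌊α l⌋₊ ≤ ⌊α l⌋₊ := min_le_right _ _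
          omega
        have h1 : {i | i < j + 1 ∧ ¬ DimLe (X (i + 1)) 1 (f' i ⁻¹' Amin (f i))} ⊆
            insert j {i | i < j ∧ ¬ DimLe (X (i + 1)) 1 (f' i ⁻¹' Amin (f i))} := by
          rintro i ⟨h1, h2⟩
          rcases eq_or_ne i j with rfl | hij
          · exact Or.inl rfl
          · exact Or.inr ⟨lt_of_le_of_ne (Nat.lt_succ_iff.1 h1) hij, h2⟩
        have hfin : {i | i < j ∧ ¬ DimLe (X (i + 1)) 1 (f' i ⁻¹' Amin (f i))}.Finite :=
          (Set.finite_lt_nat j).subset fun i hi => hi.1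
        have h2 := (ncard_le_ncard h1 (hfin.insert j)).trans (ncard_insert_le _ _)
        have h3 : ∑ l, min m ⌊α l⌋₊ + 1 ≤ ∑ l, min m ⌊α' l⌋₊ := by
          have h4 : ∑ l, min m ⌊α l⌋₊ < ∑ l, min m ⌊α' l⌋₊ :=
            Finset.sum_lt_sum (fun l _ => hmono l) ⟨l, Finset.mem_univ _, by omega⟩
          omega
        omega
  obtain ⟨O, v', P', Q', T, α, -, -, hcount⟩ := key N le_rfl
  refine hcount.trans ?_
  calc ∑ l : Fin r, min m ⌊α l⌋₊ ≤ ∑ _l : Fin r, m := Finset.sum_le_sum fun l _ => min_le_left _ _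
    _ = m * r := by simp [mul_comm]

end Vale.Agent.P277.H615
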