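import Vale.Agent.P277.H615.Tw2Base
import Vale.Agent.P277.H615.D0

/-!
# P277, T2: the towers on all the spaces `X j` (for REG)
-/

open scoped Manifold ContDiff Topology
open Vale.Agent.P272.K Vale.Agent.P285.H281.FD Vale.Agent.P267.H175 Set Filter Metric

noncomputable section

namespace Vale.Agent.P277.H615

open Vale.Agent.P277 Vale.Agent.P277.T2 Vale.Agent.P277.H335

variable {Y : Type} [TopologicalSpace Y] [T2Space Y] [CompactSpace Y] [ChartedSpace (Cm 4) Y]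
  [IsManifold 𝓘(ℂ, Cm 4) ω Y]

/-- The tower on `X 0` (`(⋃ l, G l)ᶜ`, `p ∘ v`), and on all `X (j + 1)`, `j < N`. The flipped locus is
in the complement of the image. -/
theorem exists_tower (hL0 : StL0) {NB : Bd Y} (hNo : ∀ c, IsOpen (NB.U c))
    (hNc : ∀ y, ∃ c, y ∈ NB.U c) (N : ℕ) (hN : 1 ≤ N) (W : CSp) (X Z : ℕ → CSp)
    (hX0 : IsNormal 4 (X 0)) (r : ℕ) (v : Y → W.pt) (p : W.pt → (X 0).pt) (P : Bd W.pt)
    (G : Fin r → Set Y) (hR : IsRes v p P G) (f : ∀ j, (X j).pt → (Z j).pt)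
    (f' : ∀ j, (X (j + 1)).pt → (Z j).pt) (A : ∀ j, Set (Z j).pt) (L : ∀ j, Bd (X j).pt)
    (hL : ∃ c : ℕ, 1 ≤ c ∧ ∃ t, IsCmp (fun y => p (v y)) (L 0) (NB.pow c) (⋃ l, G l) t)
    (hflip : ∀ j < N, ∃ p q : ℕ, 1 ≤ p ∧ 1 ≤ q ∧
      IsFlip (X j) (Z j) (X (j + 1)) (f j) (f' j) (A j) ((L j).pow p) ((L (j + 1)).pow q)) :
    (∃ (P' Q' : ℕ) (T : (L 0).ι → NB.ι → Y → ℂ),
      Tw2 v (⋃ l, G l) NB (X 0) (L 0) (⋃ l, G l)ᶜ (fun y => p (v y)) P' Q' T) ∧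
    ∀ j < N, ∃ (O : Set Y) (v' : Y → (X (j + 1)).pt) (P' Q' : ℕ)
      (T : (L (j + 1)).ι → NB.ι → Y → ℂ),
      Tw2 v (⋃ l, G l) NB (X (j + 1)) (L (j + 1)) O v' P' Q' T ∧
      f' j ⁻¹' Amin (f j) ⊆ (v' '' O)ᶜ := by
  have hch : ∀ j, ∃ p q : ℕ, j < N → (1 ≤ p ∧ 1 ≤ q ∧ IsFlip (X j) (Z j) (X (j + 1)) (f j) (f' j)
      (Amin (f j)) ((L j).pow p) ((L (j + 1)).pow q)) := by
    intro j
    by_cases hj : j < N
    · obtain ⟨p, q, hp, hq, h⟩ := hflip j hj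
      exact ⟨p, q, fun _ => ⟨hp, hq, (stD0 _ _ _ _ _ _ _ _ h).1⟩⟩
    · exact ⟨0, 0, fun h => (hj h).elim⟩
  choose pp qq hpq using hch
  have hneX : Nonempty (X 0).pt := by
    have h1 := (hpq 0 hN).2.2.ninj
    rw [Function.Injective] at h1
    push Not at h1
    obtain ⟨x, -⟩ := h1
    exact ⟨x⟩
  have hneW : Nonempty W.pt := by
    obtain ⟨x⟩ := hneX
    obtain ⟨w, -⟩ := hR.psurj x
    exact ⟨w⟩
  have h0 : ∃ (P' Q' : ℕ) (T : (L 0).ι → NB.ι → Y → ℂ),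
      Tw2 v (⋃ l, G l) NB (X 0) (L 0) (⋃ l, G l)ᶜ (fun y => p (v y)) P' Q' T := by
    obtain ⟨c, hc, t, ht⟩ := hL
    exact ⟨_, _, _, Tw2.base hL0 hX0 hR hNo hNc hc ht (hpq 0 hN).1 (hpq 0 hN).2.2.lb⟩
  refine ⟨h0, ?_⟩
  have hst : ∀ j < N, (∃ (O : Set Y) (v' : Y → (X j).pt) (P' Q' : ℕ)
      (T : (L j).ι → NB.ι → Y → ℂ), Tw2 v (⋃ l, G l) NB (X j) (L j) O v' P' Q' T) →
      ∃ (O : Set Y) (v' : Y → (X (j + 1)).pt) (P' Q' : ℕ) (T : (L (j + 1)).ι → NB.ι → Y → ℂ),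
      Tw2 v (⋃ l, G l) NB (X (j + 1)) (L (j + 1)) O v' P' Q' T ∧
      f' j ⁻¹' Amin (f j) ⊆ (v' '' O)ᶜ := by
    rintro j hj ⟨O, v', P', Q', T, hTw⟩
    obtain ⟨hp, hq, hf⟩ := hpq j hj
    obtain ⟨s, hs⟩ := hf.iso
    choose a ha using hf.lb.cover
    have ha' : ∀ x, x ∈ (L j).U (a x) := ha
    refine ⟨_, _, _, _, _, hTw.step hNo hR.emb hp hq hf rfl hs ha', ?_⟩
    rintro x' hx' ⟨y, hy, rfl⟩
    have h1 : f' j (hf.small'.sec (f j (v' y))) ∈ Amin (f j) := hx'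
    rw [hf.small'.sec_eq] at h1
    exact hy.2 h1
  intro j
  induction j with
  | zero =>
    intro hj
    obtain ⟨P', Q', T, h⟩ := h0
    exact hst 0 hj ⟨_, _, P', Q', T, h⟩
  | succ j ih =>
    intro hj
    obtain ⟨O, v', P', Q', T, h, -⟩ := ih (by omega)
    exact hst (j + 1) hj ⟨_, _, P', Q', T, h⟩

end Vale.Agent.P277.H615
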