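import Vale.Agent.P277.H615.Step

/-!
# P277: the triangular argument
-/

open scoped Manifold ContDiff Topology
open Vale.Agent.P272.K Vale.Agent.P285.H281.FD Vale.Agent.P267.H175 Set

noncomputable section

namespace Vale.Agent.P277.H615

open Vale.Agent.P277

section linear

variable {Y : Type} [TopologicalSpace Y] [ChartedSpace (Cm 4) Y]

theorem sm_sum {k n : ℕ} (c : Fin n → ℝ) (a : Fin n → Fm k Y) (ha : ∀ i y, SmAt (a i) y)
    (s : Finset (Fin n)) : ∀ y, SmAt (∑ i ∈ s, c i • a i) y := by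
  classical
  induction s using Finset.induction_on with
  | empty => intro y; rw [Finset.sum_empty]; exact smAt_zero y
  | insert i s hi ih =>
    intro y
    rw [Finset.sum_insert hi]
    exact ((ha i y).smul (c i)).add (ih y)

theorem dF_sum {k n : ℕ} (c : Fin n → ℝ) (a : Fin n → Fm k Y) (ha : ∀ i y, SmAt (a i) y)
    (s : Finset (Fin n)) : dF (∑ i ∈ s, c i • a i) = ∑ i ∈ s, c i • dF (a i) := by
  classical
  induction s using Finset.induction_on with
  | empty =>
    rw [Finset.sum_empty, Finset.sum_empty]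
    funext y
    have h := dF_smul (0 : ℝ) (0 : Fm k Y) y
    rw [zero_smul, zero_smul] at h
    exact h
  | insert i s hi ih =>
    rw [Finset.sum_insert hi, Finset.sum_insert hi, ← ih]
    funext y
    rw [dF_add ((ha i y).smul (c i)) (sm_sum c a ha s y), dF_smul]
    rfl

theorem T_sum {n : ℕ} {T : Fm 4 Y → ℝ}
    (hadd : ∀ a b : Fm 4 Y, (∀ y, SmAt a y) → (∀ y, SmAt b y) → T (a + b) = T a + T b)
    (hsmul : ∀ (c : ℝ) (a : Fm 4 Y), (∀ y, SmAt a y) → T (c • a) = c * T a)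
    (c : Fin n → ℝ) (a : Fin n → Fm 4 Y) (ha : ∀ i y, SmAt (a i) y) (s : Finset (Fin n)) :
    T (∑ i ∈ s, c i • a i) = ∑ i ∈ s, c i * T (a i) := by
  classical
  induction s using Finset.induction_on with
  | empty =>
    rw [Finset.sum_empty, Finset.sum_empty]
    have h := hsmul 0 0 fun y => smAt_zero y
    rw [zero_smul, zero_mul] at h
    exact h
  | insert i s hi ih =>
    rw [Finset.sum_insert hi, Finset.sum_insert hi,
      hadd _ _ (fun y => (ha i y).smul (c i)) (sm_sum c a ha s), ih, hsmul _ _ (ha i)]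

/-- The triangular argument. -/
theorem tri {N b : ℕ} {a : Fin b → Fm 4 Y}
    (hspan : ∀ c : Fm 4 Y, (∀ y, SmAt c y ∧ dF c y = 0) → ∃ (t : Fin b → ℝ) (β : Fm 3 Y),
      (∀ y, SmAt β y) ∧ ∀ y, c y = ∑ i, t i • a i y + dF β y)
    (η : Fin N → Fm 4 Y) (hη : ∀ j y, SmAt (η j) y ∧ dF (η j) y = 0)
    (T : Fin N → Fm 4 Y → ℝ)
    (hadd : ∀ j, ∀ a b : Fm 4 Y, (∀ y, SmAt a y) → (∀ y, SmAt b y) →
      T j (a + b) = T j a + T j b)
    (hsmul : ∀ j, ∀ (c : ℝ) (a : Fm 4 Y), (∀ y, SmAt a y) → T j (c • a) = c * T j a)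
    (hex : ∀ j, ∀ β : Fm 3 Y, (∀ y, SmAt β y) → T j (dF β) = 0)
    (hzero : ∀ i j, j < i → T j (η i) = 0) (hne : ∀ j, T j (η j) ≠ 0) : N ≤ b := by
  classical
  by_contra hN
  push Not at hN
  choose t β hβ ht using fun j => hspan (η j) (hη j)
  have h1 : ¬ LinearIndependent ℝ t := by
    intro h
    have := h.fintype_card_le_finrank
    simp at this
    omega
  rw [Fintype.not_linearIndependent_iff] at h1
  obtain ⟨c, hc, i₀, hi₀⟩ := h1
  have hsm : ∀ i y, SmAt (η i) y := fun i y => (hη i y).1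
  have h2 : ∑ i, c i • η i = dF (∑ i, c i • β i) := by
    rw [dF_sum c β hβ]
    funext y
    have h3 : ∀ i, η i y = ∑ l, t i l • a l y + dF (β i) y := fun i => ht i y
    rw [Finset.sum_apply, Finset.sum_apply]
    simp only [Pi.smul_apply]
    have h4 : ∑ i, c i • η i y = ∑ i, c i • ∑ l, t i l • a l y + ∑ i, c i • dF (β i) y := by
      rw [← Finset.sum_add_distrib]
      refine Finset.sum_congr rfl fun i _ => ?_
      rw [h3 i, smul_add]
    rw [h4]
    have h5 : ∑ i, c i • ∑ l, t i l • a l y = 0 := by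
      simp only [Finset.smul_sum, smul_smul]
      rw [Finset.sum_comm]
      refine Finset.sum_eq_zero fun l _ => ?_
      rw [← Finset.sum_smul]
      have h6 := congrFun hc l
      simp only [Finset.sum_apply, Pi.smul_apply, smul_eq_mul, Pi.zero_apply] at h6
      rw [h6, zero_smul]
    rw [h5, zero_add]
  have h3 : ∀ j, ∑ i, c i * T j (η i) = 0 := by
    intro j
    rw [← T_sum (hadd j) (hsmul j) c η hsm, h2]
    exact hex j _ (sm_sum c β hβ _)
  -- the smallest index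
  have h4 : ∃ j, c j ≠ 0 ∧ ∀ i, i < j → c i = 0 := by
    obtain ⟨j, hj, hmin⟩ := WellFounded.has_min (wellFounded_lt (α := Fin N)) {j | c j ≠ 0}
      ⟨i₀, hi₀⟩
    exact ⟨j, hj, fun i hi => by_contra fun h => hmin i h hi⟩
  obtain ⟨j, hj, hmin⟩ := h4
  have h5 := h3 j
  rw [Finset.sum_eq_single j] at h5
  · exact (mul_ne_zero hj (hne j)) h5
  · intro i _ hij
    rcases lt_or_gt_of_ne hij with h | h
    · rw [hmin i h, zero_mul]
    · rw [hzero i j h, mul_zero]
  · intro h; exact absurd (Finset.mem_univ j) h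

end linear

/-- the forms and the functionals attached to a sequence of flips -/
theorem exists_forms (hD : StD) (hF : StF) (Y : Type) [TopologicalSpace Y] [T2Space Y]
    [CompactSpace Y] [ChartedSpace (Cm 4) Y] [IsManifold 𝓘(ℂ, Cm 4) ω Y] (N : ℕ) :
    ∀ (X Z : ℕ → CSp) (O : Set Y) (v : Y → (X 0).pt) (_ : IsOpenEmb (X 0) O v)
      (_ : DimLe (X 0) 1 (v '' O)ᶜ) (f : ∀ j, (X j).pt → (Z j).pt)
      (f' : ∀ j, (X (j + 1)).pt → (Z j).pt) (A : ∀ j, Set (Z j).pt) (L : ∀ j, Bd (X j).pt)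
      (L' : ∀ j, Bd (X (j + 1)).pt)
      (_ : ∀ j < N, IsFlip (X j) (Z j) (X (j + 1)) (f j) (f' j) (A j) (L j) (L' j))
      (_ : ∀ j < N, DimLe (X (j + 1)) 1 (f' j ⁻¹' A j)),
      ∃ (η : Fin N → Fm 4 Y) (T : Fin N → Fm 4 Y → ℝ),
        (∀ j y, SmAt (η j) y ∧ dF (η j) y = 0) ∧
        (∀ j, ∃ C₀ ⊆ O, IsCompact C₀ ∧ ∀ y ∉ C₀, η j y = 0) ∧
        (∀ j, ∀ a b : Fm 4 Y, (∀ y, SmAt a y) → (∀ y, SmAt b y) → T j (a + b) = T j a + T j b) ∧
        (∀ j, ∀ (c : ℝ) (a : Fm 4 Y), (∀ y, SmAt a y) → T j (c • a) = c * T j a) ∧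
        (∀ j, ∀ β : Fm 3 Y, (∀ y, SmAt β y) → T j (dF β) = 0) ∧
        (∀ i j, j < i → T j (η i) = 0) ∧ (∀ j, T j (η j) ≠ 0) := by
  induction N with
  | zero =>
    intro X Z O v _ _ f f' A L L' _ _
    exact ⟨fun j => j.elim0, fun j => j.elim0, fun j => j.elim0, fun j => j.elim0,
      fun j => j.elim0, fun j => j.elim0, fun j => j.elim0, fun j => j.elim0, fun j => j.elim0⟩
  | succ N ih =>
    intro X Z O v hv hd f f' A L L' hflip hdim
    have hf0 := hflip 0 (Nat.succ_pos N)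
    have hd0 := hdim 0 (Nat.succ_pos N)
    obtain ⟨O', v', hv', hd', hO', hA'⟩ := step hf0.small hf0.small' hv hd hd0
    obtain ⟨η', T', h1, h2, h3, h4, h5, h6, h7⟩ := ih (fun j => X (j + 1)) (fun j => Z (j + 1)) O'
      v' hv' hd' (fun j => f (j + 1)) (fun j => f' (j + 1)) (fun j => A (j + 1))
      (fun j => L (j + 1)) (fun j => L' (j + 1)) (fun j hj => hflip (j + 1) (by omega))
      (fun j hj => hdim (j + 1) (by omega))
    obtain ⟨P, Q, G, s, s', σ, σ', x₀, hout, hGA⟩ := hD Y (X 0) (Z 0) (X 1) (f 0) (f' 0) (A 0)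
      (L 0) (L' 0) hf0 O v hv hd hd0
    obtain ⟨η₀, hη₀, ⟨C₀, hC₀, hC₀c, hη₀z⟩, hT⟩ := hF Y (X 0) O v hv hd P Q G s s' σ σ' x₀ hout
    choose C' hC' hC'c hη'z using h2
    obtain ⟨T₀, g1, g2, g3, g4, g5⟩ := hT (⋃ j, C' j)
      (iUnion_subset fun j => (hC' j).trans hO') (isCompact_iUnion hC'c) (by
        rw [Set.disjoint_left]
        rintro _ ⟨y, hy, rfl⟩ hy2
        obtain ⟨j, hj⟩ := mem_iUnion.1 hy
        exact hA' y (hC' j hj) (hGA hy2))
    refine ⟨Fin.cons η₀ η', Fin.cons T₀ T', ?_, ?_, ?_, ?_, ?_, ?_, ?_⟩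
    · intro j
      refine Fin.cases ?_ (fun j => ?_) j
      · exact hη₀
      · exact h1 j
    · intro j
      refine Fin.cases ?_ (fun j => ?_) j
      · exact ⟨C₀, hC₀, hC₀c, hη₀z⟩
      · exact ⟨C' j, (hC' j).trans hO', hC'c j, hη'z j⟩
    · intro j
      refine Fin.cases ?_ (fun j => ?_) j
      · exact g1
      · exact h3 j
    · intro j
      refine Fin.cases ?_ (fun j => ?_) j
      · exact g2
      · exact h4 j
    · intro j
      refine Fin.cases ?_ (fun j => ?_) j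
      · exact g3
      · exact h5 j
    · intro i j
      refine Fin.cases ?_ (fun i => ?_) i
      · intro h; exact absurd h (Fin.not_lt_zero j)
      · refine Fin.cases ?_ (fun j => ?_) j
        · intro _
          refine g4 _ (fun y => (h1 i y).1) fun y hy => ?_
          exact hη'z i y fun h => hy (mem_iUnion.2 ⟨i, h⟩)
        · intro h
          exact h6 i j (Fin.succ_lt_succ_iff.1 h)
    · intro j
      refine Fin.cases ?_ (fun j => ?_) j
      · exact g5
      · exact h7 j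

/-- **Theorem R** from the geometry of one flip and the construction of forms. -/
theorem stR_of (hD : StD) (hF : StF) : StR := by
  intro Y _ _ _ _ _ b a hspan N X Z O v hv hd f f' A L L' hflip hdim
  obtain ⟨η, T, h1, -, h3, h4, h5, h6, h7⟩ :=
    exists_forms hD hF Y N X Z O v hv hd f f' A L L' hflip hdim
  exact tri hspan η h1 T h3 h4 h5 h6 h7

end Vale.Agent.P277.H615
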