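import Vale.Agent.P277.Stmts2
import Vale.Agent.P277.A.Dim

/-!
# P277, package D, first part: functions and sections over small morphisms

* `descend` (D1): `f_* O_X = O_Z`.
* `transport` (D2): sections of `P'` over `f'⁻¹ V` correspond to sections of `P` over `f⁻¹ V`.
-/

open scoped Manifold ContDiff Topology
open Vale.Agent.P272.K Vale.Agent.P285.H281.FD Vale.Agent.P267.H175 Set Filter

noncomputable section

namespace Vale.Agent.P277.H615

open Vale.Agent.P277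

variable {X Z X' : CSp} {f : X.pt → Z.pt} {f' : X'.pt → Z.pt} {A : Set Z.pt}

theorem dense_pre (hX : IsNormal 4 X) (h : IsSmall X Z f A) : Dense (f ⁻¹' A)ᶜ :=
  dense_compl_of_dimLe (n := 4) (by norm_num) hX.dense h.dim

theorem dimLe_A (h : IsSmall X Z f A) : DimLe Z 2 A := by
  refine (h.dim.image (fun x _ => h.holMap x)).mono ?_
  intro z hz
  obtain ⟨x, rfl⟩ := h.surj z
  exact ⟨x, hz, rfl⟩

theorem dense_A (hZ : IsNormal 4 Z) (h : IsSmall X Z f A) : Dense Aᶜ :=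
  dense_compl_of_dimLe (n := 4) (by norm_num) hZ.dense (dimLe_A h)

/-- Continuous functions which agree on a dense set. -/
theorem eqOn_of_dense {T : Type} [TopologicalSpace T] {V E : Set T} (hV : IsOpen V)
    (hE : Dense Eᶜ) {g k : T → ℂ} (hg : ContinuousOn g V) (hk : ContinuousOn k V)
    (h : ∀ x ∈ V, x ∉ E → g x = k x) : ∀ x ∈ V, g x = k x := by
  have h1 : V ⊆ closure (V ∩ Eᶜ) := hE.open_subset_closure_inter hV
  have h2 : EqOn g k (V ∩ Eᶜ) := fun x hx => h x hx.1 hx.2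
  exact h2.of_subset_closure hg hk inter_subset_left h1

theorem hol_continuousOn {V : Set X.pt} {g : X.pt → ℂ} (h : ∀ x ∈ V, X.Hol g x) :
    ContinuousOn g V := fun x hx => (hol_continuousAt (h x hx)).continuousWithinAt

/-- (D1) functions over `f⁻¹ V` come from `V`. -/
theorem descend (hZ : IsNormal 4 Z) (hX : IsNormal 4 X) (h : IsSmall X Z f A) {V : Set Z.pt}
    (hV : IsOpen V) {F : X.pt → ℂ} (hF : ∀ x, f x ∈ V → X.Hol F x) :
    ∃ g : Z.pt → ℂ, (∀ z ∈ V, Z.Hol g z) ∧ ∀ x, f x ∈ V → F x = g (f x) := by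
  have h1 : ∀ z ∈ V \ A, Z.Hol (F ∘ h.sec) z := by
    rintro z ⟨hzV, hzA⟩
    exact (h.holMap_sec hzA).2 F (hF _ (by rw [h.sec_eq]; exact hzV))
  obtain ⟨g, hg, hg'⟩ := hZ.ext V A hV (h.an.mono (subset_univ _))
    ((dimLe_A h).mono inter_subset_right) (F ∘ h.sec) h1
  refine ⟨g, hg, ?_⟩
  have h2 : ∀ x ∈ f ⁻¹' V, X.Hol (g ∘ f) x := fun x hx => h.holo x g (hg _ hx)
  refine eqOn_of_dense (hV.preimage h.cont) (dense_pre hX h) (hol_continuousOn hF)
    (hol_continuousOn h2) ?_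
  intro x hx hxA
  show F x = g (f x)
  rw [hg' (f x) ⟨hx, hxA⟩]
  show F x = F (h.sec (f x))
  rw [h.sec_apply hxA]

/-! ### line bundles -/

theorem IsLBx.one {L : Bd X.pt} (hL : IsLBx X L) {i : L.ι} {x : X.pt} (hx : x ∈ L.U i) :
    L.g i i x = 1 := by
  have h1 := hL.cocycle i i i x hx hx hx
  have h2 := hL.ne_zero i i x hx hx
  exact mul_left_cancel₀ h2 (by rw [h1, mul_one])

theorem IsLBx.inv_eq {L : Bd X.pt} (hL : IsLBx X L) {i j : L.ι} {x : X.pt} (hx : x ∈ L.U i)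
    (hx' : x ∈ L.U j) : (L.g i j x)⁻¹ = L.g j i x := by
  have h1 := hL.cocycle i j i x hx hx' hx
  rw [IsLBx.one hL hx] at h1
  exact inv_eq_of_mul_eq_one_right h1

theorem IsLBx.inv {L : Bd X.pt} (hL : IsLBx X L) : IsLBx X (Bd.inv L) where
  isOpen := hL.isOpen
  cover := hL.cover
  holo := fun i j x hx hx' => hol_inv (hL.holo i j x hx hx') (hL.ne_zero i j x hx hx')
  ne_zero := fun i j x hx hx' => inv_ne_zero (hL.ne_zero i j x hx hx')
  cocycle := fun i j k x hx hx' hx'' => by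
    show (L.g i j x)⁻¹ * (L.g j k x)⁻¹ = (L.g i k x)⁻¹
    rw [← mul_inv, hL.cocycle i j k x hx hx' hx'']

theorem IsLBx.pow {L : Bd X.pt} (hL : IsLBx X L) (k : ℕ) : IsLBx X (L.pow k) where
  isOpen := hL.isOpen
  cover := hL.cover
  holo := fun i j x hx hx' => hol_pow (hL.holo i j x hx hx') k
  ne_zero := fun i j x hx hx' => pow_ne_zero k (hL.ne_zero i j x hx hx')
  cocycle := fun i j l x hx hx' hx'' => by
    show (L.g i j x) ^ k * (L.g j l x) ^ k = (L.g i l x) ^ k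
    rw [← mul_pow, hL.cocycle i j l x hx hx' hx'']

theorem inv_inv_bd (L : Bd X.pt) : Bd.inv (Bd.inv L) = L := by
  cases L
  simp only [Bd.inv, inv_inv]

theorem inv_pow_bd (L : Bd X.pt) (k : ℕ) : (Bd.inv L).pow k = Bd.inv (L.pow k) := by
  cases L
  simp only [Bd.inv, Bd.pow, inv_pow]

theorem pow_pow_bd (L : Bd X.pt) (k m : ℕ) : (L.pow k).pow m = L.pow (k * m) := by
  cases L
  simp only [Bd.pow, ← pow_mul]

theorem IsSecx.mono {V W : Set X.pt} {L : Bd X.pt} {s : L.ι → X.pt → ℂ} (h : IsSecx X V L s)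
    (hW : W ⊆ V) : IsSecx X W L s :=
  ⟨fun i x hx => h.holo i x (hW hx), fun i j x hx => h.change i j x (hW hx)⟩

/-- the power of an isomorphism -/
theorem IsIso.pow {L : Bd X.pt} {L' : Bd X'.pt} {t : L.ι → L'.ι → Z.pt → ℂ}
    (h : IsIso f f' A L L' t) (k : ℕ) :
    IsIso f f' A (L.pow k) (L'.pow k) (fun i j z => t i j z ^ k) where
  holo := fun x x' i j hx hx' hi hj =>
    ⟨hol_pow (h.holo x x' i j hx hx' hi hj).1 k, pow_ne_zero k (h.holo x x' i j hx hx' hi hj).2⟩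
  change := fun x x' i i₁ j j₁ hx hx' hi hi₁ hj hj₁ => by
    show t i₁ j₁ (f x) ^ k = L.g i i₁ x ^ k * t i j (f x) ^ k * L'.g j₁ j x' ^ k
    rw [← mul_pow, ← mul_pow, h.change x x' i i₁ j j₁ hx hx' hi hi₁ hj hj₁]

/-- the isomorphism of the duals -/
theorem IsIso.inv {L : Bd X.pt} {L' : Bd X'.pt} {t : L.ι → L'.ι → Z.pt → ℂ}
    (h : IsIso f f' A L L' t) :
    IsIso f f' A (Bd.inv L) (Bd.inv L') (fun i j z => (t i j z)⁻¹) where
  holo := fun x x' i j hx hx' hi hj =>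
    ⟨hol_inv (h.holo x x' i j hx hx' hi hj).1 (h.holo x x' i j hx hx' hi hj).2,
      inv_ne_zero (h.holo x x' i j hx hx' hi hj).2⟩
  change := fun x x' i i₁ j j₁ hx hx' hi hi₁ hj hj₁ => by
    show (t i₁ j₁ (f x))⁻¹ = (L.g i i₁ x)⁻¹ * (t i j (f x))⁻¹ * (L'.g j₁ j x')⁻¹
    rw [← mul_inv, ← mul_inv, h.change x x' i i₁ j j₁ hx hx' hi hi₁ hj hj₁]

/-- the inverse isomorphism -/
theorem IsIso.symm {L : Bd X.pt} {L' : Bd X'.pt} (hL : IsLBx X L) (hL' : IsLBx X' L')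
    {t : L.ι → L'.ι → Z.pt → ℂ} (h : IsIso f f' A L L' t) :
    IsIso f' f A L' L (fun j i z => (t i j z)⁻¹) where
  holo := fun x' x j i hx hx' hj hi => by
    have h1 := h.holo x x' i j (by rw [hx']; exact hx) hx'.symm hi hj
    rw [hx'] at h1
    exact ⟨hol_inv h1.1 h1.2, inv_ne_zero h1.2⟩
  change := fun x' x j j₁ i i₁ hx hx' hj hj₁ hi hi₁ => by
    have h1 := h.change x x' i i₁ j j₁ (by rw [hx']; exact hx) hx'.symm hi hi₁ hj hj₁
    rw [hx'] at h1
    show (t i₁ j₁ (f' x'))⁻¹ = L'.g j j₁ x' * (t i j (f' x'))⁻¹ * L.g i₁ i x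
    rw [h1, mul_inv, mul_inv, IsLBx.inv_eq hL hi hi₁, IsLBx.inv_eq hL' hj₁ hj]
    ring

/-- A flip read backwards. -/
theorem IsFlip.symm {L : Bd X.pt} {L' : Bd X'.pt} (h : IsFlip X Z X' f f' A L L') :
    IsFlip X' Z X f' f A (Bd.inv L') (Bd.inv L) where
  normal := h.normal'
  normalZ := h.normalZ
  normal' := h.normal
  small := h.small'
  small' := h.small
  ninj := h.ninj'
  ninj' := h.ninj
  lb := IsLBx.inv h.lb'
  lb' := IsLBx.inv h.lb
  iso := by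
    obtain ⟨t, ht⟩ := h.iso
    exact ⟨_, IsIso.inv (IsIso.symm h.lb h.lb' ht)⟩
  ample := by rw [inv_inv_bd]; exact h.ample'
  ample' := h.ample

/-! ### transport of sections -/

/-- the section `σ` of `P` corresponds to the section `σ'` of `P'` under the isomorphism `t` -/
def Tr (f : X.pt → Z.pt) (f' : X'.pt → Z.pt) (A : Set Z.pt) (P : Bd X.pt) (P' : Bd X'.pt)
    (t : P.ι → P'.ι → Z.pt → ℂ) (V : Set Z.pt) (σ : P.ι → X.pt → ℂ) (σ' : P'.ι → X'.pt → ℂ) :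
    Prop :=
  ∀ x x' i j, f x ∈ V → f x ∉ A → f' x' = f x → x ∈ P.U i → x' ∈ P'.U j →
    σ' j x' = t i j (f x) * σ i x

/-- (D2) -/
theorem transport (hX : IsNormal 4 X) (h : IsSmall X Z f A) (h' : IsSmall X' Z f' A)
    {P : Bd X.pt} {P' : Bd X'.pt} (hP : IsLBx X P) (hP' : IsLBx X' P')
    {t : P.ι → P'.ι → Z.pt → ℂ} (ht : IsIso f f' A P P' t) {V : Set Z.pt} (hV : IsOpen V)
    {σ' : P'.ι → X'.pt → ℂ} (hσ : IsSecx X' (f' ⁻¹' V) P' σ') :
    ∃ σ : P.ι → X.pt → ℂ, IsSecx X (f ⁻¹' V) P σ ∧ Tr f f' A P P' t V σ σ' := by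
  classical
  -- a frame of P' at every point
  choose J hJ using hP'.cover
  -- the coefficient off A
  set c : P.ι → X.pt → ℂ := fun i x =>
    (t i (J (h'.sec (f x))) (f x))⁻¹ * σ' (J (h'.sec (f x))) (h'.sec (f x)) with hc
  have hrule : ∀ x x' i j, f x ∈ V → f x ∉ A → f' x' = f x → x ∈ P.U i → x' ∈ P'.U j →
      c i x = (t i j (f x))⁻¹ * σ' j x' := by
    intro x x' i j hxV hxA hxx' hi hj
    have e1 : h'.sec (f x) = x' := by rw [← hxx', h'.sec_apply (by rw [hxx']; exact hxA)]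
    have hj0 : x' ∈ P'.U (J x') := hJ x'
    have h2 := hσ.change j (J x') x' (by show f' x' ∈ V; rw [hxx']; exact hxV) hj hj0
    have h3 := ht.change x x' i i (J x') j hxA hxx' hi hi hj0 hj
    have h4 := (ht.holo x x' i j hxA hxx' hi hj).2
    have h5 := (ht.holo x x' i (J x') hxA hxx' hi hj0).2
    rw [IsLBx.one hP hi, one_mul] at h3
    simp only [hc, e1]
    rw [h2, h3]
    have h6 := hP'.ne_zero j (J x') x' hj hj0
    field_simp
  have hc_hol : ∀ i x, f x ∈ V → f x ∉ A → x ∈ P.U i → X.Hol (c i) x := by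
    intro i x hxV hxA hi
    obtain ⟨x', hx'⟩ := h'.surj (f x)
    have hj := hJ x'
    set j := J x' with hjdef
    -- near x the formula holds with this j
    have e1 : h'.sec (f x) = x' := by rw [← hx', h'.sec_apply (by rw [hx']; exact hxA)]
    have hcont : ContinuousAt (fun y => h'.sec (f y)) x :=
      ContinuousAt.comp (f := f) (g := h'.sec) (h'.holMap_sec hxA).1 h.cont.continuousAt
    have n1 : ∀ᶠ y in 𝓝 x, h'.sec (f y) ∈ P'.U j :=
      hcont.eventually_mem ((hP'.isOpen j).mem_nhds (by rw [e1]; exact hj))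
    have n2 : ∀ᶠ y in 𝓝 x, f y ∈ V := h.cont.continuousAt.eventually_mem (hV.mem_nhds hxV)
    have n3 : ∀ᶠ y in 𝓝 x, f y ∉ A :=
      h.cont.continuousAt.eventually_mem (h.isClosed.isOpen_compl.mem_nhds hxA)
    have n4 : ∀ᶠ y in 𝓝 x, y ∈ P.U i := (hP.isOpen i).mem_nhds hi
    have k1 : X.Hol (fun y => t i j (f y)) x :=
      h.holo x _ (ht.holo x x' i j hxA hx' hi hj).1
    have k2 : X'.Hol (σ' j) (h'.sec (f x)) := by
      rw [e1]
      exact hσ.holo j x' (by show f' x' ∈ V; rw [hx']; exact hxV) hj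
    have k3 : X.Hol (fun y => σ' j (h'.sec (f y))) x :=
      h.holo x _ ((h'.holMap_sec hxA).2 _ k2)
    refine hol_congr (hol_mul (hol_inv k1 (ht.holo x x' i j hxA hx' hi hj).2) k3) ?_
    filter_upwards [n1, n2, n3, n4] with y y1 y2 y3 y4
    exact hrule y (h'.sec (f y)) i j y2 y3 (h'.sec_eq _) y4 y1
  -- extension over A
  have hext : ∀ i, ∃ s : X.pt → ℂ, (∀ x ∈ f ⁻¹' V ∩ P.U i, X.Hol s x) ∧
      ∀ x ∈ (f ⁻¹' V ∩ P.U i) \ f ⁻¹' A, s x = c i x := by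
    intro i
    refine hX.ext (f ⁻¹' V ∩ P.U i) (f ⁻¹' A) ((hV.preimage h.cont).inter (hP.isOpen i))
      ((IsAn.preimage (fun x => h.holMap x) h.an).mono (subset_univ _))
      (h.dim.mono inter_subset_right) (c i) ?_
    rintro x ⟨⟨hxV, hi⟩, hxA⟩
    exact hc_hol i x hxV hxA hi
  choose σ hσ1 hσ2 using hext
  refine ⟨σ, ⟨fun i x hx hi => hσ1 i x ⟨hx, hi⟩, ?_⟩, ?_⟩
  · intro i j x hx hi hj
    -- continuity
    have hopen : IsOpen (f ⁻¹' V ∩ P.U i ∩ P.U j) :=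
      ((hV.preimage h.cont).inter (hP.isOpen i)).inter (hP.isOpen j)
    refine eqOn_of_dense hopen (dense_pre hX h) (g := σ i) (k := fun x => P.g i j x * σ j x)
      (hol_continuousOn fun y hy => hσ1 i y hy.1)
      (hol_continuousOn fun y hy => hol_mul (hP.holo i j y hy.1.2 hy.2) (hσ1 j y ⟨hy.1.1, hy.2⟩))
      ?_ x ⟨⟨hx, hi⟩, hj⟩
    rintro y ⟨⟨hyV, hyi⟩, hyj⟩ hyA
    obtain ⟨y', hy'⟩ := h'.surj (f y)
    have hl := hJ y'
    set l := J y'
    rw [hσ2 i y ⟨⟨hyV, hyi⟩, hyA⟩]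
    show c i y = P.g i j y * σ j y
    rw [hσ2 j y ⟨⟨hyV, hyj⟩, hyA⟩, hrule y y' i l hyV hyA hy' hyi hl,
      hrule y y' j l hyV hyA hy' hyj hl]
    have h1 := ht.change y y' i j l l hyA hy' hyi hyj hl hl
    have h2 := (ht.holo y y' i l hyA hy' hyi hl).2
    have h3 := hP.ne_zero i j y hyi hyj
    rw [IsLBx.one hP' hl, mul_one] at h1
    rw [h1]
    field_simp
  · intro x x' i j hxV hxA hxx' hi hj
    rw [hσ2 i x ⟨⟨hxV, hi⟩, hxA⟩, hrule x x' i j hxV hxA hxx' hi hj]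
    have h1 := (ht.holo x x' i j hxA hxx' hi hj).2
    field_simp

end Vale.Agent.P277.H615
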