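import Vale.Agent.P277.H615.OrdStep
import Vale.Agent.P277.H335.Jone

/-!
# P277, T2: flipped surfaces and exceptional divisors
-/

open scoped Manifold ContDiff Topology
open Vale.Agent.P272.K Vale.Agent.P285.H281.FD Vale.Agent.P267.H175 Set Filter Metric

noncomputable section

namespace Vale.Agent.P277.H615

open Vale.Agent.P277 Vale.Agent.P277.T2 Vale.Agent.P277.H335
open Vale.Agent.P277.H19 (exists_max_pow upd exists_div at_chartAt analyticAt_det)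

variable {Y : Type} [TopologicalSpace Y] [ChartedSpace (Cm 4) Y]

/-- the change of coordinates between two parametrisations (different hypersurfaces) -/
theorem exists_psi {G G' : Set Y} {ξ ξ' : Cm 4 → Y} {w₀ w₀' : Cm 4} {r r' : ℝ}
    (h : IsPar G ξ w₀ r) (h' : IsPar G' ξ' w₀' r') (heq : ξ w₀ = ξ' w₀') :
    ∃ ψ : Cm 4 → Cm 4, AnalyticAt ℂ ψ w₀ ∧ ψ w₀ = w₀' ∧ ∀ᶠ w in 𝓝 w₀, ξ' (ψ w) = ξ w := by
  have hw₀ : w₀ ∈ ball w₀ r := mem_ball_self h.pos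
  have hw₀' : w₀' ∈ ball w₀' r' := mem_ball_self h'.pos
  set e : Chart 4 Y := chartAt (Cm 4) (ξ w₀) with he
  have hat : At e (ξ w₀) := at_chartAt _
  have hat' : At e (ξ' w₀') := heq ▸ hat
  have hΞ := (h.an w₀ hw₀ e hat).1
  obtain ⟨hΞ', hdet⟩ := h'.an w₀' hw₀' e hat'
  have hinj : Function.Injective (fderiv ℂ (fun w => e (ξ' w)) w₀') := by
    have h1 : LinearMap.det (fderiv ℂ (fun w => e (ξ' w)) w₀' : Cm 4 →ₗ[ℂ] Cm 4) ≠ 0 := hdet
    exact (LinearMap.equivOfDetNeZero _ h1).injective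
  obtain ⟨θ, hθ, hθs, -, hθt⟩ := H73.exists_localInv hΞ' hinj
  have hval : θ w₀' = e (ξ w₀) := by rw [hθ, heq]
  have htar : e (ξ w₀) ∈ θ.target := hval ▸ θ.map_source hθs
  set ψ : Cm 4 → Cm 4 := fun w => θ.symm (e (ξ w)) with hψ
  have hψa : AnalyticAt ℂ ψ w₀ :=
    AnalyticAt.fun_comp (g := θ.symm) (f := fun w => e (ξ w)) (hθt _ htar) hΞ
  have hψ0 : ψ w₀ = w₀' := by
    simp only [hψ, ← hval]
    exact θ.left_inv hθs
  have hev1 : ∀ᶠ w in 𝓝 w₀, e (ξ w) ∈ θ.target :=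
    hΞ.continuousAt.eventually_mem (θ.open_target.mem_nhds htar)
  have hev2 : ∀ᶠ w in 𝓝 w₀, ξ w ∈ e.source :=
    (h.cont w₀ hw₀).eventually_mem (e.open_source.mem_nhds hat.2)
  have hc : ContinuousAt (fun w => ξ' (ψ w)) w₀ := by
    refine ContinuousAt.comp (g := ξ') (f := ψ) ?_ hψa.continuousAt
    rw [hψ0]; exact h'.cont w₀' hw₀'
  have hev3 : ∀ᶠ w in 𝓝 w₀, ξ' (ψ w) ∈ e.source := hc.eventually_mem (by
    rw [hψ0]; exact e.open_source.mem_nhds hat'.2)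
  refine ⟨ψ, hψa, hψ0, ?_⟩
  filter_upwards [hev1, hev2, hev3] with w h1 h2 h3
  refine e.injOn h3 h2 ?_
  have h4 : e (ξ' (ψ w)) = θ (ψ w) := by rw [hθ]
  rw [h4]
  exact θ.right_inv h1

/-- coordinates which map `{w 0 = 0}` into a smooth hypersurface `G` -/
theorem exists_isPar {G G₂ : Set Y} (hG : IsHyp G) {ξ : Cm 4 → Y} {w₀ : Cm 4} {r : ℝ}
    (h : IsPar G₂ ξ w₀ r) (hsub : ∀ᶠ w in 𝓝 w₀, w 0 = 0 → ξ w ∈ G) :
    ∃ r₁ > 0, ball w₀ r₁ ⊆ ball w₀ r ∧ IsPar G ξ w₀ r₁ := by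
  have hw₀ : w₀ ∈ ball w₀ r := mem_ball_self h.pos
  obtain ⟨ξ', w₀', r', h', heq⟩ := hG (ξ w₀) (hsub.self_of_nhds h.zero)
  have hw₀' : w₀' ∈ ball w₀' r' := mem_ball_self h'.pos
  obtain ⟨ψ, hψ, hψ0, hψξ⟩ := exists_psi h h' heq.symm
  obtain ⟨κ, hκ, hκ0, hκξ⟩ := exists_psi h' h heq
  have htψ : Tendsto ψ (𝓝 w₀) (𝓝 w₀') := by
    have := hψ.continuousAt.tendsto
    rwa [hψ0] at this
  have htκ : Tendsto κ (𝓝 w₀') (𝓝 w₀) := by
    have := hκ.continuousAt.tendsto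
    rwa [hκ0] at this
  have hκψ : (fun w => κ (ψ w)) =ᶠ[𝓝 w₀] id := by
    filter_upwards [isOpen_ball.mem_nhds hw₀,
      (htκ.comp htψ).eventually (isOpen_ball.mem_nhds hw₀), hψξ, htψ.eventually hκξ] with w h1 h2 h3 h4
    have h5 : ξ (κ (ψ w)) = ξ w := by rw [h4, h3]
    exact h.inj h2 h1 h5
  -- `ψ w 0 = w 0 * u w`
  have hψ0a : AnalyticAt ℂ (fun w => ψ w 0) w₀ := (analyticAt_pi_iff.1 hψ) 0
  have hz : ∀ᶠ w in 𝓝 w₀, w 0 = 0 → ψ w 0 = 0 := by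
    filter_upwards [hψξ, htψ.eventually (isOpen_ball.mem_nhds hw₀'), hsub] with w h1 h2 h3 h4
    rw [← h'.mem _ h2, h1]
    exact h3 h4
  obtain ⟨u, hu, huψ⟩ := exists_div hψ0a h.zero hz
  have hune : u w₀ ≠ 0 := by
    intro hu0
    -- derivative of `ψ · 0`
    have d1 : HasFDerivAt (fun w => ψ w 0) (0 : Cm 4 →L[ℂ] ℂ) w₀ := by
      have d2 : HasFDerivAt (fun w : Cm 4 => w 0 * u w)
          (w₀ 0 • fderiv ℂ u w₀ + u w₀ • ContinuousLinearMap.proj (R := ℂ) (φ := fun _ : Fin 4 => ℂ) 0)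
          w₀ := by
        have d3 : HasFDerivAt (fun w : Cm 4 => w 0)
            (ContinuousLinearMap.proj (R := ℂ) (φ := fun _ : Fin 4 => ℂ) 0) w₀ :=
          (ContinuousLinearMap.proj (R := ℂ) (φ := fun _ : Fin 4 => ℂ) 0).hasFDerivAt
        exact d3.mul hu.differentiableAt.hasFDerivAt
      have d4 : (w₀ 0 • fderiv ℂ u w₀ + u w₀ •
          (ContinuousLinearMap.proj (R := ℂ) (φ := fun _ : Fin 4 => ℂ) 0 : Cm 4 →L[ℂ] ℂ)) = 0 := by
        ext x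
        simp [h.zero, hu0]
      rw [d4] at d2
      exact d2.congr_of_eventuallyEq huψ
    have d4 : HasFDerivAt ψ (fderiv ℂ ψ w₀) w₀ := hψ.differentiableAt.hasFDerivAt
    have d5 : HasFDerivAt (fun w => ψ w 0)
        ((ContinuousLinearMap.proj (R := ℂ) (φ := fun _ : Fin 4 => ℂ) 0).comp (fderiv ℂ ψ w₀)) w₀ :=
      (ContinuousLinearMap.proj (R := ℂ) (φ := fun _ : Fin 4 => ℂ) 0).hasFDerivAt.comp w₀ d4
    have d6 := d5.unique d1
    have d7 : (fderiv ℂ κ (ψ w₀)).comp (fderiv ℂ ψ w₀) = ContinuousLinearMap.id ℂ (Cm 4) := by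
      have d8 : HasFDerivAt (fun w => κ (ψ w)) ((fderiv ℂ κ (ψ w₀)).comp (fderiv ℂ ψ w₀)) w₀ := by
        have d9 : HasFDerivAt κ (fderiv ℂ κ (ψ w₀)) (ψ w₀) := by
          rw [hψ0]; exact hκ.differentiableAt.hasFDerivAt
        exact d9.comp w₀ d4
      exact d8.unique ((hasFDerivAt_id w₀).congr_of_eventuallyEq hκψ)
    have hinj : Function.Injective (fderiv ℂ ψ w₀ : Cm 4 →ₗ[ℂ] Cm 4) := by
      intro x y hxy
      have h1 := congrArg (fun L : Cm 4 →L[ℂ] Cm 4 => L x) d7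
      have h2 := congrArg (fun L : Cm 4 →L[ℂ] Cm 4 => L y) d7
      simp only [ContinuousLinearMap.comp_apply, ContinuousLinearMap.id_apply] at h1 h2
      have hxy' : fderiv ℂ ψ w₀ x = fderiv ℂ ψ w₀ y := hxy
      rw [← h1, ← h2, hxy']
    have hsurj := LinearMap.injective_iff_surjective.1 hinj
    obtain ⟨x, hx⟩ := hsurj (Pi.single 0 1)
    have h3 := congrArg (fun L : Cm 4 →L[ℂ] ℂ => L x) d6
    have hx' : fderiv ℂ ψ w₀ x = Pi.single 0 1 := hx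
    simp [hx'] at h3
  have hune' : ∀ᶠ w in 𝓝 w₀, u w ≠ 0 := hu.continuousAt.eventually_ne hune
  obtain ⟨r₁, hr₁, hball⟩ := Metric.eventually_nhds_iff_ball.1
    ((isOpen_ball.eventually_mem hw₀).and (hsub.and (hψξ.and
      ((htψ.eventually (isOpen_ball.mem_nhds hw₀')).and (huψ.and hune')))))
  have hs : ball w₀ r₁ ⊆ ball w₀ r := fun w hw => (hball w hw).1
  refine ⟨r₁, hr₁, hs, hr₁, h.zero, h.inj.mono hs, fun W hW => h.openMap W (hW.trans hs),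
    fun w hw => h.cont w (hs hw), fun w hw => h.an w (hs hw), ?_⟩
  intro w hw
  obtain ⟨-, h1, h2, h3, h4, h5⟩ := hball w hw
  refine ⟨fun hG' => ?_, h1⟩
  rw [← h2, h'.mem _ h3, h4] at hG'
  exact (mul_eq_zero.1 hG').resolve_right h5

omit [ChartedSpace (Cm 4) Y] in
/-- a finite closed cover of a piece of the hyperplane -/
theorem exists_cover_mem {n : ℕ} {G : Fin n → Set Y} (hG : ∀ l, IsClosed (G l)) {γ₀ : Cm 4 → Y}
    (s : Finset (Fin n)) : ∀ (U : Set (Cm 4)), IsOpen U → (∀ w ∈ U, ContinuousAt γ₀ w) →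
    (∃ w ∈ U, w 0 = 0) → (∀ w ∈ U, w 0 = 0 → ∃ l ∈ s, γ₀ w ∈ G l) →
    ∃ l, ∃ U' ⊆ U, IsOpen U' ∧ (∃ w ∈ U', w 0 = 0) ∧ ∀ w ∈ U', w 0 = 0 → γ₀ w ∈ G l := by
  classical
  induction s using Finset.induction_on with
  | empty =>
    rintro U - - ⟨w, hw, hw0⟩ h
    obtain ⟨l, hl, -⟩ := h w hw hw0
    simp at hl
  | insert a s ha ih =>
    intro U hU hc hne h
    by_cases hall : ∀ w ∈ U, w 0 = 0 → γ₀ w ∈ G a
    · exact ⟨a, U, subset_rfl, hU, hne, hall⟩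
    · push Not at hall
      obtain ⟨w, hw, hw0, hwa⟩ := hall
      have hc' : ContinuousOn γ₀ U := fun w hw => (hc w hw).continuousWithinAt
      obtain ⟨l, U', hU', k1, k2, k3⟩ := ih (U ∩ γ₀ ⁻¹' (G a)ᶜ)
        (hc'.isOpen_inter_preimage hU (hG a).isOpen_compl) (fun w hw => hc w hw.1)
        ⟨w, ⟨hw, hwa⟩, hw0⟩ (by
          rintro z ⟨hz, hza⟩ hz0
          obtain ⟨l, hl, hzl⟩ := h z hz hz0
          rcases Finset.mem_insert.1 hl with rfl | hl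
          · exact (hza hzl).elim
          · exact ⟨l, hl, hzl⟩)
      exact ⟨l, U', hU'.trans inter_subset_left, k1, k2, k3⟩

end Vale.Agent.P277.H615
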