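import Vale.Agent.P277.H615.Par
import Vale.Agent.P277.H335.Tower

/-!
# P277, T2: the order of the comparison function along an exceptional divisor
-/

open scoped Manifold ContDiff Topology
open Vale.Agent.P272.K Vale.Agent.P285.H281.FD Vale.Agent.P267.H175 Set Filter Metric

noncomputable section

namespace Vale.Agent.P277.H615

open Vale.Agent.P277 Vale.Agent.P277.T2 Vale.Agent.P277.H19

variable {Y : Type} [TopologicalSpace Y] [ChartedSpace (Cm 4) Y]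

/-- `ξ` is a parametrisation of `Y` and `G`, `γ` is the extension of the map `v ∘ ξ`, and `T ^ K` is
equal to `w 0 ^ ν` times `F`, in the frames `i` and `c`. -/
structure NiceAt {X : CSp} {N : Bd Y} {L : Bd X.pt} (O : Set Y) (v : Y → X.pt)
    (T : L.ι → N.ι → Y → ℂ) (G : Set Y) (ξ : Cm 4 → Y) (w₀ : Cm 4) (r : ℝ) (γ : Cm 4 → X.pt)
    (i : L.ι) (c : N.ι) (F : Cm 4 → ℂ) (ν K : ℕ) : Prop where
  par : IsPar G ξ w₀ r
  hK : 1 ≤ K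
  hol : ∀ w ∈ ball w₀ r, HolAt X γ w
  memU : ∀ w ∈ ball w₀ r, γ w ∈ L.U i
  memN : ∀ w ∈ ball w₀ r, ξ w ∈ N.U c
  eq : ∀ w ∈ ball w₀ r, ξ w ∈ O → γ w = v (ξ w)
  an : ∀ w ∈ ball w₀ r, AnalyticAt ℂ F w
  rel : ∀ w ∈ ball w₀ r, ξ w ∈ O → w 0 ^ ν * F w = T i c (ξ w) ^ K
  ne : ∃ w ∈ ball w₀ r, w 0 = 0 ∧ F w ≠ 0

/-- continuity of the transition functions -/
structure CtBd (N : Bd Y) : Prop where
  isOpen : ∀ i, IsOpen (N.U i)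
  cover : ∀ x, ∃ i, x ∈ N.U i
  cont : ∀ i j x, x ∈ N.U i → x ∈ N.U j → ContinuousAt (N.g i j) x
  ne_zero : ∀ i j x, x ∈ N.U i → x ∈ N.U j → N.g i j x ≠ 0

variable {X : CSp} {N : Bd Y} {L : Bd X.pt} {O : Set Y} {v : Y → X.pt} {T : L.ι → N.ι → Y → ℂ}
  {G : Set Y} {ξ ξ' : Cm 4 → Y} {w₀ w₀' : Cm 4} {r r' : ℝ} {γ γ' : Cm 4 → X.pt} {i i' : L.ι}
  {c c' : N.ι} {F F' : Cm 4 → ℂ} {ν ν' K K' : ℕ}

theorem NiceAt.restrict (h : NiceAt O v T G ξ w₀ r γ i c F ν K) {w₁ : Cm 4} {r₁ : ℝ}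
    (h0 : w₁ 0 = 0) (hr : 0 < r₁) (hs : ball w₁ r₁ ⊆ ball w₀ r) :
    NiceAt O v T G ξ w₁ r₁ γ i c F ν K where
  par := h.par.restrict h0 hr hs
  hK := h.hK
  hol w hw := h.hol w (hs hw)
  memU w hw := h.memU w (hs hw)
  memN w hw := h.memN w (hs hw)
  eq w hw := h.eq w (hs hw)
  an w hw := h.an w (hs hw)
  rel w hw := h.rel w (hs hw)
  ne := by
    obtain ⟨w₂, h1, h2, h3⟩ := h.ne
    have h4 := freq_ne h.par.zero h.an h1 h2 (hs (mem_ball_self hr)) h0 h3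
    obtain ⟨w, ⟨h5, h6⟩, h7⟩ := (h4.and_eventually (isOpen_ball.mem_nhds (mem_ball_self hr))).exists
    exact ⟨w, h7, h5, h6⟩

theorem NiceAt.freq (h : NiceAt O v T G ξ w₀ r γ i c F ν K) {w : Cm 4} (hw : w ∈ ball w₀ r)
    (h0 : w 0 = 0) : ∃ᶠ w in 𝓝 w, w 0 = 0 ∧ F w ≠ 0 := by
  obtain ⟨w₂, h1, h2, h3⟩ := h.ne
  exact freq_ne h.par.zero h.an h1 h2 hw h0 h3

/-- one half of the uniqueness of the order -/
theorem NiceAt.not_lt (hO : Dense O) (hOG : Disjoint O G) {P Q : ℕ} (hL : IsLBx X (L.pow P))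
    (hN : CtBd N) (hT : IsIsoY O v (L.pow P) (N.pow Q) T)
    (h : NiceAt O v T G ξ w₀ r γ i c F ν K)
    (h' : NiceAt O v T G ξ' w₀' r' γ' i' c' F' ν' K') (heq : ξ w₀ = ξ' w₀') :
    ¬ ν * K' < ν' * K := by
  intro hlt
  have hw₀ : w₀ ∈ ball w₀ r := mem_ball_self h.par.pos
  have hw₀' : w₀' ∈ ball w₀' r' := mem_ball_self h'.par.pos
  obtain ⟨ψ, C, hψ, hψ0, hψξ, hC, hb⟩ := exists_trans' h.par h'.par heq
  have htψ : Tendsto ψ (𝓝 w₀) (𝓝 w₀') := by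
    have := hψ.continuousAt.tendsto
    rwa [hψ0] at this
  -- the point `w₁`
  have hFF : AnalyticAt ℂ (fun w => F' (ψ w)) w₀ :=
    AnalyticAt.fun_comp (g := F') (by rw [hψ0]; exact h'.an _ hw₀') hψ
  have hz' : ∃ᶠ w in 𝓝 w₀, w 0 = 0 ∧ F' (ψ w) ≠ 0 := by
    obtain ⟨ψ', C', hψ', hψ0', hψξ', hC', hb'⟩ := exists_trans' h'.par h.par heq.symm
    have htψ' : Tendsto ψ' (𝓝 w₀') (𝓝 w₀) := by
      have := hψ'.continuousAt.tendsto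
      rwa [hψ0'] at this
    -- `ψ (ψ' w) = w`
    have h1 : ∀ᶠ w in 𝓝 w₀', ψ (ψ' w) = w := by
      have h2 : Tendsto (fun w => ψ (ψ' w)) (𝓝 w₀') (𝓝 w₀') := htψ.comp htψ'
      filter_upwards [h2.eventually (isOpen_ball.mem_nhds hw₀'), isOpen_ball.mem_nhds hw₀',
        hψξ', htψ'.eventually hψξ] with w k1 k2 k3 k4
      exact h'.par.inj k1 k2 (by rw [k4, k3])
    have h3 := (h'.freq hw₀' h'.par.zero).and_eventually (h1.and (hb'.and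
      (isOpen_ball.mem_nhds hw₀')))
    have h4 : ∃ᶠ w in 𝓝 w₀', ψ' w 0 = 0 ∧ F' (ψ (ψ' w)) ≠ 0 := by
      refine h3.mono ?_
      rintro w ⟨⟨k1, k2⟩, k3, ⟨k4, k5⟩, k6⟩
      refine ⟨?_, by rw [k3]; exact k2⟩
      rw [k1, norm_zero, mul_zero] at k4
      exact norm_le_zero_iff.1 k4
    exact htψ'.frequently h4
  have hfr := freq_mul h.par.zero (h.an _ hw₀) hFF (h.freq hw₀ h.par.zero) hz'
  -- points near `w₀`
  have hev : ∀ᶠ w in 𝓝 w₀, w ∈ ball w₀ r ∧ ψ w ∈ ball w₀' r' ∧ ξ' (ψ w) = ξ w ∧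
      ContinuousAt ψ w ∧ (‖ψ w 0‖ ≤ C * ‖w 0‖ ∧ ‖w 0‖ ≤ C * ‖ψ w 0‖) := by
    filter_upwards [isOpen_ball.mem_nhds hw₀, htψ.eventually (isOpen_ball.mem_nhds hw₀'), hψξ,
      hψ.eventually_analyticAt, hb] with w k1 k2 k3 k4 k5
    exact ⟨k1, k2, k3, k4.continuousAt, k5⟩
  obtain ⟨w₁, ⟨hw₁0, hF₁, hF₁'⟩, hw₁⟩ := (hfr.and_eventually hev.eventually_nhds).exists
  obtain ⟨g1, g2, g3, g4, g5, g6⟩ := hw₁.self_of_nhds
  -- the filter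
  set l : Filter (Cm 4) := 𝓝 w₁ ⊓ 𝓟 {w | ξ w ∈ O} with hl
  have hne : l.NeBot := by
    rw [hl, inf_principal_neBot_iff]
    intro U hU
    obtain ⟨w', k1, -, k2⟩ := IsPar.dense h.par hO g1 hU
    exact ⟨w', k1, k2⟩
  have hln : l ≤ 𝓝 w₁ := inf_le_left
  have hγeq : γ w₁ = γ' (ψ w₁) := by
    have k1 : Tendsto γ l (𝓝 (γ w₁)) := (h.hol _ g1).1.mono_left hln
    have k2 : Tendsto (fun w => γ' (ψ w)) l (𝓝 (γ' (ψ w₁))) :=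
      (ContinuousAt.comp (g := γ') (f := ψ) (h'.hol _ g2).1 g4).mono_left hln
    refine tendsto_nhds_unique k1 (k2.congr' ?_)
    have k3 : ∀ᶠ w in l, ξ w ∈ O := (mem_inf_of_right (mem_principal_self _) : {w | ξ w ∈ O} ∈ l)
    filter_upwards [k3, hln hw₁] with w k4 k5
    rw [h.eq w k5.1 k4, h'.eq _ k5.2.1 (by rw [k5.2.2.1]; exact k4), k5.2.2.1]
  have hmem : γ w₁ ∈ L.U i ∩ L.U i' := ⟨h.memU _ g1, by rw [hγeq]; exact h'.memU _ g2⟩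
  have hmemN : ξ w₁ ∈ N.U c' ∩ N.U c := ⟨by rw [← g3]; exact h'.memN _ g2, h.memN _ g1⟩
  -- limits
  have t1 : Tendsto (fun w => ‖(L.g i i' (γ w)) ^ P‖ ^ (K * K')) l
      (𝓝 (‖(L.g i i' (γ w₁)) ^ P‖ ^ (K * K'))) := by
    have k1 : ContinuousAt (fun x => L.g i i' x ^ P) (γ w₁) :=
      hol_continuousAt (hL.holo i i' _ hmem.1 hmem.2)
    exact (((ContinuousAt.comp (g := fun x => L.g i i' x ^ P) (f := γ) k1
      (h.hol _ g1).1).norm).pow _).mono_left hln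
  have t2 : Tendsto (fun w => ‖(N.g c' c (ξ w)) ^ Q‖ ^ (K * K')) l
      (𝓝 (‖(N.g c' c (ξ w₁)) ^ Q‖ ^ (K * K'))) := by
    have k1 : ContinuousAt (fun x => N.g c' c x ^ Q) (ξ w₁) :=
      (hN.cont c' c _ hmemN.1 hmemN.2).pow Q
    exact (((ContinuousAt.comp (g := fun x => N.g c' c x ^ Q) (f := ξ) k1
      (h.par.cont _ g1)).norm).pow _).mono_left hln
  have t3 : Tendsto (fun w => ‖F w‖ ^ K') l (𝓝 (‖F w₁‖ ^ K')) :=
    (((h.an _ g1).continuousAt.norm).pow _).mono_left hln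
  have t4 : Tendsto (fun w => ‖F' (ψ w)‖ ^ K) l (𝓝 (‖F' (ψ w₁)‖ ^ K)) :=
    (((ContinuousAt.comp (g := F') (f := ψ) (h'.an _ g2).continuousAt g4).norm).pow _).mono_left hln
  have t5 : Tendsto (fun w : Cm 4 => C ^ (ν' * K) * ‖w 0‖ ^ (ν' * K - ν * K')) l (𝓝 0) := by
    have k1 : ContinuousAt (fun w : Cm 4 => C ^ (ν' * K) * ‖w 0‖ ^ (ν' * K - ν * K')) w₁ :=
      (continuous_const.mul ((continuous_apply (0 : Fin 4)).norm.pow _)).continuousAt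
    have k2 := k1.tendsto
    simp only [hw₁0, norm_zero] at k2
    rw [zero_pow (by omega), mul_zero] at k2
    exact k2.mono_left hln
  have hle : ∀ᶠ w in l, ‖(L.g i i' (γ w)) ^ P‖ ^ (K * K') * ‖(N.g c' c (ξ w)) ^ Q‖ ^ (K * K') *
      ‖F w‖ ^ K' ≤ C ^ (ν' * K) * ‖w 0‖ ^ (ν' * K - ν * K') * ‖F' (ψ w)‖ ^ K := by
    have k3 : ∀ᶠ w in l, ξ w ∈ O := (mem_inf_of_right (mem_principal_self _) : {w | ξ w ∈ O} ∈ l)
    have k0 : ∀ᶠ w in l, γ w ∈ L.U i' ∧ ξ w ∈ N.U c' := by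
      refine hln ?_
      -- `L.U i'` is open
      exact ((h.hol _ g1).1.eventually_mem ((hL.isOpen i').mem_nhds hmem.2)).and
        ((h.par.cont _ g1).eventually_mem ((hN.isOpen c').mem_nhds hmemN.1))
    filter_upwards [k3, hln hw₁, k0] with w k4 k5 k6
    obtain ⟨q1, q2, q3, -, q5, -⟩ := k5
    have q4 : ξ' (ψ w) ∈ O := by rw [q3]; exact k4
    have q6 := h.rel w q1 k4
    have q7 := h'.rel _ q2 q4
    rw [q3] at q7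
    have q8 : v (ξ w) = γ w := (h.eq w q1 k4).symm
    have q9 : T i' c' (ξ w) = L.g i i' (v (ξ w)) ^ P * T i c (ξ w) * N.g c' c (ξ w) ^ Q :=
      hT.change (ξ w) k4 i i' c c' (by rw [q8]; exact h.memU _ q1) (by rw [q8]; exact k6.1)
        (h.memN _ q1) k6.2
    rw [q8] at q9
    have hw0 : w 0 ≠ 0 := fun h0 => disjoint_left.1 hOG k4 ((h.par.mem w q1).2 h0)
    have hpos : 0 < ‖w 0‖ := norm_pos_iff.2 hw0
    -- the identity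
    have e1 : ‖ψ w 0‖ ^ (ν' * K) * ‖F' (ψ w)‖ ^ K = ‖(L.g i i' (γ w)) ^ P‖ ^ (K * K') *
        ‖(N.g c' c (ξ w)) ^ Q‖ ^ (K * K') * (‖w 0‖ ^ (ν * K') * ‖F w‖ ^ K') := by
      have e2 : (‖ψ w 0‖ ^ ν' * ‖F' (ψ w)‖) ^ K = (‖T i' c' (ξ w)‖ ^ K') ^ K := by
        rw [← norm_pow, ← norm_mul, q7, norm_pow]
      have e3 : (‖w 0‖ ^ ν * ‖F w‖) ^ K' = (‖T i c (ξ w)‖ ^ K) ^ K' := by
        rw [← norm_pow, ← norm_mul, q6, norm_pow]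
      have e4 : ‖T i' c' (ξ w)‖ = ‖(L.g i i' (γ w)) ^ P‖ * ‖T i c (ξ w)‖ *
          ‖(N.g c' c (ξ w)) ^ Q‖ := by rw [q9, norm_mul, norm_mul]
      calc ‖ψ w 0‖ ^ (ν' * K) * ‖F' (ψ w)‖ ^ K = (‖ψ w 0‖ ^ ν' * ‖F' (ψ w)‖) ^ K := by
            rw [mul_pow, ← pow_mul]
        _ = (‖T i' c' (ξ w)‖ ^ K') ^ K := e2
        _ = ‖(L.g i i' (γ w)) ^ P‖ ^ (K * K') * ‖(N.g c' c (ξ w)) ^ Q‖ ^ (K * K') *
            (‖T i c (ξ w)‖ ^ K) ^ K' := by rw [e4]; ring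
        _ = ‖(L.g i i' (γ w)) ^ P‖ ^ (K * K') * ‖(N.g c' c (ξ w)) ^ Q‖ ^ (K * K') *
            (‖w 0‖ ^ (ν * K') * ‖F w‖ ^ K') := by rw [← e3, mul_pow, ← pow_mul]
    have e5 : ‖ψ w 0‖ ^ (ν' * K) ≤ C ^ (ν' * K) * ‖w 0‖ ^ (ν' * K) := by
      rw [← mul_pow]
      exact pow_le_pow_left₀ (norm_nonneg _) q5 _
    have e6 : ‖w 0‖ ^ (ν' * K) = ‖w 0‖ ^ (ν * K') * ‖w 0‖ ^ (ν' * K - ν * K') := by
      rw [← pow_add]; congr 1; omega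
    have e7 : ‖w 0‖ ^ (ν * K') * (‖(L.g i i' (γ w)) ^ P‖ ^ (K * K') *
        ‖(N.g c' c (ξ w)) ^ Q‖ ^ (K * K') * ‖F w‖ ^ K') ≤ ‖w 0‖ ^ (ν * K') *
        (C ^ (ν' * K) * ‖w 0‖ ^ (ν' * K - ν * K') * ‖F' (ψ w)‖ ^ K) := by
      calc ‖w 0‖ ^ (ν * K') * (‖(L.g i i' (γ w)) ^ P‖ ^ (K * K') *
            ‖(N.g c' c (ξ w)) ^ Q‖ ^ (K * K') * ‖F w‖ ^ K') =
            ‖ψ w 0‖ ^ (ν' * K) * ‖F' (ψ w)‖ ^ K := by rw [e1]; ring
        _ ≤ (C ^ (ν' * K) * ‖w 0‖ ^ (ν' * K)) * ‖F' (ψ w)‖ ^ K :=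
            mul_le_mul_of_nonneg_right e5 (by positivity)
        _ = _ := by rw [e6]; ring
    exact le_of_mul_le_mul_left e7 (by positivity)
  have hlim := le_of_tendsto_of_tendsto ((t1.mul t2).mul t3) (t5.mul t4) hle
  rw [zero_mul] at hlim
  have p1 : 0 < ‖(L.g i i' (γ w₁)) ^ P‖ := norm_pos_iff.2 (hL.ne_zero i i' _ hmem.1 hmem.2)
  have p2 : 0 < ‖(N.g c' c (ξ w₁)) ^ Q‖ :=
    norm_pos_iff.2 (pow_ne_zero _ (hN.ne_zero c' c _ hmemN.1 hmemN.2))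
  have p3 : 0 < ‖F w₁‖ := norm_pos_iff.2 hF₁
  have p4 : 0 < ‖(L.g i i' (γ w₁)) ^ P‖ ^ (K * K') * ‖(N.g c' c (ξ w₁)) ^ Q‖ ^ (K * K') *
      ‖F w₁‖ ^ K' := by positivity
  exact absurd hlim (not_le.2 p4)

/-- the order is unique -/
theorem NiceAt.unique (hO : Dense O) (hOG : Disjoint O G) {P Q : ℕ} (hL : IsLBx X (L.pow P))
    (hN : CtBd N) (hT : IsIsoY O v (L.pow P) (N.pow Q) T)
    (h : NiceAt O v T G ξ w₀ r γ i c F ν K)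
    (h' : NiceAt O v T G ξ' w₀' r' γ' i' c' F' ν' K') (heq : ξ w₀ = ξ' w₀') :
    ν * K' = ν' * K :=
  le_antisymm (_root_.not_lt.1 (h'.not_lt hO hOG hL hN hT h heq.symm))
    (_root_.not_lt.1 (h.not_lt hO hOG hL hN hT h' heq))

end Vale.Agent.P277.H615
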