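import Vale.Agent.P277.H615.Up
import Vale.Agent.P277.H615.Tw2Base
import Vale.Agent.P277.H622.B1

/-!
# P277, T2: the orders along the exceptional divisors, and their behaviour under a flip
-/

open scoped Manifold ContDiff Topology
open Vale.Agent.P272.K Vale.Agent.P285.H281.FD Vale.Agent.P267.H175 Set Filter Metric

noncomputable section

namespace Vale.Agent.P277.H615

open Vale.Agent.P277 Vale.Agent.P277.T2 Vale.Agent.P277.H335
open Vale.Agent.P277.H19 (exists_max_pow upd)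

variable {Y : Type} [TopologicalSpace Y] [ChartedSpace (Cm 4) Y]

/-- the points of `G` near which the map to `X` extends -/
def NS {X : CSp} {N : Bd Y} {L : Bd X.pt} (O : Set Y) (v : Y → X.pt) (T : L.ι → N.ι → Y → ℂ)
    (G : Set Y) : Set Y :=
  {y | y ∈ G ∧ ∃ ξ w₀ r γ i c F ν K, NiceAt O v T G ξ w₀ r γ i c F ν K ∧ ξ w₀ = y}

section
variable {X : CSp} {N : Bd Y} {L : Bd X.pt} {O : Set Y}
  {v : Y → X.pt} {P Q : ℕ} {T : L.ι → N.ι → Y → ℂ}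
  {G : Set Y} {ξ ξ' : Cm 4 → Y} {w₀ w₀' : Cm 4} {r r' : ℝ} {γ γ' : Cm 4 → X.pt} {i i' : L.ι}
  {c c' : N.ι} {F F' : Cm 4 → ℂ} {ν ν' K K' : ℕ}

theorem NiceAt.isOpen_image (h : NiceAt O v T G ξ w₀ r γ i c F ν K) : IsOpen (ξ '' ball w₀ r) :=
  h.par.openMap _ subset_rfl isOpen_ball

theorem exists_ball_sub {w₀ w : Cm 4} {r : ℝ} (hw : w ∈ ball w₀ r) :
    ∃ r₁ > 0, ball w r₁ ⊆ ball w₀ r := Metric.isOpen_iff.1 isOpen_ball w hw

/-- a datum can be recentred at the points of `G` -/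
theorem NiceAt.at (h : NiceAt O v T G ξ w₀ r γ i c F ν K) {w : Cm 4} (hw : w ∈ ball w₀ r)
    (hG : ξ w ∈ G) : ∃ r₁, ball w r₁ ⊆ ball w₀ r ∧ NiceAt O v T G ξ w r₁ γ i c F ν K := by
  obtain ⟨r₁, hr₁, hs⟩ := exists_ball_sub hw
  exact ⟨r₁, hs, h.restrict ((h.par.mem w hw).1 hG) hr₁ hs⟩

theorem NiceAt.image_sub (h : NiceAt O v T G ξ w₀ r γ i c F ν K) :
    ξ '' ball w₀ r ∩ G ⊆ NS O v T G := by
  rintro _ ⟨⟨w, hw, rfl⟩, hG⟩
  obtain ⟨r₁, -, h1⟩ := h.at hw hG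
  exact ⟨hG, _, _, _, _, _, _, _, _, _, h1, rfl⟩

/-- the order is constant if the set of good points is connected -/
theorem NiceAt.const (hO : Dense O) (hOG : Disjoint O G) (hL : IsLBx X (L.pow P))
    (hN : CtBd N) (hT : IsIsoY O v (L.pow P) (N.pow Q) T) (hconn : IsPreconnected (NS O v T G))
    (h : NiceAt O v T G ξ w₀ r γ i c F ν K)
    (h' : NiceAt O v T G ξ' w₀' r' γ' i' c' F' ν' K') : ν * K' = ν' * K := by
  by_contra hne
  -- open sets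
  let U : Set Y := {y | ∃ ξ₁ w₁ r₁ γ₁ i₁ c₁ F₁ ν₁ K₁, NiceAt O v T G ξ₁ w₁ r₁ γ₁ i₁ c₁ F₁ ν₁ K₁ ∧
    ν * K₁ = ν₁ * K ∧ y ∈ ξ₁ '' ball w₁ r₁}
  let V : Set Y := {y | ∃ ξ₁ w₁ r₁ γ₁ i₁ c₁ F₁ ν₁ K₁, NiceAt O v T G ξ₁ w₁ r₁ γ₁ i₁ c₁ F₁ ν₁ K₁ ∧
    ν * K₁ ≠ ν₁ * K ∧ y ∈ ξ₁ '' ball w₁ r₁}
  have hU : IsOpen U := by
    have : U = ⋃ (ξ₁) (w₁) (r₁) (γ₁) (i₁) (c₁) (F₁) (ν₁) (K₁)
        (_ : NiceAt O v T G ξ₁ w₁ r₁ γ₁ i₁ c₁ F₁ ν₁ K₁ ∧ ν * K₁ = ν₁ * K), ξ₁ '' ball w₁ r₁ := by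
      ext y
      simp only [U, mem_ofPred_eq, mem_iUnion, exists_prop, and_assoc]
    rw [this]
    iterate 9 refine isOpen_iUnion fun _ => ?_
    exact isOpen_iUnion fun h1 => h1.1.isOpen_image
  have hV : IsOpen V := by
    have : V = ⋃ (ξ₁) (w₁) (r₁) (γ₁) (i₁) (c₁) (F₁) (ν₁) (K₁)
        (_ : NiceAt O v T G ξ₁ w₁ r₁ γ₁ i₁ c₁ F₁ ν₁ K₁ ∧ ν * K₁ ≠ ν₁ * K), ξ₁ '' ball w₁ r₁ := by
      ext y
      simp only [V, mem_ofPred_eq, mem_iUnion, exists_prop, and_assoc]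
    rw [this]
    iterate 9 refine isOpen_iUnion fun _ => ?_
    exact isOpen_iUnion fun h1 => h1.1.isOpen_image
  have hcov : NS O v T G ⊆ U ∪ V := by
    rintro y ⟨-, ξ₁, w₁, r₁, γ₁, i₁, c₁, F₁, ν₁, K₁, h1, rfl⟩
    by_cases hc : ν * K₁ = ν₁ * K
    · exact Or.inl ⟨_, _, _, _, _, _, _, _, _, h1, hc, w₁, mem_ball_self h1.par.pos, rfl⟩
    · exact Or.inr ⟨_, _, _, _, _, _, _, _, _, h1, hc, w₁, mem_ball_self h1.par.pos, rfl⟩
  have hw₀ := mem_ball_self (x := w₀) h.par.pos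
  have hw₀' := mem_ball_self (x := w₀') h'.par.pos
  have h1 : (NS O v T G ∩ U).Nonempty := ⟨ξ w₀, ⟨(h.par.mem _ hw₀).2 h.par.zero, _, _, _, _, _, _, _,
    _, _, h, rfl⟩, _, _, _, _, _, _, _, _, _, h, rfl, w₀, hw₀, rfl⟩
  have h2 : (NS O v T G ∩ V).Nonempty := ⟨ξ' w₀', ⟨(h'.par.mem _ hw₀').2 h'.par.zero, _, _, _, _, _,
    _, _, _, _, h', rfl⟩, _, _, _, _, _, _, _, _, _, h', hne, w₀', hw₀', rfl⟩
  obtain ⟨y, ⟨hyG, -⟩, ⟨ξ₁, w₁, r₁, γ₁, i₁, c₁, F₁, ν₁, K₁, g1, g2, w, hw, hwy⟩,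
    ξ₂, w₂, r₂, γ₂, i₂, c₂, F₂, ν₂, K₂, k1, k2, w', hw', hwy'⟩ := hconn U V hU hV hcov h1 h2
  obtain ⟨s₁, -, m1⟩ := g1.at hw (hwy ▸ hyG)
  obtain ⟨s₂, -, m2⟩ := k1.at hw' (hwy' ▸ hyG)
  have m3 := m1.unique hO hOG hL hN hT m2 (hwy.trans hwy'.symm)
  have hK₁ := g1.hK
  apply k2
  have m4 : ν * K₂ * K₁ = ν₂ * K * K₁ := by
    calc ν * K₂ * K₁ = (ν * K₁) * K₂ := by ring
      _ = ν₁ * K * K₂ := by rw [g2]
      _ = (ν₁ * K₂) * K := by ring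
      _ = (ν₂ * K₁) * K := by rw [m3]
      _ = _ := by ring
  exact Nat.eq_of_mul_eq_mul_right hK₁ m4

/-- maps which agree over `O` agree -/
theorem lim_eq (hO : Dense O) {S : Type} [TopologicalSpace S] [T2Space S] {b b' : Cm 4 → S}
    (h : IsPar G ξ w₀ r) (h' : IsPar G ξ' w₀' r') (heq : ξ w₀ = ξ' w₀') (hb : ContinuousAt b w₀)
    (hb' : ContinuousAt b' w₀')
    (hag : ∀ z ∈ ball w₀ r, ∀ z' ∈ ball w₀' r', ξ z = ξ' z' → ξ z ∈ O → b z = b' z') :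
    b w₀ = b' w₀' := by
  obtain ⟨ψ, C, hψ, hψ0, hψξ, -, -⟩ := exists_trans h h' heq
  have htψ : Tendsto ψ (𝓝 w₀) (𝓝 w₀') := by
    have := hψ.continuousAt.tendsto
    rwa [hψ0] at this
  set l : Filter (Cm 4) := 𝓝 w₀ ⊓ 𝓟 {w | ξ w ∈ O} with hl
  have hne : l.NeBot := by
    rw [hl, inf_principal_neBot_iff]
    intro U hU
    obtain ⟨w', k1, -, k2⟩ := IsPar.dense h hO (mem_ball_self h.pos) hU
    exact ⟨w', k1, k2⟩
  have hln : l ≤ 𝓝 w₀ := inf_le_left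
  have k1 : Tendsto b l (𝓝 (b w₀)) := hb.mono_left hln
  have k2 : Tendsto (fun w => b' (ψ w)) l (𝓝 (b' w₀')) :=
    (Tendsto.comp (y := 𝓝 w₀') hb' htψ).mono_left hln
  refine tendsto_nhds_unique k1 (k2.congr' ?_)
  have k3 : ∀ᶠ w in l, ξ w ∈ O := (mem_inf_of_right (mem_principal_self _) : {w | ξ w ∈ O} ∈ l)
  filter_upwards [k3, hln (isOpen_ball.mem_nhds (mem_ball_self h.pos)),
    hln (htψ.eventually (isOpen_ball.mem_nhds (mem_ball_self h'.pos))), hln hψξ] with w k4 k5 k6 k7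
  exact (hag w k5 _ k6 k7.symm k4).symm

/-- holomorphy of `vV ∘ ξ` -/
theorem holAt_par {V : CSp} {vV : Y → V.pt}
    (hvV : IsOpenEmb V univ vV) (h : IsPar G ξ w₀ r) {w : Cm 4} (hw : w ∈ ball w₀ r) :
    HolAt V (fun w => vV (ξ w)) w := by
  refine ⟨ContinuousAt.comp (g := vV) (f := ξ) (hvV.continuousAt (mem_univ _)) (h.cont w hw),
    fun g hg => ?_⟩
  have hat : At (chartAt (Cm 4) (ξ w)) (ξ w) := H19.at_chartAt _
  exact analyticAt_comp_chart (g := fun y => g (vV y)) (h.cont w hw) hat (h.an w hw _ hat).1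
    ((hvV.hol_iff (mem_univ _) hat).1 hg)

/-- the insertion of the hyperplane -/
def ins (u : Cm 3) : Cm 4 := Fin.cons 0 u

theorem analyticAt_ins (u : Cm 3) : AnalyticAt ℂ ins u := by
  rw [analyticAt_pi_iff]
  intro i
  refine Fin.cases ?_ (fun j => ?_) i
  · simp only [ins, Fin.cons_zero]
    exact analyticAt_const
  · simp only [ins, Fin.cons_succ]
    exact (ContinuousLinearMap.proj (R := ℂ) (φ := fun _ : Fin 3 => ℂ) j).analyticAt _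

theorem ins_tail {w : Cm 4} (h : w 0 = 0) : ins (fun j => w j.succ) = w := by
  ext i
  refine Fin.cases ?_ (fun j => ?_) i
  · simp [ins, h]
  · simp [ins]

theorem ins_zero (u : Cm 3) : ins u 0 = 0 := by simp [ins]

/-- zero sets in the hyperplane are thin -/
theorem dimLe_zero {V : CSp} {vV : Y → V.pt}
    (hvV : IsOpenEmb V univ vV) (h : IsPar G ξ w₀ r) {r₁ : ℝ} (hs : ball w₀ r₁ ⊆ ball w₀ r)
    {g : Cm 4 → ℂ} (hg : ∀ w ∈ ball w₀ r₁, AnalyticAt ℂ g w)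
    (hne : ∃ w ∈ ball w₀ r₁, w 0 = 0 ∧ g w ≠ 0) :
    DimLe V 2 ((fun w => vV (ξ w)) '' {w | w ∈ ball w₀ r₁ ∧ w 0 = 0 ∧ g w = 0}) := by
  obtain ⟨w₁, hw₁, hw₁0, hgw₁⟩ := hne
  have hcins : Continuous ins := continuous_iff_continuousAt.2 fun u => (analyticAt_ins u).continuousAt
  obtain ⟨W, k, hW, hk, hcov⟩ := H622.stB1 2 {u : Cm 3 | ins u ∈ ball w₀ r₁} (fun u => g (ins u))
    (isOpen_ball.preimage hcins)
    (fun u hu => AnalyticAt.fun_comp (g := g) (hg _ hu) (analyticAt_ins u)) (by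
      intro u hu hz
      have h1 : ∃ᶠ w in 𝓝 (ins u), w 0 = 0 ∧ g w ≠ 0 :=
        freq_ne h.zero hg hw₁ hw₁0 hu (ins_zero u) hgw₁
      have h2 : Tendsto (fun w : Cm 4 => (fun j : Fin 3 => w j.succ : Cm 3)) (𝓝 (ins u)) (𝓝 u) := by
        have h3 : Continuous fun w : Cm 4 => (fun j : Fin 3 => w j.succ : Cm 3) :=
          continuous_pi fun j => continuous_apply _
        have h4 := h3.tendsto (ins u)
        have h5 : (fun j : Fin 3 => ins u j.succ) = u := by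
          ext j; simp [ins]
        rwa [h5] at h4
      obtain ⟨w, ⟨k1, k2⟩, k3⟩ := (h1.and_eventually (h2.eventually hz)).exists
      simp only [ins_tail k1, Pi.zero_apply] at k3
      exact k2 k3)
  refine ⟨W, fun l p => vV (ξ (ins (k l p))), hW, ?_, ?_⟩
  · intro l p hp
    obtain ⟨h1, h2⟩ := hk l p hp
    have h3 : AnalyticAt ℂ (fun p => ins (k l p)) p :=
      AnalyticAt.fun_comp (g := ins) (analyticAt_ins _) h1
    exact HolAt.comp (γ := fun p => ins (k l p)) (holAt_par hvV h (hs h2)) h3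
  · rintro _ ⟨w, ⟨h1, h2, h3⟩, rfl⟩
    have h4 : (fun j => w j.succ : Cm 3) ∈
        {z | z ∈ {u : Cm 3 | ins u ∈ ball w₀ r₁} ∧ (fun u => g (ins u)) z = 0} := by
      refine ⟨?_, ?_⟩
      · show ins (fun j => w j.succ) ∈ ball w₀ r₁
        rw [ins_tail h2]; exact h1
      · show g (ins (fun j => w j.succ)) = 0
        rw [ins_tail h2]; exact h3
    obtain ⟨l, p, hp, hpw⟩ := mem_iUnion.1 (hcov h4)
    refine mem_iUnion.2 ⟨l, p, hp, ?_⟩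
    show vV (ξ (ins (k l p))) = vV (ξ w)
    rw [hpw, ins_tail h2]

end

/-- thin subsets of `Y`, in two languages -/
theorem thinY_of_dimLe {V : CSp} {vV : Y → V.pt} (hvV : IsOpenEmb V univ vV) {S : Set Y}
    (h : DimLe V 2 (vV '' S)) [Nonempty Y] : ThinY S := by
  obtain ⟨Ω, g, hΩ, hg, hcov⟩ := h
  obtain ⟨y₀⟩ := ‹Nonempty Y›
  set I : V.pt → Y := hvV.inv y₀ with hI
  have hIv : ∀ y, I (vV y) = y := fun y => hvV.inv_apply _ (mem_univ y)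
  refine ⟨fun k => {p | p ∈ Ω k ∧ g k p ∈ vV '' univ}, fun k p => I (g k p), ?_, ?_, ?_⟩
  · intro k
    rw [isOpen_iff_eventually]
    rintro p ⟨hp1, hp2⟩
    exact ((hΩ k).eventually_mem hp1).and ((hg k p hp1).1.eventually_mem
      (hvV.isOpen_image.mem_nhds hp2))
  · rintro k p ⟨hp1, y, -, hy⟩
    have hIy : I (g k p) = y := by rw [← hy, hIv]
    refine ⟨?_, ?_⟩
    · have h1 : ContinuousAt I (g k p) := by
        rw [← hy]; exact hvV.inv_continuousAt _ (mem_univ y)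
      exact ContinuousAt.comp (g := I) h1 (hg k p hp1).1
    · intro e he
      rw [analyticAt_pi_iff]
      intro a
      have hya : At e y := hIy ▸ he
      have h2 : V.Hol (fun x => e (I x) a) (g k p) := by
        rw [← hy]; exact hvV.hol_chart y₀ (mem_univ y) hya a
      exact (hg k p hp1).analyticAt h2
  · intro y hy
    obtain ⟨k, p, hp, hpy⟩ := mem_iUnion.1 (hcov ⟨y, hy, rfl⟩)
    refine mem_iUnion.2 ⟨k, p, ⟨hp, ?_⟩, ?_⟩
    · rw [hpy]; exact ⟨y, mem_univ _, rfl⟩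
    · show I (g k p) = y
      rw [hpy, hIv]

end Vale.Agent.P277.H615
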