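import Vale.Agent.P277.H615.Ord

/-!
# P277, T2: the orders along the exceptional divisors increase under flips
-/

open scoped Manifold ContDiff Topology
open Vale.Agent.P272.K Vale.Agent.P285.H281.FD Vale.Agent.P267.H175 Set Filter Metric

noncomputable section

namespace Vale.Agent.P277.H615

open Vale.Agent.P277 Vale.Agent.P277.T2 Vale.Agent.P277.H335

/-- sets which are locally thin are thin -/
theorem dimLe_of_local {V : CSp} [Nonempty V.pt] {d : ℕ} {S : Set V.pt}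
    (h : ∀ x ∈ S, ∃ U, IsOpen U ∧ x ∈ U ∧ DimLe V d (U ∩ S)) : DimLe V d S := by
  choose! U hU hxU hd using h
  obtain ⟨C, hC, hCU⟩ := TopologicalSpace.isOpen_iUnion_countable (fun x : S => U x)
    (fun x => hU x x.2)
  refine (dimLe_biUnion hC (T := fun x : S => U x ∩ S) fun x _ => hd x x.2).mono fun x hx => ?_
  have h1 : x ∈ ⋃ i ∈ C, U i.1 := by
    rw [hCU]; exact mem_iUnion.2 ⟨⟨x, hx⟩, hxU x hx⟩
  simp only [mem_iUnion] at h1 ⊢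
  obtain ⟨i, hi, hxi⟩ := h1
  exact ⟨i, hi, hxi, hx⟩

variable {Y : Type} [TopologicalSpace Y] [ChartedSpace (Cm 4) Y]

/-- the orders `α l` along the exceptional divisors `G l` -/
structure OrdD {V : CSp} (vV : Y → V.pt) {n : ℕ} (G : Fin n → Set Y) {X : CSp} {N : Bd Y}
    {L : Bd X.pt} (O : Set Y) (v : Y → X.pt) (T : L.ι → N.ι → Y → ℂ) (Q : ℕ) (α : Fin n → ℚ) :
    Prop where
  thin : ∀ l, DimLe V 2 (vV '' (G l \ NS O v T (G l)))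
  ord : ∀ l ξ w₀ r γ i c F ν K, NiceAt O v T (G l) ξ w₀ r γ i c F ν K →
    (ν : ℚ) = α l * (Q * K)

section conn

variable [T2Space Y] [CompactSpace Y] [IsManifold 𝓘(ℂ, Cm 4) ω Y] {X : CSp} {N : Bd Y}
  {L : Bd X.pt} {O : Set Y} {v : Y → X.pt} {P Q : ℕ} {T : L.ι → N.ι → Y → ℂ} {G : Set Y}

theorem NS_conn (hConn : StConn) [Nonempty Y] {V : CSp} {vV : Y → V.pt}
    (hvV : IsOpenEmb V univ vV) (hG : IsHyp G) (hGc : IsPreconnected G)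
    (h : DimLe V 2 (vV '' (G \ NS O v T G))) :
    G ⊆ closure (NS O v T G) ∧ IsPreconnected (NS O v T G) := by
  have h1 : G ∩ (NS O v T G)ᶜ = G \ NS O v T G := rfl
  have h2 : G \ (NS O v T G)ᶜ = NS O v T G := by
    ext y
    simp only [Set.mem_sdiff, mem_compl_iff, not_not]
    exact ⟨fun h => h.2, fun h => ⟨h.1, h⟩⟩
  obtain ⟨k1, k2⟩ := hConn Y G hG hGc (NS O v T G)ᶜ (by rw [h1]; exact thinY_of_dimLe hvV h)
  rw [h2] at k1 k2
  refine ⟨k1, k2 ?_⟩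
  rintro y ⟨hy, ξ, w₀, r, γ, i, c, F, ν, K, hn, rfl⟩
  refine ⟨ξ '' ball w₀ r, hn.isOpen_image, ⟨w₀, mem_ball_self hn.par.pos, rfl⟩, ?_⟩
  rw [compl_compl]
  exact hn.image_sub

end conn

section step

variable [T2Space Y] [CompactSpace Y] [IsManifold 𝓘(ℂ, Cm 4) ω Y] {V : CSp} {vV : Y → V.pt}
  {D : Set Y} {X Z X' : CSp} {N : Bd Y} {L : Bd X.pt} {O : Set Y}
  {v : Y → X.pt} {P Q : ℕ} {T : L.ι → N.ι → Y → ℂ} {L' : Bd X'.pt} {f : X.pt → Z.pt}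
  {f' : X'.pt → Z.pt} {A : Set Z.pt} {p q : ℕ} {s : L.ι → L'.ι → Z.pt → ℂ}

omit [T2Space Y] [CompactSpace Y] [IsManifold 𝓘(ℂ, Cm 4) ω Y] in
theorem thin_up [Nonempty V.pt] (hvV : IsOpenEmb V univ vV) (hlb : IsLBx X (L.pow P))
    (hiso : IsIsoY O v (L.pow P) (N.pow Q) T)
    (hf : IsFlip X Z X' f f' A (L.pow p) (L'.pow q)) (hA : A = Amin f)
    (hs : IsIso f f' A (L.pow p) (L'.pow q) s) {a : X.pt → L.ι} (ha : ∀ x, x ∈ L.U (a x))
    (hO' : Dense {y | y ∈ O ∧ f (v y) ∉ A}) {G : Set Y}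
    (h : DimLe V 2 (vV '' (G \ NS O v T G))) :
    DimLe V 2 (vV '' (G \ NS {y | y ∈ O ∧ f (v y) ∉ A} (fun y => hf.small'.sec (f (v y)))
      (stT v f P p T s a) G)) := by
  set NS' := NS {y | y ∈ O ∧ f (v y) ∉ A} (fun y => hf.small'.sec (f (v y)))
      (stT v f P p T s a) G with hNS'
  have h1 : DimLe V 2 (vV '' ((G \ NS') ∩ NS O v T G)) := by
    apply dimLe_of_local
    rintro _ ⟨_, ⟨-, hyG, ξ, w₀, r, γ, i, c, F, ν, K, hn, rfl⟩, rfl⟩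
    obtain ⟨r₁, g, hr₁, hs1, hg, hne, hgood⟩ := nice_up hlb hiso hf hA hs ha hO' hn
    refine ⟨vV '' (ξ '' ball w₀ r₁), hvV.isOpenMap _ (subset_univ _)
      (hn.par.openMap _ hs1 isOpen_ball), ⟨_, ⟨w₀, mem_ball_self hr₁, rfl⟩, rfl⟩, ?_⟩
    refine (dimLe_zero hvV hn.par hs1 hg hne).mono ?_
    rintro _ ⟨⟨_, ⟨w, hw, rfl⟩, rfl⟩, y, ⟨⟨hy1, hy2⟩, -⟩, hyw⟩
    have hyw' : y = ξ w := hvV.inj (mem_univ _) (mem_univ _) hyw
    subst hyw'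
    have hw0 : w 0 = 0 := (hn.par.mem w (hs1 hw)).1 hy1
    refine ⟨w, ⟨hw, hw0, ?_⟩, rfl⟩
    by_contra hgw
    obtain ⟨r₂, γ₁, b, F₁, k, μ, hk, hs2, hn', -, -⟩ := hgood w hw hw0 hgw
    exact hy2 ⟨hy1, _, _, _, _, _, _, _, _, _, hn', rfl⟩
  refine (h.union h1).mono ?_
  rintro _ ⟨y, ⟨hy1, hy2⟩, rfl⟩
  by_cases hy : y ∈ NS O v T G
  · exact Or.inr ⟨y, ⟨⟨hy1, hy2⟩, hy⟩, rfl⟩
  · exact Or.inl ⟨y, ⟨hy1, hy⟩, rfl⟩

theorem OrdD.step (hConn : StConn) [Nonempty Y] (hvV : IsOpenEmb V univ vV) {n : ℕ}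
    {G : Fin n → Set Y} (hG : ∀ l, IsHyp (G l)) (hGc : ∀ l, IsPreconnected (G l))
    (hGD : ∀ l, G l ⊆ D) (hN : CtBd N) (h : Tw0 vV D N X L O v P Q T) (hp : 1 ≤ p) (hq : 1 ≤ q)
    (hf : IsFlip X Z X' f f' A (L.pow p) (L'.pow q)) (hA : A = Amin f)
    (hs : IsIso f f' A (L.pow p) (L'.pow q) s) {a : X.pt → L.ι} (ha : ∀ x, x ∈ L.U (a x))
    (_hO : Dense O) (hO' : Dense {y | y ∈ O ∧ f (v y) ∉ A}) {α : Fin n → ℚ}
    (ho : OrdD vV G O v T Q α) :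
    ∃ α' : Fin n → ℚ, OrdD vV G {y | y ∈ O ∧ f (v y) ∉ A} (fun y => hf.small'.sec (f (v y)))
      (stT v f P p T s a) (Q * p) α' ∧ (∀ l, α l ≤ α' l) ∧
      ∀ l ξ w₀ r γ i c F ν K, NiceAt {y | y ∈ O ∧ f (v y) ∉ A}
        (fun y => hf.small'.sec (f (v y))) (stT v f P p T s a) (G l) ξ w₀ r γ i c F ν K →
        (∀ w ∈ ball w₀ r, w 0 = 0 → f' (γ w) ∈ A) → α l < α' l := by
  have hne : Nonempty V.pt := ⟨vV (Classical.arbitrary Y)⟩
  have h' := h.step (fun c => hN.isOpen c) hvV hp hq hf hs ha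
  set O' : Set Y := {y | y ∈ O ∧ f (v y) ∉ A} with hO'def
  set v' : Y → X'.pt := fun y => hf.small'.sec (f (v y)) with hv'
  set T' : L'.ι → N.ι → Y → ℂ := stT v f P p T s a with hT'
  have hthin : ∀ l, DimLe V 2 (vV '' (G l \ NS O' v' T' (G l))) := fun l =>
    thin_up hvV h.lb h.iso hf hA hs ha hO' (ho.thin l)
  have hcon := fun l => NS_conn hConn hvV (hG l) (hGc l) (hthin l)
  have hcon₀ := fun l => NS_conn hConn hvV (hG l) (hGc l) (ho.thin l)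
  have hOG : ∀ l, Disjoint O (G l) := fun l =>
    disjoint_left.2 fun y hy hyG => h.sub hy (hGD l hyG)
  have hOG' : ∀ l, Disjoint O' (G l) := fun l => (hOG l).mono_left fun y hy => hy.1
  have hpQ : (0 : ℚ) < p := by exact_mod_cast hp
  have hQQ : (0 : ℚ) < Q := by exact_mod_cast h.hQ
  have hPQ : (0 : ℚ) < P := by exact_mod_cast h.hP
  -- definition of `α'`
  have hex : ∀ l, ∃ a' : ℚ, ∀ ξ w₀ r γ i c F ν K, NiceAt O' v' T' (G l) ξ w₀ r γ i c F ν K →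
      (ν : ℚ) = a' * ((Q * p : ℕ) * K) := by
    intro l
    by_cases hn : ∃ ξ w₀ r γ i c F ν K, NiceAt O' v' T' (G l) ξ w₀ r γ i c F ν K
    · obtain ⟨ξ, w₀, r, γ, i, c, F, ν, K, hn⟩ := hn
      have hK : (0 : ℚ) < K := by exact_mod_cast hn.hK
      refine ⟨(ν : ℚ) / ((Q * p : ℕ) * K), ?_⟩
      intro ξ₁ w₁ r₁ γ₁ i₁ c₁ F₁ ν₁ K₁ hn₁
      have h1 := hn.const hO' (hOG' l) h'.lb hN h'.iso (hcon l).2 hn₁
      have h2 : (ν : ℚ) * K₁ = ν₁ * K := by exact_mod_cast h1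
      have h3 : ((Q * p : ℕ) : ℚ) ≠ 0 := by
        push_cast; positivity
      field_simp
      linarith
    · push Not at hn
      exact ⟨0, fun ξ w₀ r γ i c F ν K h => (hn ξ w₀ r γ i c F ν K h).elim⟩
  choose α₀ hα₀ using hex
  -- comparison
  have hcmp : ∀ l y, y ∈ NS O v T (G l) → ∀ (U : Set Y), IsOpen U → y ∈ U →
      (∀ ξ w₀ r γ i c F ν K, NiceAt O v T (G l) ξ w₀ r γ i c F ν K → ξ '' ball w₀ r ⊆ U →
        ∀ w ∈ ball w₀ r, w 0 = 0 → f (γ w) ∈ A) → α l < α₀ l := by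
    rintro l y ⟨hyG, ξ, w₀, r, γ, i, c, F, ν, K, hn, rfl⟩ U hU hyU hall
    obtain ⟨r', hr', hs'⟩ : ∃ r' > 0, ball w₀ r' ⊆ ball w₀ r ∩ ξ ⁻¹' U := by
      have h1 : ∀ᶠ w in 𝓝 w₀, w ∈ ball w₀ r ∧ ξ w ∈ U :=
        (isOpen_ball.eventually_mem (mem_ball_self hn.par.pos)).and
          ((hn.par.cont _ (mem_ball_self hn.par.pos)).eventually_mem (hU.mem_nhds hyU))
      obtain ⟨r', hr', h2⟩ := Metric.eventually_nhds_iff_ball.1 h1
      exact ⟨r', hr', h2⟩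
    have hn' := hn.restrict hn.par.zero hr' (hs'.trans inter_subset_left)
    have hn'A := hall _ _ _ _ _ _ _ _ _ hn' (image_subset_iff.2 (hs'.trans inter_subset_right))
    obtain ⟨r₁, g, hr₁, hs1, hg, ⟨w₁, hw₁, hw₁0, hgw₁⟩, hgood⟩ :=
      nice_up h.lb h.iso hf hA hs ha hO' hn'
    obtain ⟨r₂, γ₁, b, F₁, k, μ, hk, hs2, hn₂, -, hμ⟩ := hgood w₁ hw₁ hw₁0 hgw₁
    have e1 := hα₀ l _ _ _ _ _ _ _ _ _ hn₂
    have e2 := ho.ord l _ _ _ _ _ _ _ _ _ hn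
    have hμ1 : (1 : ℚ) ≤ μ := by exact_mod_cast hμ hn'A
    have hK : (0 : ℚ) < K := by exact_mod_cast hn.hK
    have hkQ : (0 : ℚ) < k := by exact_mod_cast hk
    push_cast at e1
    rw [e2] at e1
    by_contra hcon
    rw [not_lt] at hcon
    have e3 : α₀ l * (Q * p * (K * k)) ≤ α l * (Q * p * (K * k)) :=
      mul_le_mul_of_nonneg_right hcon (by positivity)
    have e4 : (0 : ℚ) < μ * (P * K) := by positivity
    nlinarith
  have hcmp' : ∀ l y, y ∈ NS O v T (G l) → α l ≤ α₀ l := by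
    rintro l y ⟨hyG, ξ, w₀, r, γ, i, c, F, ν, K, hn, rfl⟩
    obtain ⟨r₁, g, hr₁, hs1, hg, ⟨w₁, hw₁, hw₁0, hgw₁⟩, hgood⟩ :=
      nice_up h.lb h.iso hf hA hs ha hO' hn
    obtain ⟨r₂, γ₁, b, F₁, k, μ, hk, hs2, hn₂, -, -⟩ := hgood w₁ hw₁ hw₁0 hgw₁
    have e1 := hα₀ l _ _ _ _ _ _ _ _ _ hn₂
    have e2 := ho.ord l _ _ _ _ _ _ _ _ _ hn
    have hK : (0 : ℚ) < K := by exact_mod_cast hn.hK
    have hkQ : (0 : ℚ) < k := by exact_mod_cast hk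
    push_cast at e1
    rw [e2] at e1
    by_contra hcon
    rw [not_le] at hcon
    have e3 : α₀ l * (Q * p * (K * k)) < α l * (Q * p * (K * k)) :=
      mul_lt_mul_of_pos_right hcon (by positivity)
    have e4 : (0 : ℚ) ≤ μ * (P * K) := by positivity
    nlinarith
  classical
  refine ⟨fun l => if (G l).Nonempty then α₀ l else α l, ⟨hthin, ?_⟩, ?_, ?_⟩
  · intro l ξ w₀ r γ i c F ν K hn
    have h1 : (G l).Nonempty := ⟨ξ w₀, (hn.par.mem _ (mem_ball_self hn.par.pos)).2 hn.par.zero⟩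
    simp only [h1, if_true]
    exact hα₀ l _ _ _ _ _ _ _ _ _ hn
  · intro l
    by_cases hl : (G l).Nonempty
    · simp only [hl, if_true]
      obtain ⟨y, hy⟩ := hl
      have h1 : (NS O v T (G l)).Nonempty := by
        have h2 := (hcon₀ l).1 hy
        rw [mem_closure_iff_nhds] at h2
        obtain ⟨z, -, hz⟩ := h2 univ univ_mem
        exact ⟨z, hz⟩
      obtain ⟨z, hz⟩ := h1
      exact hcmp' l z hz
    · simp only [hl, if_false, le_refl]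
  · intro l ξ w₀ r γ i c F ν K hn hnA
    have hG0 : ξ w₀ ∈ G l := (hn.par.mem _ (mem_ball_self hn.par.pos)).2 hn.par.zero
    have h1 : (G l).Nonempty := ⟨_, hG0⟩
    simp only [h1, if_true]
    -- a point of `NS` near `ξ w₀`
    obtain ⟨y, hyU, hy⟩ := mem_closure_iff_nhds.1 ((hcon₀ l).1 hG0) (ξ '' ball w₀ r)
      (hn.isOpen_image.mem_nhds ⟨w₀, mem_ball_self hn.par.pos, rfl⟩)
    refine hcmp l y hy (ξ '' ball w₀ r) hn.isOpen_image hyU ?_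
    intro ξ₁ w₁ r₁ γ₁ i₁ c₁ F₁ ν₁ K₁ hn₁ hsub w hw hw0
    obtain ⟨w', hw', hww'⟩ := hsub ⟨w, hw, rfl⟩
    have hwG : ξ₁ w ∈ G l := (hn₁.par.mem w hw).2 hw0
    have hw'0 : w' 0 = 0 := (hn.par.mem w' hw').1 (by rw [hww']; exact hwG)
    obtain ⟨s₁, hs₁, m₁⟩ := hn₁.at hw hwG
    obtain ⟨s₂, hs₂, m₂⟩ := hn.at hw' (by rw [hww']; exact hwG)
    have key : f (γ₁ w) = f' (γ w') := by
      refine lim_eq (b := fun z => f (γ₁ z)) (b' := fun z => f' (γ z)) hO' m₁.par m₂.par hww'.symm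
        ((hf.small.cont.continuousAt).comp (hn₁.hol w hw).1)
        ((hf.small'.cont.continuousAt).comp (hn.hol w' hw').1) ?_
      intro z hz z' hz' hzz' hzO
      show f (γ₁ z) = f' (γ z')
      rw [m₁.eq z hz hzO.1, m₂.eq z' hz' (by rw [← hzz']; exact hzO), ← hzz']
      exact (hf.small'.sec_eq _).symm
    rw [key]
    exact hnA w' hw' hw'0

end step

end Vale.Agent.P277.H615
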