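import Vale.Agent.P277.Stmts21
import Vale.Agent.P277.Stmts19
import Vale.Agent.P277.H29.CY.Fin3
import Vale.Agent.P277.H884.T4

/-!
# P277, T5: flips which are nonpositive for a canonical NQC pair
-/

set_option linter.unusedSectionVars false

open scoped Manifold ContDiff Topology
open Vale.Agent.P272.K Vale.Agent.P285.H281.FD Vale.Agent.P267.H175 Set Filter Metric

noncomputable section

namespace Vale.Agent.P277.H615

open Vale.Agent.P277 Vale.Agent.P277.T2 Vale.Agent.P277.T3 Vale.Agent.P277.H29.CY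

/-- (T5N) from (T4) -/
theorem stT5N_of (hT : StT4F) : StT5N := by
  intro Y _ _ _ _ _ χ hχ k s M hM hnef m hm hm0 ρ σ hρ hσ hρσ hsum hsum' H _ _ _ _ _ _ ι sg hbd
    hdisj W X Z r v p P G hres hne f f' A L c hc n hn hflip N hNl hNi hNs hNf
  -- the choice of `lam`
  have e1 : ∀ᶠ t : ℝ in 𝓝 0, ∀ l, 0 < ∑ e, σ e * n e l / c 0 e →
      0 < t * (∑ e, ρ e * n e l / c 0 e) + (1 - t) * ∑ e, σ e * n e l / c 0 e := by
    rw [eventually_all]
    intro l
    by_cases h : 0 < ∑ e, σ e * n e l / c 0 e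
    · filter_upwards [ev_pos h] with t ht _ using ht
    · exact Eventually.of_forall fun t h' => absurd h' h
  have e2 : ∀ᶠ t : ℝ in 𝓝 0, ∀ i : Fin s, σ (Fin.natAdd k i) < 1 →
      0 < t * (1 - ρ (Fin.natAdd k i)) + (1 - t) * (1 - σ (Fin.natAdd k i)) := by
    rw [eventually_all]
    intro i
    by_cases h : σ (Fin.natAdd k i) < 1
    · filter_upwards [ev_pos (a := 1 - ρ (Fin.natAdd k i)) (sub_pos.2 h)] with t ht _ using ht
    · exact Eventually.of_forall fun t h' => absurd h' h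
  have e3 : ∀ᶠ t : ℝ in 𝓝[>] 0, t < 1 := by
    have : ∀ᶠ t : ℝ in 𝓝 0, t < 1 := gt_mem_nhds zero_lt_one
    exact this.filter_mono nhdsWithin_le_nhds
  have e4 : ∀ᶠ t : ℝ in 𝓝[>] 0, 0 < t := self_mem_nhdsWithin
  obtain ⟨lam, ⟨⟨h1, h2⟩, h3⟩, h4⟩ := ((((e1.filter_mono nhdsWithin_le_nhds).and
    (e2.filter_mono nhdsWithin_le_nhds)).and e3).and e4).exists
  have h5 : 0 < 1 - lam := by linarith
  -- the new weights
  set ρ' : Fin (k + s) → ℝ := fun e => lam * ρ e + (1 - lam) * σ e with hρ'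
  have hsumn : ∀ l, ∑ e, ρ' e * n e l / c 0 e =
      lam * (∑ e, ρ e * n e l / c 0 e) + (1 - lam) * ∑ e, σ e * n e l / c 0 e := by
    intro l
    rw [Finset.mul_sum, Finset.mul_sum, ← Finset.sum_add_distrib]
    refine Finset.sum_congr rfl fun e _ => ?_
    simp only [hρ']
    ring
  refine hT Y χ hχ k s M hM hnef m hm hm0 ρ' (fun e => ?_) ?_ H ι sg hbd hdisj W X Z r v p P G
    hres hne f f' A L c hc n hn (fun j => ?_) N (fun l hl => hNl l ?_) (fun i hi => hNi i ?_)
    hNs hNf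
  · have h6 := hρ e
    have h7 := hσ e
    have h8 := hρσ e
    rcases h6.eq_or_lt with h9 | h9
    · have h10 : 0 < σ e := by linarith
      show 0 < lam * ρ e + (1 - lam) * σ e
      have := mul_pos h5 h10
      rw [← h9]
      linarith
    · show 0 < lam * ρ e + (1 - lam) * σ e
      have := mul_pos h4 h9
      have := mul_nonneg h5.le h7
      linarith
  · have h6 : ∑ e, ρ' e * m e = lam * (∑ e, ρ e * m e) + (1 - lam) * ∑ e, σ e * m e := by
      rw [Finset.mul_sum, Finset.mul_sum, ← Finset.sum_add_distrib]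
      refine Finset.sum_congr rfl fun e _ => ?_
      simp only [hρ']
      ring
    rw [h6, hsum, hsum']
    ring
  · exact hflip j lam h4 h3.le
  · -- the bad `G l`
    rw [hsumn] at hl
    rcases lt_trichotomy (∑ e, σ e * n e l / c 0 e) 0 with h6 | h6 | h6
    · exact Or.inl h6
    · refine Or.inr ⟨h6, ?_⟩
      rw [h6, mul_zero, add_zero] at hl
      by_contra hcon
      exact absurd hl (not_lt.2 (mul_nonneg h4.le (not_lt.1 hcon)))
    · exact absurd hl (not_lt.2 (h1 l h6).le)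
  · -- the bad `H i`
    have hi' : 1 ≤ lam * ρ (Fin.natAdd k i) + (1 - lam) * σ (Fin.natAdd k i) := hi
    rcases lt_trichotomy (σ (Fin.natAdd k i)) 1 with h6 | h6 | h6
    · have := h2 i h6
      linarith
    · refine Or.inr ⟨h6, ?_⟩
      rw [h6, mul_one] at hi'
      by_contra hcon
      have := mul_lt_mul_of_pos_left (not_le.1 hcon) h4
      linarith
    · exact Or.inl h6

/-- **Theorem T5N** -/
theorem stT5N : T3.StT5N := stT5N_of H884.N.stT4F

/-- the theorem with semiample divisors is a special case -/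
theorem stT5C_of_N (h5 : T3.StT5N) : T3.StT5C := by
  intro Y _ _ _ _ _ χ hχ k s M hM hnef m hm hm0 ρ σ hρ hσ hρσ hsum hsum' H _ _ _ _ _ _ ι sg hbd
    hdisj W X Z r v p P G hres hne f f' A L c hc n hn hflip hσt N hNl hNi hNs hNf
  refine h5 Y χ hχ k s M hM hnef m hm hm0 ρ σ hρ hσ hρσ hsum hsum' H ι sg hbd hdisj W X Z r v p P G
    hres hne f f' A L c hc n hn (fun j t h0 h1 => ?_) N hNl hNi hNs hNf
  rcases h1.lt_or_eq with h2 | h2
  · exact flip_all hflip hσt h0 h2 j
  · subst h2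
    simpa using hflip j

end Vale.Agent.P277.H615
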