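import Vale.Agent.P277.H615.Nice
import Vale.Agent.P277.H615.Tw2
import Vale.Agent.P277.H615.TBr
import Vale.Agent.P277.H615.D3

/-!
# P277, T2: extension of the map `Y ⇢ X` through a flip near the exceptional divisors
-/

open scoped Manifold ContDiff Topology
open Vale.Agent.P272.K Vale.Agent.P285.H281.FD Vale.Agent.P267.H175 Set Filter Metric

noncomputable section

namespace Vale.Agent.P277.H615

open Vale.Agent.P277 Vale.Agent.P277.T2 Vale.Agent.P277.H335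
open Vale.Agent.P277.H19 (exists_max_pow)

variable {Y : Type} [TopologicalSpace Y] [ChartedSpace (Cm 4) Y]

variable {X Z X' : CSp} {N : Bd Y} {L : Bd X.pt} {O : Set Y}
  {v : Y → X.pt} {P Q : ℕ} {T : L.ι → N.ι → Y → ℂ} {L' : Bd X'.pt} {f : X.pt → Z.pt}
  {f' : X'.pt → Z.pt} {A : Set Z.pt} {p q : ℕ} {s : L.ι → L'.ι → Z.pt → ℂ}
  {G : Set Y} {ξ : Cm 4 → Y} {w₀ : Cm 4} {r : ℝ} {γ : Cm 4 → X.pt} {i : L.ι}
  {c : N.ι} {F : Cm 4 → ℂ} {ν K : ℕ}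

theorem nice_up (hlb : IsLBx X (L.pow P)) (hiso : IsIsoY O v (L.pow P) (N.pow Q) T)
    (hf : IsFlip X Z X' f f' A (L.pow p) (L'.pow q)) (hA : A = Amin f)
    (hs : IsIso f f' A (L.pow p) (L'.pow q) s) {a : X.pt → L.ι} (ha : ∀ x, x ∈ L.U (a x))
    (hO' : Dense {y | y ∈ O ∧ f (v y) ∉ A})
    (h : NiceAt O v T G ξ w₀ r γ i c F ν K) :
    ∃ (r₁ : ℝ) (g : Cm 4 → ℂ), 0 < r₁ ∧ ball w₀ r₁ ⊆ ball w₀ r ∧
      (∀ w ∈ ball w₀ r₁, AnalyticAt ℂ g w) ∧ (∃ w₁ ∈ ball w₀ r₁, w₁ 0 = 0 ∧ g w₁ ≠ 0) ∧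
      ∀ w₁ ∈ ball w₀ r₁, w₁ 0 = 0 → g w₁ ≠ 0 →
        ∃ (r₂ : ℝ) (γ₁ : Cm 4 → X'.pt) (b : L'.ι) (F₁ : Cm 4 → ℂ) (k μ : ℕ), 1 ≤ k ∧
          ball w₁ r₂ ⊆ ball w₀ r ∧
          NiceAt {y | y ∈ O ∧ f (v y) ∉ A} (fun y => hf.small'.sec (f (v y)))
            (stT v f P p T s a) G ξ w₁ r₂ γ₁ b c F₁ (ν * (p * k) + μ * (P * K)) (K * k) ∧
          (∀ w ∈ ball w₁ r₂, f' (γ₁ w) = f (γ w)) ∧
          ((∀ w ∈ ball w₀ r, w 0 = 0 → f (γ w) ∈ A) → 1 ≤ μ) := by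
  set O' : Set Y := {y | y ∈ O ∧ f (v y) ∉ A} with hO'def
  have hγA : ∀ w ∈ ball w₀ r, ξ w ∈ O' → f (γ w) ∉ A := by
    intro w hw hwO
    rw [h.eq w hw hwO.1]; exact hwO.2
  have hdense : ball w₀ r ⊆ closure {w | w ∈ ball w₀ r ∧ f (γ w) ∉ A} := by
    intro w hw
    rw [mem_closure_iff_nhds]
    intro U hU
    obtain ⟨w', k1, k2, k3⟩ := IsPar.dense h.par hO' hw hU
    exact ⟨w', k1, k2, hγA w' k2 k3⟩
  have hsymm := IsFlip.symm hf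
  have hA' : A = Amin f' := by rw [hA]; exact amin_eq hf
  have hiso' := IsIso.inv (IsIso.symm hf.lb hf.lb' hs)
  obtain ⟨r₁, g, hr₁, hsub, hg, hgne, hgood⟩ := stTBr X' Z X f' f A _ _ hsymm hA' _ hiso'
    (ball w₀ r) isOpen_ball w₀ (mem_ball_self h.par.pos) h.par.zero γ h.hol hdense
  refine ⟨r₁, g, hr₁, hsub, hg, hgne, ?_⟩
  intro w₁ hw₁ hw₁0 hgw₁
  obtain ⟨W₁, γ₁, k, hW₁, hw₁W₁, hW₁s, hγ₁, hk, hH⟩ := hgood w₁ hw₁ hw₁0 hgw₁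
  obtain ⟨b, hb⟩ := hf.lb'.cover (γ₁ w₁)
  have hb' : γ₁ w₁ ∈ L'.U b := hb
  have hc₁ : ContinuousOn γ₁ W₁ := fun w hw => (hγ₁ w hw).1.1.continuousWithinAt
  have hW₂ : IsOpen (W₁ ∩ γ₁ ⁻¹' L'.U b) := hc₁.isOpen_inter_preimage hW₁ (hf.lb'.isOpen b)
  have hw₁W₂ : w₁ ∈ W₁ ∩ γ₁ ⁻¹' L'.U b := ⟨hw₁W₁, hb'⟩
  obtain ⟨H, hHa, hHs, hH0⟩ := hH (W₁ ∩ γ₁ ⁻¹' L'.U b) inter_subset_left b i
    (fun w hw => hw.2) (fun w hw => h.memU w (hW₁s hw.1))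
  have hHs' : ∀ w ∈ W₁ ∩ γ₁ ⁻¹' L'.U b, ξ w ∈ O' → H w * s i b (f (γ w)) ^ k = 1 := by
    intro w hw hwO
    have k1 := hγA w (hW₁s hw.1) hwO
    have k2 : f' (γ₁ w) = f (γ w) := (hγ₁ w hw.1).2
    have k3 := hHs w hw (by rw [k2]; exact k1)
    simp only [inv_inv] at k3
    rw [k2] at k3
    exact k3
  have hnz : ¬ ∀ᶠ w in 𝓝 w₁, H w = 0 := by
    intro hz
    obtain ⟨w', ⟨k1, k2⟩, k3, k4⟩ := IsPar.dense h.par hO' (hsub hw₁)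
      (hz.and (hW₂.mem_nhds hw₁W₂))
    have k5 := hHs' w' k2 k4
    rw [k1, zero_mul] at k5
    exact zero_ne_one k5
  obtain ⟨μ, H₁, hH₁, hHH₁, hH₁ne⟩ := exists_max_pow (hHa w₁ hw₁W₂) hw₁0 hnz
  have hevW : ∀ᶠ w in 𝓝 w₁, w ∈ W₁ ∩ γ₁ ⁻¹' L'.U b := hW₂.mem_nhds hw₁W₂
  obtain ⟨r₂, hr₂, hball⟩ := Metric.eventually_nhds_iff_ball.1
    (hevW.and (hHH₁.and hH₁.eventually_analyticAt))
  have hs2 : ball w₁ r₂ ⊆ ball w₀ r := fun w hw => hW₁s (hball w hw).1.1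
  have hH₁fr : ∃ᶠ w in 𝓝 w₁, w 0 = 0 ∧ H₁ w ≠ 0 := by
    rw [Filter.not_eventually] at hH₁ne
    refine hH₁ne.mono fun w hw => ?_
    push Not at hw
    exact hw
  refine ⟨r₂, γ₁, b, fun w => F w ^ (p * k) * H₁ w ^ (P * K), k, μ, hk, hs2, ?_,
    fun w hw => (hγ₁ w (hball w hw).1.1).2, ?_⟩
  · refine ⟨h.par.restrict hw₁0 hr₂ hs2, Nat.mul_pos h.hK hk,
      fun w hw => (hγ₁ w (hball w hw).1.1).1, fun w hw => (hball w hw).1.2,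
      fun w hw => h.memN w (hs2 hw), ?_, ?_, ?_, ?_⟩
    · intro w hw hwO
      have k2 : f' (γ₁ w) = f (γ w) := (hγ₁ w (hball w hw).1.1).2
      have k3 : γ w = v (ξ w) := h.eq w (hs2 hw) hwO.1
      refine hf.small'.inj _ _ ?_ ?_
      · rw [hf.small'.sec_eq]; exact hwO.2
      · rw [hf.small'.sec_eq, k2, k3]
    · intro w hw
      exact ((h.an w (hs2 hw)).pow _).mul ((hball w hw).2.2.pow _)
    · intro w hw hwO
      have k3 : γ w = v (ξ w) := h.eq w (hs2 hw) hwO.1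
      have k4 : hf.small'.sec (f (v (ξ w))) = γ₁ w := by
        refine hf.small'.inj _ _ ?_ ?_
        · rw [(hγ₁ w (hball w hw).1.1).2, k3]; exact hwO.2
        · rw [hf.small'.sec_eq, (hγ₁ w (hball w hw).1.1).2, k3]
      have k5 := stT_eq hiso hlb hf hs ha hwO.1 hwO.2 (a₁ := i) (b := b) (c := c)
        (by rw [← k3]; exact h.memU w (hs2 hw)) (by rw [k4]; exact (hball w hw).1.2)
        (h.memN w (hs2 hw))
      have k6 := hHs' w (hball w hw).1 hwO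
      rw [k3] at k6
      have k7 := h.rel w (hs2 hw) hwO.1
      have k8 := (hball w hw).2.1
      show w 0 ^ (ν * (p * k) + μ * (P * K)) * (F w ^ (p * k) * H₁ w ^ (P * K)) =
        stT v f P p T s a b c (ξ w) ^ (K * k)
      rw [k5]
      show _ = (T i c (ξ w) ^ p / s i b (f (v (ξ w))) ^ P) ^ (K * k)
      generalize s i b (f (v (ξ w))) = u at *
      generalize T i c (ξ w) = t at *
      have hu : u ^ k ≠ 0 := right_ne_zero_of_mul (k6.trans_ne one_ne_zero)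
      have h6 : H w = (u ^ k)⁻¹ := eq_inv_of_mul_eq_one_left k6
      calc w 0 ^ (ν * (p * k) + μ * (P * K)) * (F w ^ (p * k) * H₁ w ^ (P * K))
          = (w 0 ^ ν * F w) ^ (p * k) * (w 0 ^ μ * H₁ w) ^ (P * K) := by
            rw [pow_add, mul_pow, mul_pow, ← pow_mul, ← pow_mul]; ring
        _ = (t ^ K) ^ (p * k) * ((u ^ k)⁻¹) ^ (P * K) := by rw [k7, ← k8, h6]
        _ = _ := by
          rw [div_pow, div_eq_mul_inv, inv_pow]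
          congr 1
          · rw [← pow_mul, ← pow_mul]; congr 1; ring
          · congr 1
            rw [← pow_mul, ← pow_mul]; congr 1; ring
    · have k1 := freq_mul hw₁0 ((h.an w₁ (hsub hw₁))) hH₁ (h.freq (hsub hw₁) hw₁0) hH₁fr
      obtain ⟨w, ⟨k2, k3, k4⟩, k5⟩ := (k1.and_eventually
        (isOpen_ball.mem_nhds (mem_ball_self hr₂))).exists
      exact ⟨w, k5, k2, mul_ne_zero (pow_ne_zero _ k3) (pow_ne_zero _ k4)⟩
  · intro hAll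
    by_contra hμ
    have hμ0 : μ = 0 := by omega
    have k1 := hH0 hAll
    obtain ⟨w, ⟨k2, k3⟩, k4⟩ := (hH₁fr.and_eventually (hevW.and hHH₁)).exists
    have k5 := k1 w k4.1 k2
    rw [k4.2, hμ0, pow_zero, one_mul] at k5
    exact k3 k5

end Vale.Agent.P277.H615
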